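import Vale.Agent.P237.All.Small.Large.Cert
import Vale.Agent.P237.All.Small.Large.DataA0
import Vale.Agent.P237.All.Small.Large.DataA1
import Vale.Agent.P237.All.Small.Large.DataA2
import Vale.Agent.P237.All.Small.Large.DataA3
import Vale.Agent.P237.All.Small.Large.DataA4
import Vale.Agent.P237.All.Small.Large.DataA5
import Vale.Agent.P237.All.Small.Large.DataA6
import Vale.Agent.P237.All.Small.Large.DataA7
import Vale.Agent.P237.All.Small.Large.DataA8
import Vale.Agent.P237.All.Small.Large.DataA9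
import Vale.Agent.P237.All.Small.Large.DataA10
import Vale.Agent.P237.All.Small.Large.DataA11
import Vale.Agent.P237.All.Small.Large.DataA12
import Vale.Agent.P237.All.Small.Large.DataA13

/-!
P237, every dimension: the certificate for `p ≥ 99` at every excess
`k ∈ [exp (-5/4 √(p + 1)) / 5, .0134]`, from the slices of `cellA`.
-/

noncomputable section

open Real Set

namespace Vale.Agent.P237.All.Transport.Small.Large

open Mid (rn)

private theorem certA0 {p : ℕ} {k : ℝ} (hp : 29 ≤ p) (h0 : rn 0 ≤ tau p) (h1 : tau p ≤ rn 4096)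
    (hkl : exp (-(5 / 4 * √((p : ℝ) + 1))) / 5 ≤ k) (hkK : k ≤ rn cellA.K) :
    HasCert p (exp (k / ((p : ℝ) + 1)) * (2 * mass (p + 1) semi 1)) :=
  hasCert_slice (c := cellA) (tc := 2048) (hh := 2048) (x1 := 201326592) (zk := 0) (kap := 2516582) hp h0 h1 sliceA0 (by decide +kernel) (by decide +kernel)
    (by rw [farTest, farA0, Bool.and_true]; exact Bool.or_eq_true_iff.2 (Or.inr (by decide +kernel))) hkl (fun h => absurd h (by decide)) hkK

private theorem certA1 {p : ℕ} {k : ℝ} (hp : 29 ≤ p) (h0 : rn 4096 ≤ tau p) (h1 : tau p ≤ rn 5872)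
    (hkl : exp (-(5 / 4 * √((p : ℝ) + 1))) / 5 ≤ k) (hkK : k ≤ rn cellA.K) :
    HasCert p (exp (k / ((p : ℝ) + 1)) * (2 * mass (p + 1) semi 1)) :=
  hasCert_slice (c := cellA) (tc := 4984) (hh := 888) (x1 := 851951616) (zk := 1342013432) (kap := 0) hp h0 h1 sliceA1 (by decide +kernel) (by decide +kernel)
    (by rw [farTest, farA1]; rfl) hkl (fun h => absurd h (by decide)) hkK

private theorem certA2 {p : ℕ} {k : ℝ} (hp : 29 ≤ p) (h0 : rn 5872 ≤ tau p) (h1 : tau p ≤ rn 8388)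
    (hkl : exp (-(5 / 4 * √((p : ℝ) + 1))) / 5 ≤ k) (hkK : k ≤ rn cellA.K) :
    HasCert p (exp (k / ((p : ℝ) + 1)) * (2 * mass (p + 1) semi 1)) :=
  hasCert_slice (c := cellA) (tc := 7130) (hh := 1258) (x1 := 711524352) (zk := 1120781155) (kap := 0) hp h0 h1 sliceA2 (by decide +kernel) (by decide +kernel)
    (by rw [farTest, farA2]; rfl) hkl (fun h => absurd h (by decide)) hkK

private theorem certA3 {p : ℕ} {k : ℝ} (hp : 29 ≤ p) (h0 : rn 8388 ≤ tau p) (h1 : tau p ≤ rn 11744)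
    (hkl : exp (-(5 / 4 * √((p : ℝ) + 1))) / 5 ≤ k) (hkK : k ≤ rn cellA.K) :
    HasCert p (exp (k / ((p : ℝ) + 1)) * (2 * mass (p + 1) semi 1)) :=
  hasCert_slice (c := cellA) (tc := 10066) (hh := 1678) (x1 := 595427328) (zk := 937674389) (kap := 0) hp h0 h1 sliceA3 (by decide +kernel) (by decide +kernel)
    (by rw [farTest, farA3]; rfl) hkl (fun h => absurd h (by decide)) hkK

private theorem certA4 {p : ℕ} {k : ℝ} (hp : 29 ≤ p) (h0 : rn 11744 ≤ tau p) (h1 : tau p ≤ rn 16778)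
    (hkl : exp (-(5 / 4 * √((p : ℝ) + 1))) / 5 ≤ k) (hkK : k ≤ rn cellA.K) :
    HasCert p (exp (k / ((p : ℝ) + 1)) * (2 * mass (p + 1) semi 1)) :=
  hasCert_slice (c := cellA) (tc := 14261) (hh := 2517) (x1 := 503316480) (zk := 792373206) (kap := 0) hp h0 h1 sliceA4 (by decide +kernel) (by decide +kernel)
    (by rw [farTest, farA4]; rfl) hkl (fun h => absurd h (by decide)) hkK

private theorem certA5 {p : ℕ} {k : ℝ} (hp : 29 ≤ p) (h0 : rn 16777 ≤ tau p) (h1 : tau p ≤ rn 23489)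
    (hkl : exp (-(5 / 4 * √((p : ℝ) + 1))) / 5 ≤ k) (hkK : k ≤ rn cellA.K) :
    HasCert p (exp (k / ((p : ℝ) + 1)) * (2 * mass (p + 1) semi 1)) :=
  hasCert_slice (c := cellA) (tc := 20133) (hh := 3356) (x1 := 421101568) (zk := 662850294) (kap := 0) hp h0 h1 sliceA5 (by decide +kernel) (by decide +kernel)
    (by rw [farTest, farA5]; rfl) hkl (fun h => absurd h (by decide)) hkK

private theorem certA6 {p : ℕ} {k : ℝ} (hp : 29 ≤ p) (h0 : rn 23488 ≤ tau p) (h1 : tau p ≤ rn 33554)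
    (hkl : exp (-(5 / 4 * √((p : ℝ) + 1))) / 5 ≤ k) (hkK : k ≤ rn cellA.K) :
    HasCert p (exp (k / ((p : ℝ) + 1)) * (2 * mass (p + 1) semi 1)) :=
  hasCert_slice (c := cellA) (tc := 28521) (hh := 5033) (x1 := 356007936) (zk := 560096194) (kap := 0) hp h0 h1 sliceA6 (by decide +kernel) (by decide +kernel)
    (by rw [farTest, farA6]; rfl) hkl (fun h => absurd h (by decide)) hkK

private theorem certA7 {p : ℕ} {k : ℝ} (hp : 29 ≤ p) (h0 : rn 33554 ≤ tau p) (h1 : tau p ≤ rn 46976)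
    (hkl : exp (-(5 / 4 * √((p : ℝ) + 1))) / 5 ≤ k) (hkK : k ≤ rn cellA.K) :
    HasCert p (exp (k / ((p : ℝ) + 1)) * (2 * mass (p + 1) semi 1)) :=
  hasCert_slice (c := cellA) (tc := 40265) (hh := 6711) (x1 := 297959424) (zk := 468471295) (kap := 0) hp h0 h1 sliceA7 (by decide +kernel) (by decide +kernel)
    (by rw [farTest, farA7]; rfl) hkl (fun h => absurd h (by decide)) hkK

private theorem certA8 {p : ℕ} {k : ℝ} (hp : 29 ≤ p) (h0 : rn 46976 ≤ tau p) (h1 : tau p ≤ rn 65432)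
    (hkl : exp (-(5 / 4 * √((p : ℝ) + 1))) / 5 ≤ k) (hkK : k ≤ rn cellA.K) :
    HasCert p (exp (k / ((p : ℝ) + 1)) * (2 * mass (p + 1) semi 1)) :=
  hasCert_slice (c := cellA) (tc := 56204) (hh := 9228) (x1 := 251985920) (zk := 395770100) (kap := 0) hp h0 h1 sliceA8 (by decide +kernel) (by decide +kernel)
    (by rw [farTest, farA8]; rfl) hkl (fun h => absurd h (by decide)) hkK

private theorem certA9 {p : ℕ} {k : ℝ} (hp : 29 ≤ p) (h0 : rn 65431 ≤ tau p) (h1 : tau p ≤ rn 90597)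
    (hkl : exp (-(5 / 4 * √((p : ℝ) + 1))) / 5 ≤ k) (hkK : k ≤ rn cellA.K) :
    HasCert p (exp (k / ((p : ℝ) + 1)) * (2 * mass (p + 1) semi 1)) :=
  hasCert_slice (c := cellA) (tc := 78014) (hh := 12583) (x1 := 213581824) (zk := 335157971) (kap := 0) hp h0 h1 sliceA9 (by decide +kernel) (by decide +kernel)
    (by rw [farTest, farA9]; rfl) hkl (fun h => absurd h (by decide)) hkK

private theorem certA10 {p : ℕ} {k : ℝ} (hp : 29 ≤ p) (h0 : rn 90596 ≤ tau p) (h1 : tau p ≤ rn 120796)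
    (hkl : exp (-(5 / 4 * √((p : ℝ) + 1))) / 5 ≤ k) (hkK : k ≤ rn cellA.K) :
    HasCert p (exp (k / ((p : ℝ) + 1)) * (2 * mass (p + 1) semi 1)) :=
  hasCert_slice (c := cellA) (tc := 105696) (hh := 15100) (x1 := 181534720) (zk := 284616182) (kap := 0) hp h0 h1 sliceA10 (by decide +kernel) (by decide +kernel)
    (by rw [farTest, farA10]; rfl) hkl (fun h => absurd h (by decide)) hkK

private theorem certA11 {p : ℕ} {k : ℝ} (hp : 29 ≤ p) (h0 : rn 120795 ≤ tau p) (h1 : tau p ≤ rn 144285)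
    (hkl : exp (-(5 / 4 * √((p : ℝ) + 1))) / 5 ≤ k) (hkK : k ≤ rn cellA.K) :
    HasCert p (exp (k / ((p : ℝ) + 1)) * (2 * mass (p + 1) semi 1)) :=
  hasCert_slice (c := cellA) (tc := 132540) (hh := 11745) (x1 := 157204480) (zk := 246261363) (kap := 0) hp h0 h1 sliceA11 (by decide +kernel) (by decide +kernel)
    (by rw [farTest, farA11]; rfl) hkl (fun h => absurd h (by decide)) hkK

private theorem certA12 {p : ℕ} {k : ℝ} (hp : 29 ≤ p) (h0 : rn 144284 ≤ tau p) (h1 : tau p ≤ rn 159384)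
    (hkl : exp (-(5 / 4 * √((p : ℝ) + 1))) / 5 ≤ k) (hkK : k ≤ rn cellA.K) :
    HasCert p (exp (k / ((p : ℝ) + 1)) * (2 * mass (p + 1) semi 1)) :=
  hasCert_slice (c := cellA) (tc := 151834) (hh := 7550) (x1 := 143949824) (zk := 225167255) (kap := 0) hp h0 h1 sliceA12 (by decide +kernel) (by decide +kernel)
    (by rw [farTest, farA12]; rfl) hkl (fun h => absurd h (by decide)) hkK

private theorem certA13 {p : ℕ} {k : ℝ} (hp : 29 ≤ p) (h0 : rn 159383 ≤ tau p) (h1 : tau p ≤ rn 166113)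
    (hkl : exp (-(5 / 4 * √((p : ℝ) + 1))) / 5 ≤ k) (hkK : k ≤ rn cellA.K) :
    HasCert p (exp (k / ((p : ℝ) + 1)) * (2 * mass (p + 1) semi 1)) :=
  hasCert_slice (c := cellA) (tc := 162748) (hh := 3365) (x1 := 137576448) (zk := 214139168) (kap := 0) hp h0 h1 sliceA13 (by decide +kernel) (by decide +kernel)
    (by rw [farTest, farA13]; rfl) hkl (fun h => absurd h (by decide)) hkK

/-- The certificate on the low cell. -/
theorem hasCert_low {p : ℕ} (hp : 99 ≤ p) {k : ℝ} (hkl : exp (-(5 / 4 * √((p : ℝ) + 1))) / 5 ≤ k)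
    (hk : k ≤ 67 / 5000) : HasCert p (exp (k / ((p : ℝ) + 1)) * (2 * mass (p + 1) semi 1)) := by
  have hkK : k ≤ rn cellA.K := hk.trans (by norm_num [rn, cellA])
  have h29 : 29 ≤ p := by omega
  have h1 : tau p ≤ rn 166113 := by
    have : (99 : ℝ) ≤ p := by exact_mod_cast hp
    rw [tau, rn, div_le_div_iff₀ (by positivity) (by norm_num)]
    norm_num
    linarith
  rcases le_or_gt (tau p) (rn 4096) with g0 | g0
  · exact certA0 h29 (by rw [rn]; simp only [Nat.cast_zero, zero_div]; exact (tau_pos p).le) g0 hkl hkK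
  rcases le_or_gt (tau p) (rn 5872) with g1 | g1
  · exact certA1 h29 ((Mid.rn_le (by decide : 4096 ≤ 4096)).trans g0.le) g1 hkl hkK
  rcases le_or_gt (tau p) (rn 8388) with g2 | g2
  · exact certA2 h29 ((Mid.rn_le (by decide : 5872 ≤ 5872)).trans g1.le) g2 hkl hkK
  rcases le_or_gt (tau p) (rn 11744) with g3 | g3
  · exact certA3 h29 ((Mid.rn_le (by decide : 8388 ≤ 8388)).trans g2.le) g3 hkl hkK
  rcases le_or_gt (tau p) (rn 16778) with g4 | g4
  · exact certA4 h29 ((Mid.rn_le (by decide : 11744 ≤ 11744)).trans g3.le) g4 hkl hkK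
  rcases le_or_gt (tau p) (rn 23489) with g5 | g5
  · exact certA5 h29 ((Mid.rn_le (by decide : 16777 ≤ 16778)).trans g4.le) g5 hkl hkK
  rcases le_or_gt (tau p) (rn 33554) with g6 | g6
  · exact certA6 h29 ((Mid.rn_le (by decide : 23488 ≤ 23489)).trans g5.le) g6 hkl hkK
  rcases le_or_gt (tau p) (rn 46976) with g7 | g7
  · exact certA7 h29 ((Mid.rn_le (by decide : 33554 ≤ 33554)).trans g6.le) g7 hkl hkK
  rcases le_or_gt (tau p) (rn 65432) with g8 | g8
  · exact certA8 h29 ((Mid.rn_le (by decide : 46976 ≤ 46976)).trans g7.le) g8 hkl hkK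
  rcases le_or_gt (tau p) (rn 90597) with g9 | g9
  · exact certA9 h29 ((Mid.rn_le (by decide : 65431 ≤ 65432)).trans g8.le) g9 hkl hkK
  rcases le_or_gt (tau p) (rn 120796) with g10 | g10
  · exact certA10 h29 ((Mid.rn_le (by decide : 90596 ≤ 90597)).trans g9.le) g10 hkl hkK
  rcases le_or_gt (tau p) (rn 144285) with g11 | g11
  · exact certA11 h29 ((Mid.rn_le (by decide : 120795 ≤ 120796)).trans g10.le) g11 hkl hkK
  rcases le_or_gt (tau p) (rn 159384) with g12 | g12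
  · exact certA12 h29 ((Mid.rn_le (by decide : 144284 ≤ 144285)).trans g11.le) g12 hkl hkK
  exact certA13 h29 ((Mid.rn_le (by decide : 159383 ≤ 159384)).trans g12.le) h1 hkl hkK

end Vale.Agent.P237.All.Transport.Small.Large
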