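import Vale.Agent.P237.All.Small.Large.Cert
import Vale.Agent.P237.All.Tiny.MidBound
import Vale.Agent.P237.All.Small.Large.DataB0
import Vale.Agent.P237.All.Small.Large.DataC0
import Vale.Agent.P237.All.Small.Large.DataD0
import Vale.Agent.P237.All.Small.Large.DataE0
import Vale.Agent.P237.All.Small.Large.DataF0

/-!
P237, every dimension: the certificate for `51 ≤ p ≤ 98` at every excess between the threshold of
`Tiny/MidBound` and `.0134`, from the slices of `cellB`, .., `cellF` (`notes/P237h4/low`).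
-/

noncomputable section

open Real Set

namespace Vale.Agent.P237.All.Transport.Small.Large

open Mid (rn)

/-- The bound `exp (-zk) / 5 ≤ k` from one comparison of naturals. -/
private theorem zk_floor {zk a : ℕ} {k : ℝ}
    (h : Nat.ble (16777216 * 16777216 * 1000000) (Nat.mul (Nat.mul 5 a) (Nat.mul 16777216 (Mid.expLo zk))) = true)
    (hk : (a : ℝ) / 1000000 ≤ k) : exp (-rn zk) / 5 ≤ k := by
  have h2 : (16777216 : ℝ) * 16777216 * 1000000 ≤ 5 * (a : ℝ) * (16777216 * (Mid.expLo zk : ℕ)) := by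
    exact_mod_cast Nat.le_of_ble_eq_true h
  have h3 : (1 : ℝ) ≤ 5 * ((a : ℝ) / 1000000) * rn (Mid.expLo zk) := by
    rw [rn]; field_simp at h2 ⊢; linarith
  have h4 : (1 : ℝ) ≤ 5 * k * exp (rn zk) :=
    h3.trans ((mul_le_mul_of_nonneg_left (Mid.expLo_sound zk) (by positivity)).trans
      (mul_le_mul_of_nonneg_right (by linarith) (exp_pos _).le))
  have h5 : exp (-rn zk) * exp (rn zk) = 1 := by rw [← Real.exp_add]; simp
  have h6 := exp_pos (-rn zk)
  nlinarith [mul_le_mul_of_nonneg_left h4 h6.le]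

/-- The threshold of `crude` without a cell threshold is below the one of the cell. -/
private theorem lower_of_zk {p zk : ℕ} {k : ℝ} (hp : 51 ≤ p) (hz : rn zk ≤ 9)
    (h : exp (-rn zk) / 5 ≤ k) : exp (-(5 / 4 * √((p : ℝ) + 1))) / 5 ≤ k := by
  refine le_trans ?_ h
  have hs : (36 : ℝ) / 5 ≤ √((p : ℝ) + 1) := by
    rw [Real.le_sqrt (by norm_num) (by positivity)]
    have : (51 : ℝ) ≤ p := by exact_mod_cast hp
    linarith
  have : exp (-(5 / 4 * √((p : ℝ) + 1))) ≤ exp (-rn zk) := exp_le_exp.2 (by linarith)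
  linarith

/-- The threshold of `Tiny/MidBound` from below on a range of dimensions. -/
private theorem mid_ge {a p0 n p : ℕ} (h : (List.range n).all
    (fun i => Nat.ble a (Tiny.midK.getD (p0 - 29 + i) 0)) = true) (h0 : 29 ≤ p0) (hp : p0 ≤ p)
    (hp' : p < p0 + n) {k : ℝ} (hk : (Tiny.midKOf p : ℝ) ≤ k) : (a : ℝ) / 1000000 ≤ k := by
  refine le_trans ?_ hk
  have h1 := Nat.le_of_ble_eq_true (List.all_eq_true.1 h (p - p0) (List.mem_range.2 (by omega)))
  rw [show p0 - 29 + (p - p0) = p - 29 by omega] at h1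
  rw [Tiny.midKOf]
  push_cast
  gcongr

/-- The dimensions 51 to 54. -/
private theorem certB {p : ℕ} (hp : 51 ≤ p) (hp' : p ≤ 54) {k : ℝ} (hkl : (Tiny.midKOf p : ℝ) ≤ k)
    (hk : k ≤ 67 / 5000) : HasCert p (exp (k / ((p : ℝ) + 1)) * (2 * mass (p + 1) semi 1)) := by
  have hz := zk_floor (zk := 50298880) (a := 9980) (by decide +kernel)
    (mid_ge (p0 := 51) (n := 4) (by decide +kernel) (by omega) hp (by omega) hkl)
  have h0 : rn 299592 ≤ tau p := by
    have : (p : ℝ) ≤ 54 := by exact_mod_cast hp'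
    rw [tau, rn, div_le_div_iff₀ (by norm_num) (by positivity)]
    norm_num
    linarith
  have h1 : tau p ≤ rn 316552 := by
    have : (51 : ℝ) ≤ p := by exact_mod_cast hp
    rw [tau, rn, div_le_div_iff₀ (by positivity) (by norm_num)]
    norm_num
    linarith
  exact hasCert_slice (c := cellB) (tc := 308072) (hh := 8480) (x1 := 113508352) (zk := 50298880) (kap := 0) (by omega)
    h0 h1 sliceB0 (by decide +kernel) (by decide +kernel) (by rw [farTest, farB0]; rfl)
    (lower_of_zk (by omega) (by norm_num [rn]) hz) (fun _ => hz) (hk.trans (by norm_num [rn, cellB]))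

/-- The dimensions 55 to 60. -/
private theorem certC {p : ℕ} (hp : 55 ≤ p) (hp' : p ≤ 60) {k : ℝ} (hkl : (Tiny.midKOf p : ℝ) ≤ k)
    (hk : k ≤ 67 / 5000) : HasCert p (exp (k / ((p : ℝ) + 1)) * (2 * mass (p + 1) semi 1)) := by
  have hz := zk_floor (zk := 59146240) (a := 5890) (by decide +kernel)
    (mid_ge (p0 := 55) (n := 6) (by decide +kernel) (by omega) hp (by omega) hkl)
  have h0 : rn 270600 ≤ tau p := by
    have : (p : ℝ) ≤ 60 := by exact_mod_cast hp'
    rw [tau, rn, div_le_div_iff₀ (by norm_num) (by positivity)]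
    norm_num
    linarith
  have h1 : tau p ≤ rn 294338 := by
    have : (55 : ℝ) ≤ p := by exact_mod_cast hp
    rw [tau, rn, div_le_div_iff₀ (by positivity) (by norm_num)]
    norm_num
    linarith
  exact hasCert_slice (c := cellC) (tc := 282469) (hh := 11869) (x1 := 113508352) (zk := 59146240) (kap := 0) (by omega)
    h0 h1 sliceC0 (by decide +kernel) (by decide +kernel) (by rw [farTest, farC0]; rfl)
    (lower_of_zk (by omega) (by norm_num [rn]) hz) (fun _ => hz) (hk.trans (by norm_num [rn, cellC]))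

/-- The dimensions 61 to 68. -/
private theorem certD {p : ℕ} (hp : 61 ≤ p) (hp' : p ≤ 68) {k : ℝ} (hkl : (Tiny.midKOf p : ℝ) ≤ k)
    (hk : k ≤ 67 / 5000) : HasCert p (exp (k / ((p : ℝ) + 1)) * (2 * mass (p + 1) semi 1)) := by
  have hz := zk_floor (zk := 70979584) (a := 2910) (by decide +kernel)
    (mid_ge (p0 := 61) (n := 8) (by decide +kernel) (by omega) hp (by omega) hkl)
  have h0 : rn 239674 ≤ tau p := by
    have : (p : ℝ) ≤ 68 := by exact_mod_cast hp'
    rw [tau, rn, div_le_div_iff₀ (by norm_num) (by positivity)]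
    norm_num
    linarith
  have h1 : tau p ≤ rn 266306 := by
    have : (61 : ℝ) ≤ p := by exact_mod_cast hp
    rw [tau, rn, div_le_div_iff₀ (by positivity) (by norm_num)]
    norm_num
    linarith
  exact hasCert_slice (c := cellD) (tc := 252990) (hh := 13316) (x1 := 113508352) (zk := 70979584) (kap := 0) (by omega)
    h0 h1 sliceD0 (by decide +kernel) (by decide +kernel) (by rw [farTest, farD0]; rfl)
    (lower_of_zk (by omega) (by norm_num [rn]) hz) (fun _ => hz) (hk.trans (by norm_num [rn, cellD]))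

/-- The dimensions 69 to 81. -/
private theorem certE {p : ℕ} (hp : 69 ≤ p) (hp' : p ≤ 81) {k : ℝ} (hkl : (Tiny.midKOf p : ℝ) ≤ k)
    (hk : k ≤ 67 / 5000) : HasCert p (exp (k / ((p : ℝ) + 1)) * (2 * mass (p + 1) semi 1)) := by
  have hz := zk_floor (zk := 90312704) (a := 919) (by decide +kernel)
    (mid_ge (p0 := 69) (n := 13) (by decide +kernel) (by omega) hp (by omega) hkl)
  have h0 : rn 202134 ≤ tau p := by
    have : (p : ℝ) ≤ 81 := by exact_mod_cast hp'
    rw [tau, rn, div_le_div_iff₀ (by norm_num) (by positivity)]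
    norm_num
    linarith
  have h1 : tau p ≤ rn 236300 := by
    have : (69 : ℝ) ≤ p := by exact_mod_cast hp
    rw [tau, rn, div_le_div_iff₀ (by positivity) (by norm_num)]
    norm_num
    linarith
  exact hasCert_slice (c := cellE) (tc := 219217) (hh := 17083) (x1 := 121896960) (zk := 90312704) (kap := 0) (by omega)
    h0 h1 sliceE0 (by decide +kernel) (by decide +kernel) (by rw [farTest, farE0]; rfl)
    (lower_of_zk (by omega) (by norm_num [rn]) hz) (fun _ => hz) (hk.trans (by norm_num [rn, cellE]))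

/-- The dimensions 82 to 98. -/
private theorem certF {p : ℕ} (hp : 82 ≤ p) (hp' : p ≤ 98) {k : ℝ} (hkl : (Tiny.midKOf p : ℝ) ≤ k)
    (hk : k ≤ 67 / 5000) : HasCert p (exp (k / ((p : ℝ) + 1)) * (2 * mass (p + 1) semi 1)) := by
  have hz := zk_floor (zk := 115404800) (a := 206) (by decide +kernel)
    (mid_ge (p0 := 82) (n := 17) (by decide +kernel) (by omega) hp (by omega) hkl)
  have h0 : rn 167772 ≤ tau p := by
    have : (p : ℝ) ≤ 98 := by exact_mod_cast hp'
    rw [tau, rn, div_le_div_iff₀ (by norm_num) (by positivity)]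
    norm_num
    linarith
  have h1 : tau p ≤ rn 199730 := by
    have : (82 : ℝ) ≤ p := by exact_mod_cast hp
    rw [tau, rn, div_le_div_iff₀ (by positivity) (by norm_num)]
    norm_num
    linarith
  exact hasCert_slice (c := cellF) (tc := 183751) (hh := 15979) (x1 := 133431296) (zk := 115404800) (kap := 0) (by omega)
    h0 h1 sliceF0 (by decide +kernel) (by decide +kernel) (by rw [farTest, farF0]; rfl)
    (lower_of_zk (by omega) (by norm_num [rn]) hz) (fun _ => hz) (hk.trans (by norm_num [rn, cellF]))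

/-- The certificate on the low cell below `p = 99`. -/
theorem hasCert_low_mid {p : ℕ} (hp : 51 ≤ p) (hp' : p ≤ 98) {k : ℝ} (hkl : (Tiny.midKOf p : ℝ) ≤ k)
    (hk : k ≤ 67 / 5000) : HasCert p (exp (k / ((p : ℝ) + 1)) * (2 * mass (p + 1) semi 1)) := by
  rcases le_or_gt p 54 with gB | gB
  · exact certB (by omega) gB hkl hk
  rcases le_or_gt p 60 with gC | gC
  · exact certC (by omega) gC hkl hk
  rcases le_or_gt p 68 with gD | gD
  · exact certD (by omega) gD hkl hk
  rcases le_or_gt p 81 with gE | gE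
  · exact certE (by omega) gE hkl hk
  exact certF (by omega) hp' hkl hk

end Vale.Agent.P237.All.Transport.Small.Large
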