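import Vale.Agent.P237.All.Small.Large.Coef
import Vale.Agent.P237.All.Small.Region

/-!
P237, every dimension, excess `k ≤ .0134`: the band either side of `y` in the checker's `ψ`, and the
two bounds on the half mass.
-/

noncomputable section

open MeasureTheory Real Set intervalIntegral

namespace Vale.Agent.P237.All.Transport.Small.Large

open Mid (Pt XP epsP ups phi)

variable {p : ℕ} {k kb y t r lam ψ : ℝ}

theorem eps_tau (p : ℕ) : epsP p * (1 - tau p) = tau p := by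
  rw [(tau_facts p (y := 0)).1, epsP, tau]; field_simp

theorem eps_nonneg (p : ℕ) : 0 ≤ epsP p := (Mid.eps_pos p).le

/-- `υ` in `ψ`. -/
theorem ups_psi (hy : 0 < y) (hθ : t - y = k * tau p * y * ψ) :
    ups p y t = k * ((1 - tau p) * ψ) := by
  have := (Mid.eps_pos p).ne'
  rw [ups, hθ, div_eq_iff (by positivity)]
  linear_combination -(k * y * ψ) * eps_tau p

theorem gamma_le (hp : 1 ≤ p) (hk : k ≤ 1) : 1 / (1 + epsP p - k * epsP p / 2) ≤ 1 := by
  have hε := Mid.eps_pos p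
  have h1 : 0 ≤ epsP p - k * epsP p / 2 := by nlinarith
  rw [div_le_one (by linarith)]
  linarith

theorem k_eps (hp : 1 ≤ p) (hk : k ≤ 1) : k * epsP p < 2 := by
  nlinarith [Mid.eps_pos p, Mid.eps_le_one p]

/-- The band behind `y`. -/
theorem psi_behind (h : Pt p k y t r lam) (hp : 29 ≤ p) (hk : 0 < k) (hk1 : k ≤ 1)
    (hθ : t - y = k * tau p * y * ψ) {x0 den A : ℝ} (hx0 : 0 ≤ x0) (hx : x0 ^ 2 ≤ XP p y) (hden : 0 < den)
    (hd : den ≤ XP p y + (1 - XP p y * tau p) *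
      (x0 * (x0 + 313 / 100) / (x0 ^ 2 + 313 / 100 * x0 + 201 / 50)))
    (hA : (1 - XP p y * tau p) / (1 - tau p) / den ≤ A) : -A ≤ ψ := by
  have hS := (tau_facts p (y := y)).2.2.2
  rw [hS] at hd hA
  have hb := band_behind h hp hk.le (k_eps (by omega) hk1) (gamma_le (by omega) hk1) hx0 hx hden hd
  rw [ups_psi h.hy.1 hθ] at hb
  have h1 : 0 < 1 - tau p := by rw [(tau_facts p (y := y)).1]; positivity
  have h2 : -((1 - y ^ 2) / den) ≤ (1 - tau p) * ψ := by
    refine le_of_mul_le_mul_left (le_trans (le_of_eq ?_) hb) hk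
    ring
  rw [div_div, mul_comm (1 - tau p) den, ← div_div, div_le_iff₀ h1] at hA
  nlinarith

/-- The band ahead of `y`. -/
theorem psi_ahead (h : Pt p k y t r lam) (hp : 1 ≤ p) (hk : 0 < k) (hk1 : k ≤ 1) (hkb : k ≤ kb)
    (hθ : t - y = k * tau p * y * ψ) (hfwd : mass p semi t ≤ lam ^ p * mass p semi y)
    {hb T P e : ℝ} (hH : mass p semi y ≤ hb * (y * semi y ^ p)) (hT : 0 ≤ T)
    (hPh : -1 < y * (1 + kb * ((1 - tau p) * T) * epsP p) ∧
      y * (1 + kb * ((1 - tau p) * T) * epsP p) < 1 ∧ phi p y (kb * ((1 - tau p) * T)) ≤ P)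
    (hP : 0 ≤ P) (he : exp (epsP p * P) ≤ e) (hlt : hb * e < (1 - tau p) * T) : ψ ≤ T := by
  have h1 : 0 < 1 - tau p := by rw [(tau_facts p (y := y)).1]; positivity
  have := band_ahead h hk (k_eps hp hk1) hkb hfwd (gamma_le hp hk1) hH (mul_nonneg h1.le hT) hPh hP he
    (by rw [one_mul]; exact hlt)
  rw [ups_psi h.hy.1 hθ] at this
  exact le_of_mul_le_mul_left (le_of_mul_le_mul_left this hk) h1

/-- `semi y ^ (-p)`. -/
theorem semi_pow_inv (p : ℕ) (hy : y ∈ Ioo (0 : ℝ) 1) {u1 e : ℝ} (hu : y ^ 2 ≤ u1) (hu1 : u1 < 1)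
    (he : exp ((p : ℝ) * y ^ 2 / 2 * (1 + u1 / (2 * (1 - u1)))) ≤ e) : 1 ≤ e * semi y ^ p := by
  have h := (Mid.semi_inv_le p hy (n := (p : ℝ)) rfl hu hu1).trans
    he
  have hs := pow_pos (semi_pos (t := y) ⟨by linarith [hy.1], hy.2⟩) p
  rwa [inv_le_iff_one_le_mul₀ hs] at h

/-- The half mass, crude. -/
theorem mass_le_one (p : ℕ) (hy : y ∈ Ioo (0 : ℝ) 1) {e : ℝ} (he : 1 ≤ e * semi y ^ p) :
    mass p semi y ≤ e * (y * semi y ^ p) := by
  have hm : mass p semi y ≤ y := by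
    refine (intervalIntegral.integral_mono_on hy.1.le ((semi_continuous.pow p).intervalIntegrable _ _)
      intervalIntegrable_const fun v hv => pow_le_one₀ (Real.sqrt_nonneg _) ?_).trans
      (le_of_eq (by rw [intervalIntegral.integral_const, smul_eq_mul, sub_zero, mul_one]))
    rw [semi, Real.sqrt_le_one]; nlinarith
  have := mul_le_mul_of_nonneg_left he hy.1.le
  linarith

/-- The half mass from the tail. -/
theorem mass_le_tail (p : ℕ) (hy : y ∈ Ioo (0 : ℝ) 1) {Qm e hb x : ℝ}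
    (hQ : mass p semi 1 * √((p : ℝ) + 2) ≤ Qm) (he : 1 ≤ e * semi y ^ p)
    (hx : x = √((p : ℝ) + 2) * y) (hhb : Qm * e - (1 - y ^ 2) / Middle.mills2 x ≤ hb * x) :
    mass p semi y ≤ hb * (y * semi y ^ p) := by
  have hsA : 0 < √((p : ℝ) + 2) := Real.sqrt_pos.2 (by positivity)
  have h := Middle.tail_ge3 p (Ioo_subset_Icc_self hy)
  rw [← hx, pow_add, semi_sq ⟨by linarith [hy.1], hy.2.le⟩] at h
  have h2 := mul_le_mul_of_nonneg_left h hsA.le
  rw [← mul_div_assoc, mul_div_mul_left _ _ hsA.ne'] at h2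
  have hs : 0 ≤ semi y ^ p := pow_nonneg (Real.sqrt_nonneg _) _
  have h3 := mul_le_mul_of_nonneg_right hhb hs
  have hQ0 : 0 ≤ Qm := le_trans (mul_nonneg (mass_one_pos isProfile_semi p).le hsA.le) hQ
  have h4 := mul_le_mul_of_nonneg_left he hQ0
  refine le_of_mul_le_mul_left (a := √((p : ℝ) + 2)) ?_ hsA
  have e1 : hb * x * semi y ^ p = √((p : ℝ) + 2) * (hb * (y * semi y ^ p)) := by rw [hx]; ring
  have e2 : semi y ^ p * (1 - y ^ 2) / Middle.mills2 x =
      (1 - y ^ 2) / Middle.mills2 x * semi y ^ p := by ring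
  linarith

end Vale.Agent.P237.All.Transport.Small.Large
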