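import Vale.Agent.P237.All.Small.Large.Coef
import Vale.Agent.P237.All.Mid.Moment

/-!
P237, every dimension, excess `k ≤ .0134`: the budget.  In `x = √(p + 2) y` the weight `semi y ^ (p + 1)`
is below `exp (-q)`, which is convex where `(1 - 2 τ) x ^ 2 ≥ 1` and has second derivative at least `-1`
everywhere.
-/

noncomputable section

open Real Set MeasureTheory intervalIntegral

namespace Vale.Agent.P237.All.Transport.Small.Large

/-- The exponent of the weight. -/
def qB (t x : ℝ) : ℝ := (1 - t) * (x ^ 2 / 2 + t * x ^ 4 / 4)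

theorem weight_le {p : ℕ} {x : ℝ} (hx : 0 ≤ x) (hx1 : x ≤ √((p : ℝ) + 2)) :
    semi (x / √((p : ℝ) + 2)) ^ (p + 1) ≤ exp (-qB (tau p) x) := by
  have hs : 0 < √((p : ℝ) + 2) := Real.sqrt_pos.2 (by positivity)
  set y := x / √((p : ℝ) + 2) with hy
  have hy0 : 0 ≤ y := div_nonneg hx hs.le
  have hy1 : y ≤ 1 := (div_le_one hs).2 hx1
  have hu : y ^ 2 = x ^ 2 * tau p := by
    rw [hy, div_pow, Real.sq_sqrt (by positivity), tau]; ring
  rcases eq_or_lt_of_le hy1 with h1 | h1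
  · rw [h1]; simp [semi, zero_pow (Nat.succ_ne_zero p), (exp_pos _).le]
  have hu1 : y ^ 2 < 1 := by nlinarith
  have hl : y ^ 2 + (y ^ 2) ^ 2 / 2 ≤ -log (1 - y ^ 2) := by
    have hh := sum_le_hasSum (Finset.range 2) (fun i _ => by positivity)
      (Real.hasSum_pow_div_log_of_abs_lt_one (x := y ^ 2) (by rwa [abs_of_nonneg (sq_nonneg y)]))
    simp only [Finset.sum_range_succ, Finset.sum_range_zero, Nat.cast_zero, Nat.cast_one, zero_add] at hh
    linarith
  have hS : 0 < 1 - y ^ 2 := by linarith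
  refine (Real.log_le_iff_le_exp (pow_pos (Real.sqrt_pos.2 hS) _)).1 ?_
  rw [Real.log_pow, Real.log_sqrt hS.le]
  have := mul_le_mul_of_nonneg_left hl (show (0 : ℝ) ≤ ((p : ℝ) + 1) / 2 by positivity)
  push_cast
  have e : qB (tau p) x = ((p : ℝ) + 1) / 2 * (y ^ 2 + (y ^ 2) ^ 2 / 2) := by
    rw [qB, hu, (tau_facts p (y := 0)).1, tau]; field_simp; ring
  linarith

theorem qB_deriv (t x : ℝ) : HasDerivAt (qB t) ((1 - t) * (x + t * x ^ 3)) x := by
  refine ((((hasDerivAt_pow 2 x).div_const 2).add (((hasDerivAt_pow 4 x).const_mul t).div_const 4)).const_mul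
    (1 - t)).congr_deriv ?_
  simp only [Nat.cast_ofNat, show 2 - 1 = 1 from rfl, show 4 - 1 = 3 from rfl, pow_one]; ring

/-- `exp (-q) + c x ^ 2 / 2` is convex. -/
theorem weight_convex {t a b c : ℝ} (ht : 0 ≤ t) (ht4 : t ≤ 1 / 4) (ha : 0 ≤ a) (hc0 : 0 ≤ c)
    (hc : 1 ≤ c ∨ 1 ≤ (1 - 2 * t) * a ^ 2) :
    ConvexOn ℝ (Icc a b) fun x => exp (-qB t x) + c * x ^ 2 / 2 := by
  set q1 := fun x : ℝ => (1 - t) * (x + t * x ^ 3) with hq1
  refine convexOn_of_hasDerivWithinAt2_nonneg (convex_Icc a b)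
    (Continuous.continuousOn (by unfold qB; fun_prop))
    (f' := fun x => -q1 x * exp (-qB t x) + c * x)
    (f'' := fun x => (q1 x ^ 2 - (1 - t) * (1 + 3 * t * x ^ 2)) * exp (-qB t x) + c)
    (fun x _ => ?_) (fun x _ => ?_) fun x hx => ?_
  · refine (((qB_deriv t x).neg.exp).add (((hasDerivAt_pow 2 x).const_mul c).div_const 2)).hasDerivWithinAt.congr_deriv ?_
    simp only [hq1]; norm_num; ring
  · have h1 : HasDerivAt q1 ((1 - t) * (1 + t * (3 * x ^ 2))) x := by
      refine (((hasDerivAt_id x).add ((hasDerivAt_pow 3 x).const_mul t)).const_mul (1 - t)).congr_deriv ?_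
      norm_num
    refine ((h1.neg.mul (qB_deriv t x).neg.exp).add ((hasDerivAt_id x).const_mul c)).hasDerivWithinAt.congr_deriv ?_
    simp only [hq1, Pi.neg_apply]; ring
  rw [interior_Icc] at hx
  have hx0 : 0 ≤ x := ha.trans hx.1.le
  have he : exp (-qB t x) ≤ 1 := by
    rw [Real.exp_le_one_iff, neg_nonpos, qB]
    exact mul_nonneg (by linarith) (by positivity)
  have h1 : (1 - t) * x ^ 2 * (1 + 2 * t * x ^ 2) * (1 - t) ≤ q1 x ^ 2 := by
    simp only [hq1]
    nlinarith [sq_nonneg (t * x ^ 3 * (1 - t))]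
  rcases hc with hc | hc
  · have h2 : -1 ≤ q1 x ^ 2 - (1 - t) * (1 + 3 * t * x ^ 2) := by
      have h3 : 3 * t * x ^ 2 ≤ (1 - t) * x ^ 2 := mul_le_mul_of_nonneg_right (by linarith) (sq_nonneg x)
      have h4 : (1 - t) * x ^ 2 ≤ (1 - t) * x ^ 2 * (1 + 2 * t * x ^ 2) :=
        le_mul_of_one_le_right (mul_nonneg (by linarith) (sq_nonneg x))
          (le_add_of_nonneg_right (by positivity))
      nlinarith [mul_le_mul_of_nonneg_right (h3.trans h4) (show 0 ≤ 1 - t by linarith)]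
    nlinarith [mul_le_mul_of_nonneg_right h2 (exp_pos (-qB t x)).le]
  · have hax : a ^ 2 ≤ x ^ 2 := pow_le_pow_left₀ ha hx.1.le 2
    have h2 : 1 + t * x ^ 2 ≤ (1 - t) * x ^ 2 := by
      nlinarith [mul_le_mul_of_nonneg_left hax (show 0 ≤ 1 - 2 * t by linarith)]
    have h3 : (1 + 3 * t * x ^ 2) ≤ (1 - t) * x ^ 2 * (1 + 2 * t * x ^ 2) := by
      nlinarith [mul_le_mul_of_nonneg_right h2 (show 0 ≤ 1 + 2 * t * x ^ 2 by positivity),
        mul_nonneg ht (sq_nonneg x), sq_nonneg (t * x ^ 2)]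
    have h4 := mul_le_mul_of_nonneg_right h3 (show 0 ≤ 1 - t by linarith)
    have : 0 ≤ q1 x ^ 2 - (1 - t) * (1 + 3 * t * x ^ 2) := by linarith
    positivity

/-- One interval of the budget: the weight by its chord, times a bound linear in `x`. -/
theorem piece_int {t a b c Wa Wb Pa Pb : ℝ} (ht : 0 ≤ t) (ht4 : t ≤ 1 / 4) (ha : 0 ≤ a) (hab : a < b)
    (hc0 : 0 ≤ c) (hc : 1 ≤ c ∨ 1 ≤ (1 - 2 * t) * a ^ 2) (hWa : exp (-qB t a) ≤ Wa)
    (hWb : exp (-qB t b) ≤ Wb) (hPa : 0 ≤ Pa) (hPb : 0 ≤ Pb) {P w : ℝ → ℝ} (hP : Continuous P)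
    (hw : Continuous w) (hPle : ∀ x ∈ Icc a b, P x = ((b - x) * Pa + (x - a) * Pb) / (b - a))
    (hwle : ∀ x ∈ Icc a b, w x ≤ exp (-qB t x)) :
    ∫ x in a..b, w x * P x ≤ (b - a) * (2 * Pa * Wa + Pa * Wb + Pb * Wa + 2 * Pb * Wb) / 6 +
      c * ((b - a) ^ 3 * (Pa + Pb) / 24) := by
  have hd : 0 < b - a := sub_pos.2 hab
  set M := fun x : ℝ => (((b - x) * Wa + (x - a) * Wb) / (b - a) + c * ((x - a) * (b - x)) / 2) *
    (((b - x) * Pa + (x - a) * Pb) / (b - a)) with hM
  have hcv := weight_convex (b := b) ht ht4 ha hc0 hc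
  refine (intervalIntegral.integral_mono_on hab.le ((hw.mul hP).intervalIntegrable _ _)
    ((show Continuous M by fun_prop).intervalIntegrable _ _) fun x hx => ?_).trans (le_of_eq ?_)
  · have e := hcv.2 (left_mem_Icc.2 hab.le) (right_mem_Icc.2 hab.le)
      (show 0 ≤ (b - x) / (b - a) from div_nonneg (by linarith [hx.2]) hd.le)
      (show 0 ≤ (x - a) / (b - a) from div_nonneg (by linarith [hx.1]) hd.le)
      (by field_simp; ring)
    simp only [smul_eq_mul] at e
    have ex : (b - x) / (b - a) * a + (x - a) / (b - a) * b = x := by field_simp; ring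
    rw [ex] at e
    have hchord : exp (-qB t x) ≤ ((b - x) * Wa + (x - a) * Wb) / (b - a) + c * ((x - a) * (b - x)) / 2 := by
      have i1 : (b - x) / (b - a) * (c * a ^ 2 / 2) + (x - a) / (b - a) * (c * b ^ 2 / 2) - c * x ^ 2 / 2 =
          c * ((x - a) * (b - x)) / 2 := by field_simp; ring
      have i2 : (b - x) / (b - a) * Wa + (x - a) / (b - a) * Wb = ((b - x) * Wa + (x - a) * Wb) / (b - a) := by
        ring
      have := mul_le_mul_of_nonneg_left hWa (div_nonneg (show 0 ≤ b - x by linarith [hx.2]) hd.le)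
      have := mul_le_mul_of_nonneg_left hWb (div_nonneg (show 0 ≤ x - a by linarith [hx.1]) hd.le)
      linarith
    simp only [hM, Pi.mul_apply, hPle x hx]
    exact mul_le_mul_of_nonneg_right ((hwle x hx).trans hchord) (div_nonneg
      (add_nonneg (mul_nonneg (sub_nonneg.2 hx.2) hPa) (mul_nonneg (sub_nonneg.2 hx.1) hPb)) hd.le)
  · simp only [hM]
    have hne := hd.ne'
    rw [intervalIntegral.integral_eq_sub_of_hasDerivAt
      (f := fun x => ((Wa * (b - a) * x + (Wb - Wa) * ((x - a) ^ 2 / 2)) * Pa / (b - a) +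
        (Pb - Pa) / (b - a) ^ 2 * (Wa * (b - a) * (x - a) ^ 2 / 2 + (Wb - Wa) * (x - a) ^ 3 / 3)) +
        c / 2 * (Pa * ((b - a) * (x - a) ^ 2 / 2 - (x - a) ^ 3 / 3) +
          (Pb - Pa) / (b - a) * ((b - a) * (x - a) ^ 3 / 3 - (x - a) ^ 4 / 4)))
      (fun x _ => ?_) ((show Continuous M by fun_prop).intervalIntegrable _ _)]
    · field_simp; ring
    · have d1 := (hasDerivAt_id x).sub_const a
      have q2 := d1.pow 2
      have q3 := d1.pow 3
      have q4 := d1.pow 4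
      refine ((((((hasDerivAt_id x).const_mul (Wa * (b - a))).add ((q2.div_const 2).const_mul (Wb - Wa))).mul_const
        Pa).div_const (b - a)).add ((((q2.const_mul (Wa * (b - a))).div_const 2).add
          ((q3.const_mul (Wb - Wa)).div_const 3)).const_mul ((Pb - Pa) / (b - a) ^ 2)) |>.add
        (((((q2.const_mul (b - a)).div_const 2).sub (q3.div_const 3)).const_mul Pa).add
          ((((q3.const_mul (b - a)).div_const 3).sub (q4.div_const 4)).const_mul
            ((Pb - Pa) / (b - a))) |>.const_mul (c / 2))).congr_deriv ?_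
      simp only [hM, id_eq, Nat.cast_ofNat, show 2 - 1 = 1 from rfl, show 3 - 1 = 2 from rfl,
        show 4 - 1 = 3 from rfl, pow_one, mul_one]
      field_simp
      ring

/-- The integral over `y` in `x`. -/
theorem int_scale (p : ℕ) (f : ℝ → ℝ) (a b : ℝ) :
    √((p : ℝ) + 2) * ∫ y in a / √((p : ℝ) + 2)..b / √((p : ℝ) + 2), f y =
      ∫ x in a..b, f (x / √((p : ℝ) + 2)) := by
  rw [intervalIntegral.integral_comp_div f (Real.sqrt_pos.2 (by positivity : (0 : ℝ) < (p : ℝ) + 2)).ne',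
    smul_eq_mul]

/-- The right-hand side, from below. -/
theorem mass_budget {p : ℕ} (hp : 29 ≤ p) :
    12533 / 10000 * (1 - tau p / 2) ≤ √((p : ℝ) + 2) * mass (p + 1) semi 1 := by
  refine le_trans (mul_le_mul_of_nonneg_left ?_ (by norm_num)) (Mid.mass_succ_ge hp)
  have : Mid.epsP p ≤ 2 * tau p := by
    rw [Mid.epsP, tau, mul_one_div, div_le_div_iff₀ (by positivity) (by positivity)]
    linarith [(Nat.cast_nonneg p : (0 : ℝ) ≤ p)]
  linarith

end Vale.Agent.P237.All.Transport.Small.Large
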