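import Vale.Agent.P237.All.Small.Large.Band
import Vale.Agent.P237.All.Middle.Low.Cap

/-!
P237, every dimension, excess `k ≤ .0134`: the two caps on `w = r⁻ᵖ` at a point, in the checker's form,
with the rational bound `mills2` on the tail.
-/

noncomputable section

open MeasureTheory Real Set intervalIntegral

namespace Vale.Agent.P237.All.Transport.Small.Large

open Mid (Pt XP epsP tailFac)
open Middle (mills2 mills2_pos)

variable {p : ℕ} {k K y t r lam : ℝ}

/-- The scaled half mass, from above. -/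
def massQ (p : ℕ) : ℝ := 125332 / 100000 * (1 + epsP p / 3)

/-- `1 + 2 k ε ^ 2`, from above. -/
def lamUp (p : ℕ) (K : ℝ) : ℝ := 1 + 2 * (K * epsP p ^ 2)

/-- The cap from `u` below `y`. -/
def capU (p : ℕ) (u y lam : ℝ) : ℝ :=
  lam * mills2 (√((p : ℝ) + 2) * y) *
    ((lam ^ p - 1) * (mass p semi 1 * √((p : ℝ) + 2)) / semi u ^ (p + 1) +
      semi u * (√((p : ℝ) + 2) * tailFac p u)) / semi y

/-- `TailCap` bounds `log w` by it. -/
theorem capU_log (p : ℕ) {u y r lam : ℝ} (hy : y ∈ Ioo (0 : ℝ) 1) (hu : 0 < u) (huy : u ≤ y)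
    (hr : 0 < r) (hlam : 1 ≤ lam) (hcap : TailCap p y r lam) :
    -((p : ℝ) * log r) ≤ max 0 (log (capU p u y lam)) := by
  have hu1 : u < 1 := huy.trans_lt hy.2
  have hs := semi_pos (t := u) ⟨by linarith, hu1⟩
  have hy' := semi_pos (t := y) ⟨by linarith [hy.1], hy.2⟩
  have hP := mass_one_pos isProfile_semi p
  have hlp : 1 ≤ lam ^ p := one_le_pow₀ hlam
  have hA : (0 : ℝ) < (p : ℝ) + 2 := by positivity
  have hsA : 0 < √((p : ℝ) + 2) := Real.sqrt_pos.2 hA
  have hM := mills2_pos (mul_nonneg hsA.le hy.1.le)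
  have hmass : mass p semi u ≤ lam ^ p * mass p semi y := by
    have h0 : 0 ≤ mass p semi y := intervalIntegral.integral_nonneg hy.1.le fun v _ =>
      pow_nonneg (Real.sqrt_nonneg _) _
    exact le_trans ((semi_mass_strictMonoOn p).monotoneOn ⟨by linarith, hu1.le⟩
      ⟨by linarith [hy.1], hy.2.le⟩ huy) (le_mul_of_one_le_left h0 hlp)
  have h := hcap u ⟨hu.le, hu1⟩ hmass
  have hV := Middle.tail_ge3 p (Ioo_subset_Icc_self hy)
  have hVu := Mid.tail_le3 p (u := u) ⟨hu, hu1.le⟩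
  set V := mass p semi 1 - mass p semi y
  have h3 : semi u ^ (p + 1) * (lam ^ p * (semi y ^ (p + 2) / (√((p : ℝ) + 2) * mills2 (√((p : ℝ) + 2) * y)))) ≤
      (lam * semi y * r) ^ (p + 1) *
        ((lam ^ p - 1) * mass p semi 1 + semi u ^ (p + 2) * tailFac p u) := by
    refine le_trans (mul_le_mul_of_nonneg_left (mul_le_mul_of_nonneg_left hV (by positivity))
      (pow_nonneg hs.le _)) (h.trans (mul_le_mul_of_nonneg_left ?_ (by positivity)))
    linarith
  have hF := Mid.tailFac_pos p hu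
  have hC : 0 < capU p u y lam := by
    have : 0 ≤ lam ^ p - 1 := sub_nonneg.2 hlp
    unfold capU
    positivity
  have hR : (r ^ (p + 1))⁻¹ ≤ capU p u y lam := by
    rw [inv_le_iff_one_le_mul₀ (by positivity)]
    have e : capU p u y lam * r ^ (p + 1) = (lam * semi y * r) ^ (p + 1) *
        ((lam ^ p - 1) * mass p semi 1 + semi u ^ (p + 2) * tailFac p u) /
        (semi u ^ (p + 1) * (lam ^ p * (semi y ^ (p + 2) / (√((p : ℝ) + 2) * mills2 (√((p : ℝ) + 2) * y))))) := by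
      rw [capU, mul_pow, mul_pow]
      field_simp
      ring
    rw [e, le_div_iff₀ (by positivity), one_mul]
    exact h3
  have hl := Real.log_le_log (by positivity) hR
  rw [Real.log_inv, Real.log_pow] at hl
  push_cast at hl
  have hp : (0 : ℝ) ≤ p := Nat.cast_nonneg p
  rcases le_total (log r) 0 with h0 | h0
  · exact le_max_of_le_right (by linarith)
  · exact le_max_of_le_left (neg_nonpos.2 (mul_nonneg hp h0))

theorem lam_pow_le (h : Pt p k y t r lam) (hp : 1 ≤ p) (hk : 0 ≤ k) (hk1 : k ≤ 1) :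
    lam ^ p - 1 ≤ k * epsP p := by
  have := Mid.lam_pow_sub h hk (k_eps hp hk1) (gamma_le hp hk1)
  rwa [mul_one] at this

theorem k_eps_sq (hk : 0 ≤ k) (hK : k ≤ 1) : k * epsP p ^ 2 ≤ 1 := by
  nlinarith [Mid.eps_pos p, Mid.eps_le_one p, mul_le_mul (Mid.eps_le_one p) (Mid.eps_le_one p)
    (Mid.eps_pos p).le zero_le_one]

theorem point_sqrt (p : ℕ) {x : ℝ} (hy : 0 ≤ y) (hx : x ^ 2 = XP p y) (hx0 : 0 ≤ x) :
    √((p : ℝ) + 2) * y = x := by
  rw [Mid.sqrt_mul_y p hy, ← hx, Real.sqrt_sq hx0]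

/-- `TailCap` at `y` itself. -/
theorem cap_self (h : Pt p k y t r lam) (hp : 1 ≤ p) (hk : 0 ≤ k) (hkK : k ≤ K) (hK : K ≤ 1)
    {x e : ℝ} (hx : x ^ 2 = XP p y) (hx0 : 0 ≤ x)
    (he : exp (XP p y / 2 * (1 + XP p y * tau p / (2 * (1 - XP p y * tau p)))) ≤ e) :
    (r ^ p)⁻¹ ≤ 1 + epsP p * K * (2 * epsP p + lamUp p K * (massQ p * mills2 x * e)) := by
  have hε := Mid.eps_pos p
  have hsx := point_sqrt p h.hy.1.le hx hx0
  have hsemi := semi_pos (t := y) ⟨by linarith [h.hy.1], h.hy.2⟩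
  have hlog := Middle.Low.capY_log p h.hy h.hr h.hlam h.cap
  have hlam := Mid.lam_le h hk (k_eps_sq hk (hkK.trans hK))
  have hlp := lam_pow_le h hp hk (hkK.trans hK)
  have hlp0 : 0 ≤ lam ^ p - 1 := sub_nonneg.2 (one_le_pow₀ h.hlam)
  have hQ := Mid.mass_scaled_le (p := p) (le_refl (epsP p)) (Mid.eps_le_one p)
  have hP : 0 ≤ mass p semi 1 * √((p : ℝ) + 2) :=
    mul_nonneg (mass_one_pos isProfile_semi p).le (Real.sqrt_nonneg _)
  have hS : XP p y * tau p < 1 := by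
    rw [(tau_facts p (y := y)).2.2.2]; nlinarith [h.hy.1, h.hy.2]
  have hexp : (semi y ^ (p + 2))⁻¹ ≤ e := by
    refine (Mid.semi_inv_le (p + 2) h.hy (n := (p : ℝ) + 2) (by push_cast; rfl)
      (u1 := XP p y * tau p) (le_of_eq (tau_facts p (y := y)).2.2.2.symm) hS).trans
      ((exp_le_exp.2 (le_of_eq ?_)).trans he)
    simp only [XP]
  have hC := Middle.Low.capY_pos p h.hy h.hlam
  have hw : log (r ^ p)⁻¹ ≤ max 0 (log (Middle.Low.capY p y lam)) := by
    rw [Real.log_inv, Real.log_pow]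
    rcases le_total (log r) 0 with h0 | h0
    · exact le_max_of_le_right (by linarith)
    · exact le_max_of_le_left (neg_nonpos.2 (mul_nonneg (Nat.cast_nonneg p) h0))
  rw [Real.log_inv, Real.log_pow] at hw
  have hw' := Mid.w_le_of_log h hC hw
  have h1 : 1 ≤ Middle.Low.capY p y lam := by
    rw [Middle.Low.capY]
    refine one_le_mul_of_one_le_of_one_le h.hlam (le_add_of_nonneg_right ?_)
    have := mills2_pos (mul_nonneg (Real.sqrt_nonneg ((p : ℝ) + 2)) h.hy.1.le)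
    positivity
  rw [max_eq_right h1] at hw'
  refine le_trans hw' ?_
  rw [Middle.Low.capY, hsx]
  have := Mid.sig_cap_arith (C := lam * (1 + (lam ^ p - 1) * (mass p semi 1 * √((p : ℝ) + 2)) *
      mills2 x * (semi y ^ (p + 2))⁻¹)) (lam := lam) (W := lam ^ p - 1) (K := K) (γ := 1)
    (E := epsP p) (Qm := massQ p) (mx := mills2 x) (e := e) hε le_rfl hk hkK zero_le_one h.hlam hlam
    rfl hlp0 (by rw [mul_one]; exact hlp) hP hQ (mills2_pos hx0).le le_rfl (by positivity) hexp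
  rw [lamUp, div_eq_mul_inv]
  linarith

/-- `TailCap` at `θ y`. -/
theorem cap_shift (h : Pt p k y t r lam) (hp : 1 ≤ p) (hk : 0 ≤ k) (hkK : k ≤ K) (hK : K ≤ 1)
    {θ x e sy F : ℝ} (hθ : 0 < θ) (hθ1 : θ ≤ 1) (hx : x ^ 2 = XP p y) (hx0 : 0 < x)
    (he : exp ((1 - tau p) * ((θ * x) ^ 2 / 2 *
      (1 + (θ * x) ^ 2 * tau p / (2 * (1 - (θ * x) ^ 2 * tau p))))) ≤ e)
    (hsy : 1 ≤ sy ^ 2 * (1 - XP p y * tau p)) (hsy0 : 0 ≤ sy)
    (hF : mills2 x / (θ * x) * (((θ * x) ^ 2 + 2) / ((θ * x) ^ 2 * (1 - tau p) + 3)) ≤ F) :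
    (r ^ p)⁻¹ ≤ max 1 (lamUp p K * sy * (mills2 x * (epsP p * K * massQ p * e) +
      (1 - (θ * x) ^ 2 * tau p / 2) * F)) := by
  have hε := Mid.eps_pos p
  have hA : (0 : ℝ) < (p : ℝ) + 2 := by positivity
  have hsA : 0 < √((p : ℝ) + 2) := Real.sqrt_pos.2 hA
  have hsx := point_sqrt p h.hy.1.le hx hx0.le
  have hτ : 0 < tau p := by unfold tau; positivity
  have hu : 0 < θ * y := mul_pos hθ h.hy.1
  have huy : θ * y ≤ y := mul_le_of_le_one_left h.hy.1.le hθ1
  have hu1 : θ * y < 1 := huy.trans_lt h.hy.2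
  have hl := capU_log p h.hy hu huy h.hr h.hlam h.cap
  have hlam := Mid.lam_le h hk (k_eps_sq hk (hkK.trans hK))
  have hlp := lam_pow_le h hp hk (hkK.trans hK)
  have hlp0 : 0 ≤ lam ^ p - 1 := sub_nonneg.2 (one_le_pow₀ h.hlam)
  have hQ := Mid.mass_scaled_le (p := p) (le_refl (epsP p)) (Mid.eps_le_one p)
  have hP : 0 ≤ mass p semi 1 * √((p : ℝ) + 2) :=
    mul_nonneg (mass_one_pos isProfile_semi p).le (Real.sqrt_nonneg _)
  have hsu := semi_pos (t := θ * y) ⟨by linarith, hu1⟩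
  have hsy' := semi_pos (t := y) ⟨by linarith [h.hy.1], h.hy.2⟩
  have e1 : (θ * y) ^ 2 = (θ * x) ^ 2 * tau p := by
    rw [mul_pow θ x, hx, mul_assoc, (tau_facts p (y := y)).2.2.2, mul_pow]
  have hxt : (θ * x) ^ 2 * tau p < 1 := by rw [← e1]; nlinarith
  have hexp : (semi (θ * y) ^ (p + 1))⁻¹ ≤ e := by
    refine (Mid.semi_inv_le (p + 1) ⟨hu, hu1⟩ (n := (p : ℝ) + 1) (by push_cast; rfl) e1.le hxt).trans
      ((exp_le_exp.2 (le_of_eq ?_)).trans he)
    rw [e1, (tau_facts p (y := y)).1, tau]; field_simp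
  have hse : semi (θ * y) ≤ 1 - (θ * x) ^ 2 * tau p / 2 := by
    rw [← e1, semi]
    refine Real.sqrt_le_iff.2 ⟨by nlinarith, ?_⟩
    nlinarith [sq_nonneg ((θ * y) ^ 2)]
  have hy2 : (semi y)⁻¹ ≤ sy := by
    rw [inv_le_iff_one_le_mul₀ hsy']
    refine (pow_le_pow_iff_left₀ zero_le_one (by positivity) two_ne_zero).1 ?_
    rw [one_pow, mul_pow, semi_sq ⟨by linarith [h.hy.1], h.hy.2.le⟩, ← (tau_facts p (y := y)).2.2.2]
    exact hsy
  have hC : 0 < capU p (θ * y) y lam := by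
    have := Mid.tailFac_pos p hu
    have := mills2_pos (mul_nonneg hsA.le h.hy.1.le)
    have : 0 < lam := by linarith [h.hlam]
    unfold capU; positivity
  have hF' : mills2 x * (√((p : ℝ) + 2) * tailFac p (θ * y)) ≤ F := by
    refine le_trans (le_of_eq ?_) hF
    rw [tailFac, (tau_facts p (y := y)).1]
    have e2 : ((p : ℝ) + 2) * (θ * y) ^ 2 = (θ * x) ^ 2 := by rw [e1, tau]; field_simp
    have e3 : ((p : ℝ) + 1) * (θ * y) ^ 2 = (θ * x) ^ 2 * (((p : ℝ) + 1) / ((p : ℝ) + 2)) := by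
      rw [← e2]; field_simp
    rw [e2, e3, show ((p : ℝ) + 2) * (θ * y) = √((p : ℝ) + 2) * (θ * x) by
      rw [← hsx]; nth_rw 1 [← Real.mul_self_sqrt hA.le]; ring]
    field_simp
  refine (Mid.w_le_of_log h hC hl).trans (max_le_max le_rfl ?_)
  rw [capU, hsx, div_eq_mul_inv, div_eq_mul_inv]
  refine (Mid.w_cap_arith (K := K) (γ := 1) (E := epsP p) hε le_rfl hk hkK zero_le_one
    (by linarith [h.hlam]) hlam hlp0 (by rw [mul_one]; exact hlp) hP hQ (mills2_pos hx0.le).le le_rfl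
    (by positivity) hexp hsu.le hse (mul_nonneg hsA.le (Mid.tailFac_pos p hu).le) hF' (by positivity)
    hy2).trans (le_of_eq ?_)
  rw [lamUp, massQ]; ring

end Vale.Agent.P237.All.Transport.Small.Large
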