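import Vale.Agent.P237.All.Small.Large.Check

/-!
P237, low cell: the test of a slice checked in chunks of segments, so that one kernel evaluation
stays small (`notes/P237h3/large`).
-/

namespace Vale.Agent.P237.All.Transport.Small.Large

/-- The last node of a list of segments behind a node. -/
def endOf : Node → List Seg → Node
  | n, [] => n
  | _, s :: l => endOf s.n l

theorem segsOK_app {c : Cell} {tc hh : ℕ} {b : List Seg} :
    ∀ {a : List Seg} {n m : Node}, segsOK c tc hh n a = true → endOf n a = m →
      segsOK c tc hh m b = true → segsOK c tc hh n (a ++ b) = true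
  | [], n, m, _, h1, h2 => by
    rw [endOf] at h1
    subst h1
    simpa using h2
  | s :: l, n, m, h0, h1, h2 => by
    simp only [segsOK, Bool.and_eq_true] at h0
    simp only [List.cons_append, segsOK, Bool.and_eq_true]
    exact ⟨h0.1, segsOK_app h0.2 h1 h2⟩

theorem sliceTest_of {c : Cell} {tc hh : ℕ} {n last : Node} {segs : List Seg}
    (h0 : sliceOK c tc hh = true) (h1 : segsOK c tc hh n segs = true)
    (h2 : budgetOK c tc hh n (segs.map Seg.n ++ [last]) = true) :
    sliceTest c tc hh n segs last = true := by
  rw [sliceTest, h0, h1, h2]
  rfl

end Vale.Agent.P237.All.Transport.Small.Large
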