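import Vale.Agent.P237.All.Small.Large.Point
import Vale.Agent.P237.All.CertPotentialTwo
import Vale.Agent.P237.All.Bounds

/-!
P237, every dimension, excess `k ≤ .0134`: a certificate from a bound `F k` on the bracket at every
point and the sign of its integral, with separate quadratic coefficients either side of `y`.
-/

noncomputable section

open Real Set MeasureTheory intervalIntegral

namespace Vale.Agent.P237.All.Transport.Small.Large

open Mid (XP Pt)

theorem maj_integral (p : ℕ) (G D c2 : ℝ) :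
    ∫ y in (0 : ℝ)..1, semi y ^ (p + 1) * majZero p G D c2 y = -G * (c2 - 1) * mass (p + 1) semi 1 := by
  have hsc := semi_continuous
  have hi : ∀ {f : ℝ → ℝ}, Continuous f → ∀ u v : ℝ, IntervalIntegrable f volume u v := fun h u v =>
    h.intervalIntegrable _ _
  have e : (fun y => semi y ^ (p + 1) * majZero p G D c2 y) = fun y =>
      (G + D) * (((p : ℝ) + 4) * (y ^ 2 * semi y ^ (p + 1)) - semi y ^ (p + 1)) -
        G * (c2 - 1) * semi y ^ (p + 1) := by
    funext y; simp only [majZero]; ring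
  rw [e, intervalIntegral.integral_sub (hi (by fun_prop) _ _) (hi (by fun_prop) _ _),
    intervalIntegral.integral_const_mul, intervalIntegral.integral_const_mul,
    intervalIntegral.integral_sub (hi (by fun_prop) _ _) (hi (by fun_prop) _ _),
    intervalIntegral.integral_const_mul, moment_two, ← mass_semi]
  have : ((p + 1 : ℕ) : ℝ) + 3 ≠ 0 := by positivity
  push_cast at this ⊢
  field_simp
  ring

/-- What the boxes and the tail have to give at one value of `k`. -/
structure Bounded (p : ℕ) (c : Co) (R R' vp vp' vm vm' : ℝ → ℝ) (k : ℝ) (F : ℝ → ℝ) : Prop where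
  cont : Continuous F
  int : ∫ y in (0 : ℝ)..1, F y < 2 * c.G * (((p : ℝ) + 2) / ((p : ℝ) + 1)) ^ 2 * mass (p + 1) semi 1
  point : ∀ c2 lam y t r, Pt p k y t r lam → mass p semi t ≤ lam ^ p * mass p semi y →
    (y ≤ t → total p c R R' vp vp' c2 lam y t r ≤
      semi y ^ (p + 1) * majZero p (c.G / ((p : ℝ) + 1)) (c.D / ((p : ℝ) + 1)) c2 y +
        k * tau p ^ 3 * F y) ∧
    (t ≤ y → total p c R R' vm vm' c2 lam y t r ≤
      semi y ^ (p + 1) * majZero p (c.G / ((p : ℝ) + 1)) (c.D / ((p : ℝ) + 1)) c2 y +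
        k * tau p ^ 3 * F y)

/-- The certificate. -/
theorem hasCert_frame {p : ℕ} {c : Co} (h : c.Ok p) (hell : 0 ≤ 1 + c.e1 / ((p : ℝ) + 1))
    {R R' vp vp' vm vm' : ℝ → ℝ} (hR : ∀ X, HasDerivAt R (R' X) X)
    (hvp : ∀ X, HasDerivAt vp (vp' X) X) (hvm : ∀ X, HasDerivAt vm (vm' X) X) {ka kb : ℝ}
    (hka : 0 < ka) (hF : ∀ k ∈ Icc ka kb, ∃ F, Bounded p c R R' vp vp' vm vm' k F)
    {J : ℝ} (hJ0 : exp (ka / ((p : ℝ) + 1)) * (2 * mass (p + 1) semi 1) ≤ J)
    (hJ1 : J ≤ exp (kb / ((p : ℝ) + 1)) * (2 * mass (p + 1) semi 1)) : HasCert p J := by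
  have hp1 : 1 ≤ p := (show 1 ≤ 2 by norm_num).trans h.hp
  have hP := mass_one_pos isProfile_semi (p + 1)
  set Q := J / (2 * mass (p + 1) semi 1) with hQ
  have hQ0 : exp (ka / ((p : ℝ) + 1)) ≤ Q := by rwa [hQ, le_div_iff₀ (by positivity)]
  have hQ1 : Q ≤ exp (kb / ((p : ℝ) + 1)) := by rwa [hQ, div_le_iff₀ (by positivity)]
  have hQp : 0 < Q := (exp_pos _).trans_le hQ0
  set k := ((p : ℝ) + 1) * log Q with hk
  have hk0 : ka ≤ k := by
    rw [hk, ← div_le_iff₀' (by positivity)]; exact (Real.le_log_iff_exp_le hQp).2 hQ0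
  have hk1 : k ≤ kb := by
    rw [hk, ← le_div_iff₀' (by positivity)]; exact (Real.log_le_iff_le_exp hQp).2 hQ1
  have hkp : 0 < k := hka.trans_le hk0
  obtain ⟨F, hFc, hFi, hFp⟩ := hF k ⟨hk0, hk1⟩
  set c2 := (J / ∫ s in (-1 : ℝ)..1, semi s ^ (p + 1)) ^ (2 / ((p : ℝ) + 2)) with hc2
  have hc2' : 2 * k / (((p : ℝ) + 1) * ((p : ℝ) + 2)) ≤ c2 - 1 := by
    rw [hc2, integral_even isProfile_semi (p + 1), ← hQ, Real.rpow_def_of_pos hQp]
    have e : 2 * k / (((p : ℝ) + 1) * ((p : ℝ) + 2)) = log Q * (2 / ((p : ℝ) + 2)) := by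
      rw [hk]; field_simp
    linarith [Real.add_one_le_exp (log Q * (2 / ((p : ℝ) + 2)))]
  have hc21 : 0 ≤ c2 - 1 := le_trans (by positivity) hc2'
  set g := c.G / ((p : ℝ) + 1) with hg
  set d := c.D / ((p : ℝ) + 1) with hd
  set Pi := fun y : ℝ => semi y ^ (p + 1) * majZero p g d c2 y + k * tau p ^ 3 * F y with hPi
  have hsc := semi_continuous
  have hZc : Continuous fun y => semi y ^ (p + 1) * majZero p g d c2 y := by unfold majZero; fun_prop
  have hneg : ∫ y in (0 : ℝ)..1, Pi y < 0 := by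
    rw [hPi, intervalIntegral.integral_add (hZc.intervalIntegrable _ _)
      ((hFc.const_mul _).intervalIntegrable _ _), maj_integral, intervalIntegral.integral_const_mul]
    have hτ : 0 < k * tau p ^ 3 := mul_pos hkp (pow_pos (tau_pos p) 3)
    have h1 := mul_lt_mul_of_pos_left hFi hτ
    have h2 := mul_le_mul_of_nonneg_left hc2' (mul_nonneg h.g0 hP.le)
    have e : g * mass (p + 1) semi 1 * (2 * k / (((p : ℝ) + 1) * ((p : ℝ) + 2))) =
        k * tau p ^ 3 * (2 * c.G * (((p : ℝ) + 2) / ((p : ℝ) + 1)) ^ 2 * mass (p + 1) semi 1) := by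
      rw [hg, tau]; field_simp
    rw [e] at h2
    linarith
  have hA : ∀ y, HasDerivAt (c.A p R c2) (c.dA p R' y) y := fun y => hasDerivAt_A hp1 c hR c2 y
  have hWp : ∀ y, HasDerivAt (potW p vp) (potdW p vp' y) y := fun y => hasDerivAt_W p hvp y
  have hWm : ∀ y, HasDerivAt (potW p vm) (potdW p vm' y) y := fun y => hasDerivAt_W p hvm y
  refine ⟨0, g, d, le_rfl, h.g0, h.d0, ⟨{
    β := c.b
    ell := c.ell p c2
    ell_nonneg := by
      have := mul_nonneg h.g0 hc21
      simp only [Co.ell, hg] at this ⊢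
      linarith
    V := potTwo p (c.A p R c2) (potW p vp) (potW p vm)
    Vy := potTwoY p (c.A p R c2) (c.dA p R') (potW p vp) (potdW p vp') (potW p vm) (potdW p vm')
    Vt := potTwoT p (c.A p R c2) (potW p vp) (potW p vm)
    Pi := Pi
    chain := fun Z Z' t _ hy hZ => potTwo_chain _ _ _ _ _ _ (fun y _ => hA y) (fun y _ => hWp y)
      (fun y _ => hWm y) Z Z' t hy hZ
    along := fun Z hZ h0 hα h1 => potTwo_along _ _ _
      (fun y _ => (hA y).continuousAt.continuousWithinAt)
      (fun y _ => (hWp y).continuousAt.continuousWithinAt)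
      (fun y _ => (hWm y).continuousAt.continuousWithinAt) Z hZ h0 hα h1
    V_zero := potTwo_zero _ _ _
    V_one := potTwo_one _ _ _
    Pi_cont := (hZc.add (hFc.const_mul _)).continuousOn
    Pi_neg := hneg
    point := ?_ }⟩⟩
  intro y hy t ht r lam hr hlam hlp hridge hreach hfwd hback hcap
  have hpow : lam ^ (p + 1) ≤ exp (k / ((p : ℝ) + 1)) := by
    rw [hk, mul_div_cancel_left₀ _ (by positivity), Real.exp_log hQp, hQ, le_div_iff₀ (by positivity)]
    exact hlp
  have hpt : Pt p k y t r lam := ⟨hy, ht, hr, hlam, hpow, hridge, hback, hcap, hreach⟩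
  obtain ⟨hpos, hneg'⟩ := hFp c2 lam y t r hpt hfwd
  rw [← hc2, add_assoc]
  rcases le_total y t with hle | hle
  · have := hpos hle
    rw [total, ← hg, ← hd] at this
    rw [potTwoY, potTwoT, if_pos hle, if_pos hle]
    exact this
  · have := hneg' hle
    rw [total, ← hg, ← hd] at this
    rw [potTwoY_neg _ _ _ _ _ _ hle, potTwoT_neg _ _ _ hle]
    exact this

end Vale.Agent.P237.All.Transport.Small.Large
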