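import Vale.Agent.P237.All.Small.Large.SoundFar

/-!
P237, every dimension, excess `k ≤ .0134`: soundness of the two tests beyond the last segment next to
`τ = 0`: the tail form while `k ^ 2 τ ^ 5 < exp (-3X/4)`, absolute beyond.
-/

noncomputable section

open Real Set

namespace Vale.Agent.P237.All.Transport.Small.Large

open Mid (Sg AF Pt Knot Spl XP epsP rn)
open Middle (mills2 mills2_pos)

variable {S T : ℝ}

theorem div_le_exp {a x : ℝ} (ha : 0 < a) : x / a ≤ exp ((x - a) / a) := by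
  have := Real.add_one_le_exp ((x - a) / a)
  rw [sub_div, div_self ha.ne'] at this ⊢
  linarith

theorem tau_sqrt_le {p : ℕ} (hτ : tau p ≤ 1 / 4096) : tau p * √((p : ℝ) + 1) ≤ 1 / 64 := by
  have h0 := tau_pos p
  refine (pow_le_pow_iff_left₀ (by positivity) (by norm_num) two_ne_zero).1 ?_
  rw [mul_pow, Real.sq_sqrt (by positivity)]
  refine le_trans ?_ (le_of_le_of_eq hτ (by norm_num))
  have e : tau p * ((p : ℝ) + 2) = 1 := by unfold tau; field_simp
  nlinarith only [h0, e]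

/-- Where the tail form is used, `u ≤ 1/12`. -/
theorem cap_zone_u {p : ℕ} {k X : ℝ} (hτ : tau p ≤ 1 / 4096) (hk : 0 < k)
    (hkl : exp (-(5 / 4 * √((p : ℝ) + 1))) / 5 ≤ k) (hz : k ^ 2 * tau p ^ 5 < exp (-(3 * X / 4))) :
    X * tau p ≤ 1 / 12 := by
  have h0 := tau_pos p
  have h := Real.log_lt_log (by positivity) hz
  rw [Real.log_exp, Real.log_mul (by positivity) (by positivity), Real.log_pow, Real.log_pow] at h
  push_cast at h
  have hl := Real.log_le_log (by positivity) hkl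
  rw [Real.log_div (exp_pos _).ne' (by norm_num), Real.log_exp] at hl
  have h5 : log 5 ≤ 2 := by
    rw [Real.log_le_iff_le_exp (by norm_num)]
    have := Real.exp_one_gt_d9
    rw [show (2 : ℝ) = 1 + 1 by norm_num, Real.exp_add]
    nlinarith only [this]
  have hlt : -(tau p * log (tau p)) ≤ 8318 / 4096000 := by
    have a := Real.log_le_sub_one_of_pos (show 0 < 1 / (4096 * tau p) by positivity)
    rw [one_div, Real.log_inv, Real.log_mul (by norm_num) h0.ne',
      show log (4096 : ℝ) = 12 * log 2 by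
        rw [show (4096 : ℝ) = 2 ^ 12 by norm_num, Real.log_pow]; norm_num] at a
    have b := mul_le_mul_of_nonneg_left a h0.le
    have e : tau p * ((4096 * tau p)⁻¹ - 1) = 1 / 4096 - tau p := by field_simp
    rw [e] at b
    have c := Real.log_two_lt_d9
    have c1 := Real.log_two_gt_d9
    nlinarith only [b, c, c1, h0, hτ]
  have hs := tau_sqrt_le hτ
  have b1 := mul_le_mul_of_nonneg_left h.le h0.le
  have b2 := mul_le_mul_of_nonneg_left hl h0.le
  have b3 := mul_le_mul_of_nonneg_left h5 h0.le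
  linarith

/-- The cap from `y / 2` is `21/10` there. -/
theorem cap_zone_W {p : ℕ} {k y t r lam x : ℝ} (hpt : Pt p k y t r lam) (hp : 1 ≤ p) (hk : 0 < k)
    (hk1 : k ≤ 16 / 1000) (hτ : tau p ≤ 1 / 4096) (hx : x ^ 2 = XP p y) (hx1 : 12 ≤ x)
    (hu : x ^ 2 * tau p ≤ 1 / 12) (hz : k ^ 2 * tau p ^ 5 < exp (-(3 * x ^ 2 / 4))) :
    (r ^ p)⁻¹ ≤ 21 / 10 := by
  have h0 := tau_pos p
  have hX : 144 ≤ x ^ 2 := by nlinarith only [hx1]
  set X := x ^ 2 with hXd
  set u := X * tau p with hud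
  have hu0 : 0 ≤ u := by positivity
  have hx0 : 0 < x := by linarith
  have hε : epsP p = tau p / (1 - tau p) := (eps_eq rfl).symm
  have hε0 := eps_nonneg p
  have hε1 : epsP p ≤ 4096 / 4095 * tau p := by
    rw [hε, div_le_iff₀ (by linarith)]; nlinarith only [h0, hτ]
  -- the excess
  have hkτ : k * tau p ≤ 84 / 1000 * exp (-(3 * X / 20)) := by
    refine (pow_le_pow_iff_left₀ (by positivity) (by positivity) (show (5 : ℕ) ≠ 0 by norm_num)).1 ?_
    rw [mul_pow, mul_pow, ← Real.exp_nat_mul, show k ^ 5 * tau p ^ 5 = k ^ 3 * (k ^ 2 * tau p ^ 5) by ring,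
      show ((5 : ℕ) : ℝ) * -(3 * X / 20) = -(3 * X / 4) by push_cast; ring]
    exact mul_le_mul ((pow_le_pow_left₀ hk.le hk1 3).trans (by norm_num)) hz.le (by positivity)
      (by positivity)
  set E := exp ((1 - tau p) * (((1 : ℝ) / 2 * x) ^ 2 / 2 *
    (1 + ((1 : ℝ) / 2 * x) ^ 2 * tau p / (2 * (1 - ((1 : ℝ) / 2 * x) ^ 2 * tau p))))) with hEd
  have e4 : ((1 : ℝ) / 2 * x) ^ 2 * tau p = u / 4 := by rw [hud, hXd]; ring
  have hE : E ≤ exp (X * (95 / 752)) := by
    refine exp_le_exp.2 ?_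
    rw [e4]
    have a : u / 4 / (2 * (1 - u / 4)) ≤ 1 / 94 := by
      rw [div_le_iff₀ (by linarith)]; linarith
    calc (1 - tau p) * (((1 : ℝ) / 2 * x) ^ 2 / 2 * (1 + u / 4 / (2 * (1 - u / 4))))
        ≤ 1 * (((1 : ℝ) / 2 * x) ^ 2 / 2 * (1 + 1 / 94)) :=
          mul_le_mul (by linarith) (mul_le_mul_of_nonneg_left (by linarith) (by positivity))
            (mul_nonneg (by positivity) (add_nonneg zero_le_one (div_nonneg (by positivity) (by linarith))))
            zero_le_one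
      _ = X * (95 / 752) := by rw [hXd]; ring
  have hm : mills2 x ≤ x + 6 / 5 / x := by
    refine add_le_add le_rfl ?_
    rw [div_le_div_iff₀ (by positivity) hx0]
    nlinarith only [hx1]
  have hm0 := mills2_pos hx0.le
  set sy := 1 + u / 2 + u ^ 2 / 2 with hsyd
  have hsy1 : 1 ≤ sy ^ 2 * (1 - u) := by
    rw [hsyd]; nlinarith only [hu0, hu, pow_nonneg hu0 2, pow_nonneg hu0 3, pow_nonneg hu0 4,
      mul_le_mul_of_nonneg_left hu (pow_nonneg hu0 2), mul_le_mul_of_nonneg_left hu (pow_nonneg hu0 3),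
      mul_le_mul_of_nonneg_left hu (pow_nonneg hu0 4)]
  have hsy2 : sy ≤ 26 / 25 + 1 / 100 := by rw [hsyd]; nlinarith only [hu0, hu]
  have hu4 : ((1 : ℝ) / 2 * x) ^ 2 = X / 4 := by rw [hXd]; ring
  have hsy0 : 0 ≤ sy := by positivity
  have hcap := cap_shift hpt hp hk.le (le_refl k) (by linarith) (θ := (1 : ℝ) / 2) (e := E) (sy := sy)
    (F := 2) (by norm_num) (by norm_num) hx hx0 le_rfl (by rw [← hx]; exact hsy1) hsy0
    (by
      rw [hu4]
      have hd : 0 < X / 4 * (1 - tau p) + 3 := by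
        have := mul_nonneg (show (0 : ℝ) ≤ X / 4 by linarith) (show 0 ≤ 1 - tau p by linarith)
        linarith
      rw [← mul_div_assoc, div_le_iff₀ hd, div_mul_eq_mul_div, div_le_iff₀ (by positivity)]
      have a := mul_le_mul_of_nonneg_right hm (show (0 : ℝ) ≤ X / 4 + 2 by linarith)
      refine a.trans (le_of_mul_le_mul_right ?_ hx0)
      have e : (x + 6 / 5 / x) * (X / 4 + 2) * x = (X + 6 / 5) * (X / 4 + 2) := by
        rw [hXd]; field_simp
      rw [e]
      nlinarith only [hX, hu, hXd, hud, mul_le_mul_of_nonneg_left hu (show (0 : ℝ) ≤ X by linarith)])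
  refine hcap.trans (max_le (by norm_num) ?_)
  have hl : lamUp p k ≤ 1 + 1 / 1000000 := by
    have := mul_le_mul hk1 (pow_le_pow_left₀ hε0 hε1 2) (by positivity) (by norm_num)
    have := pow_le_pow_left₀ h0.le hτ 2
    rw [lamUp]; linarith
  have hQ : massQ p ≤ 12535 / 10000 := by rw [massQ]; linarith
  have hQ0 : 0 ≤ massQ p := by rw [massQ]; positivity
  -- the part from the excess
  have hT : mills2 x * (epsP p * k * massQ p * E) ≤ 443 / 10000 * exp (-((X - 144) / 50)) := by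
    have a1 : epsP p * k ≤ 4096 / 4095 * (84 / 1000 * exp (-(3 * X / 20))) :=
      (mul_le_mul_of_nonneg_right hε1 hk.le).trans (le_of_eq_of_le (by ring)
        (mul_le_mul_of_nonneg_left hkτ (by norm_num)))
    have a2 : mills2 x ≤ 121 / 10 * exp ((X - 144) / 288) := by
      have b := div_le_exp (x := X) (show (0 : ℝ) < 144 by norm_num)
      have b2 : x / 12 ≤ exp ((X - 144) / 288) := by
        refine (pow_le_pow_iff_left₀ (by positivity) (exp_pos _).le two_ne_zero).1 ?_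
        rw [← Real.exp_nat_mul]
        refine le_trans (le_of_eq (by rw [hXd]; ring)) (b.trans (le_of_eq ?_))
        congr 1; push_cast; ring
      have : 6 / 5 / x ≤ 1 / 120 * x := by rw [div_le_iff₀ hx0]; nlinarith only [hx1]
      linarith [exp_pos ((X - 144) / 288)]
    have a3 : exp (-(3 * X / 20)) * exp (X * (95 / 752)) * exp ((X - 144) / 288) ≤
        1 / 29 * exp (-((X - 144) / 50)) := by
      rw [← Real.exp_add, ← Real.exp_add]
      have e1 : (29 : ℝ) ≤ exp (17 / 5) := by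
        have := Real.exp_one_gt_d9
        have h2 := Real.quadratic_le_exp_of_nonneg (show (0 : ℝ) ≤ 2 / 5 by norm_num)
        have h3 : exp (17 / 5 : ℝ) = exp 1 * exp 1 * exp 1 * exp (2 / 5) := by
          simp only [← Real.exp_add]; norm_num
        rw [h3]
        have h4 := pow_le_pow_left₀ (by norm_num) this.le 3
        nlinarith only [h4, h2]
      calc exp (-(3 * X / 20) + X * (95 / 752) + (X - 144) / 288)
          ≤ exp (-(17 / 5) + -((X - 144) / 50)) := exp_le_exp.2 (by linarith)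
        _ ≤ _ := by
          rw [Real.exp_add, Real.exp_neg]
          exact mul_le_mul_of_nonneg_right (by rw [← one_div]; exact one_div_le_one_div_of_le (by norm_num) e1)
            (exp_pos _).le
    calc mills2 x * (epsP p * k * massQ p * E)
        ≤ 121 / 10 * exp ((X - 144) / 288) *
          (4096 / 4095 * (84 / 1000 * exp (-(3 * X / 20))) * (12535 / 10000) * exp (X * (95 / 752))) :=
          mul_le_mul a2 (mul_le_mul (mul_le_mul a1 hQ hQ0 (by positivity)) hE (exp_pos _).le (by positivity))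
            (by positivity) (by positivity)
      _ = 121 / 10 * (4096 / 4095) * (84 / 1000) * (12535 / 10000) *
          (exp (-(3 * X / 20)) * exp (X * (95 / 752)) * exp ((X - 144) / 288)) := by ring
      _ ≤ 121 / 10 * (4096 / 4095) * (84 / 1000) * (12535 / 10000) *
          (1 / 29 * exp (-((X - 144) / 50))) := mul_le_mul_of_nonneg_left a3 (by norm_num)
      _ ≤ _ := by
          rw [← mul_assoc]; exact mul_le_mul_of_nonneg_right (by norm_num) (exp_pos _).le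
  have hT0 : 0 ≤ mills2 x * (epsP p * k * massQ p * E) := by positivity
  have hw : 1 - ((1 : ℝ) / 2 * x) ^ 2 * tau p / 2 = 1 - u / 8 := by rw [e4]; ring
  rw [hw]
  have hw0 : 0 ≤ 1 - u / 8 := by linarith
  have hp1 : sy * (1 - u / 8) ≤ 1 + 3 * u / 8 + u ^ 2 / 2 := by
    rw [hsyd]; nlinarith only [hu0, pow_nonneg hu0 2, pow_nonneg hu0 3]
  refine (mul_le_mul_of_nonneg_right (mul_le_mul_of_nonneg_right hl hsy0)
    (add_nonneg hT0 (mul_nonneg hw0 (by norm_num)))).trans ?_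
  rcases le_total X 200 with hc | hc
  · have hu2 : u ≤ 200 / 4096 := by
      rw [hud]; exact (mul_le_mul hc hτ h0.le (by norm_num)).trans (by norm_num)
    have he : exp (-((X - 144) / 50)) ≤ 1 := exp_le_one_iff.2 (by linarith)
    have hs : sy ≤ 103 / 100 := by rw [hsyd]; nlinarith only [hu0, hu2]
    nlinarith only [hp1, hu2, hu0, mul_le_mul hs (hT.trans (mul_le_mul_of_nonneg_left he (by norm_num)))
      hT0 (by norm_num)]
  · have he : exp (-((X - 144) / 50)) ≤ 1 / (1 + 56 / 50) := by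
      rw [Real.exp_neg, ← one_div]
      refine one_div_le_one_div_of_le (by norm_num) ?_
      linarith [Real.add_one_le_exp ((X - 144) / 50)]
    nlinarith only [hp1, hu, hu0, mul_le_mul hsy2 (hT.trans (mul_le_mul_of_nonneg_left he (by norm_num)))
      hT0 (by norm_num)]

/-- The weight beyond `X ≥ 144` against a bracket affine in `X`. -/
theorem cap_fin {p : ℕ} {x y k c0 c1 dl m Φ : ℝ} (hy : y ∈ Ioo (0 : ℝ) 1) (eX : x ^ 2 * tau p = y ^ 2)
    (hτ4 : tau p ≤ 1 / 4096) (hX : 144 ≤ x ^ 2) (hk : 0 < k) (hc00 : 0 ≤ c0) (hc10 : 0 ≤ c1)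
    (hdl : 0 ≤ dl) (hV : 145 * (c0 + 144 * c1) ≤ dl * exp (144 * (4095 / 8192)))
    (hΦ : Φ ≤ c0 + x ^ 2 * c1) :
    semi y ^ (p + 1) * (m + k * tau p ^ 3 * Φ) ≤
      semi y ^ (p + 1) * m + k * tau p ^ 3 * (dl / (1 + x ^ 2)) := by
  have e1 := (tau_facts p (y := y)).1
  have hτ0 := tau_pos p
  rw [mul_add, mul_left_comm]
  refine add_le_add le_rfl (mul_le_mul_of_nonneg_left ?_ (by positivity))
  have hw : semi y ^ (p + 1) ≤ exp (-(x ^ 2 * (4095 / 8192))) := by
    refine (semi_pow_le' hy).trans (exp_le_exp.2 (neg_le_neg ?_))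
    have a : ((p + 1 : ℕ) : ℝ) / 2 * y ^ 2 = (1 - tau p) * (x ^ 2 / 2) := by
      rw [← eX, e1, tau]; push_cast; field_simp
    have b := mul_le_mul_of_nonneg_right (show (4095 : ℝ) / 4096 ≤ 1 - tau p by linarith)
      (show 0 ≤ x ^ 2 / 2 by positivity)
    refine le_trans (show x ^ 2 * (4095 / 8192) ≤ ((p + 1 : ℕ) : ℝ) / 2 * y ^ 2 by rw [a]; linarith)
      (mul_le_mul_of_nonneg_left (by
        linarith [show 0 ≤ (y ^ 2) ^ 2 / 2 + (y ^ 2) ^ 3 / 3 + (y ^ 2) ^ 4 / 4 by positivity])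
        (by positivity))
  rw [le_div_iff₀ (by positivity)]
  have d1 := div_le_exp (x := x ^ 2 + 1) (show (0 : ℝ) < 145 by norm_num)
  have d2 : c0 + x ^ 2 * c1 ≤ (c0 + 144 * c1) * exp ((x ^ 2 - 144) / 144) := by
    have a := div_le_exp (x := x ^ 2) (show (0 : ℝ) < 144 by norm_num)
    have b := Real.add_one_le_exp ((x ^ 2 - 144) / 144)
    have := mul_le_mul_of_nonneg_left a (mul_nonneg (show (0 : ℝ) ≤ 144 by norm_num) hc10)
    have := mul_le_mul_of_nonneg_left (show (1 : ℝ) ≤ exp ((x ^ 2 - 144) / 144) by linarith) hc00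
    linarith
  have hP : (c0 + x ^ 2 * c1) * (1 + x ^ 2) ≤
      145 * (c0 + 144 * c1) * exp ((x ^ 2 - 144) / 144 + (x ^ 2 + 1 - 145) / 145) := by
    rw [Real.exp_add]
    have d3 : 1 + x ^ 2 ≤ 145 * exp ((x ^ 2 + 1 - 145) / 145) := by linarith
    exact (mul_le_mul d2 d3 (by positivity) (by positivity)).trans (le_of_eq (by ring))
  calc semi y ^ (p + 1) * Φ * (1 + x ^ 2)
      ≤ exp (-(x ^ 2 * (4095 / 8192))) * ((c0 + x ^ 2 * c1) * (1 + x ^ 2)) := by
        rw [mul_assoc]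
        exact (mul_le_mul_of_nonneg_left (mul_le_mul_of_nonneg_right hΦ (by positivity))
          (pow_nonneg (Real.sqrt_nonneg _) _)).trans (mul_le_mul_of_nonneg_right hw (by positivity))
    _ ≤ exp (-(x ^ 2 * (4095 / 8192))) * (145 * (c0 + 144 * c1) *
        exp ((x ^ 2 - 144) / 144 + (x ^ 2 + 1 - 145) / 145)) :=
          mul_le_mul_of_nonneg_left hP (exp_pos _).le
    _ ≤ exp (-(x ^ 2 * (4095 / 8192))) * (dl * exp (144 * (4095 / 8192)) *
        exp ((x ^ 2 - 144) / 144 + (x ^ 2 + 1 - 145) / 145)) :=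
          mul_le_mul_of_nonneg_left (mul_le_mul_of_nonneg_right hV (exp_pos _).le) (exp_pos _).le
    _ = dl * exp (-(x ^ 2 * (4095 / 8192)) + 144 * (4095 / 8192) +
        ((x ^ 2 - 144) / 144 + (x ^ 2 + 1 - 145) / 145)) := by
          rw [Real.exp_add (-(x ^ 2 * (4095 / 8192)) + 144 * (4095 / 8192)),
            Real.exp_add (-(x ^ 2 * (4095 / 8192)))]
          ring
    _ ≤ dl := mul_le_of_le_one_right hdl (exp_le_one_iff.2 (by linarith))

set_option maxHeartbeats 1600000 in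
/-- The tail form where `W = 21/10` caps the overflow ahead. -/
theorem capZone_sound {c : Cell} {kap uh fac p : ℕ} {τ x k y t r lam : ℝ} (hT : |T| ≤ 1)
    (hτ : τ = tau p) (hτ4 : τ ≤ 1 / 4096) (hτT : τ = tauOf 2048 2048 T) (hp : 29 ≤ p)
    (hok : (c.co τ).Ok p) (hb : 1 ≤ (c.co τ).b) (hk : 0 < k) (hkK : k ≤ rn c.K)
    (hK : rn c.K ≤ 1) (hpt : Pt p k y t r lam) (hx : x ^ 2 = XP p y) (hx1 : 12 ≤ x)
    (hu : x ^ 2 * tau p ≤ rn (2 * uh)) (hcap : y ≤ t → (r ^ p)⁻¹ ≤ 21 / 10)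
    (h : (withEnv c 2048 2048 fun e =>
      capZoneOK c e (144 * 16777216) kap uh && crudeZoneOK c e (144 * 16777216) fac) = true) (c2 : ℝ) :
    (t ≤ y → total p (c.co τ) (c.R.val τ) (c.R.der τ) (c.Vm.val τ) (c.Vm.der τ) c2 lam y t r ≤
      semi y ^ (p + 1) * majZero p ((c.co τ).G / ((p : ℝ) + 1)) ((c.co τ).D / ((p : ℝ) + 1)) c2 y +
        k * tau p ^ 3 * (rn c.dl / (1 + x ^ 2))) ∧
    (y ≤ t → total p (c.co τ) (c.R.val τ) (c.R.der τ) (c.Vp.val τ) (c.Vp.der τ) c2 lam y t r ≤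
      semi y ^ (p + 1) * majZero p ((c.co τ).G / ((p : ℝ) + 1)) ((c.co τ).D / ((p : ℝ) + 1)) c2 y +
        k * tau p ^ 3 * (rn c.dl / (1 + x ^ 2))) := by
  subst hτ
  have hτ0 := tau_pos p
  have hp1 : 1 ≤ p := by omega
  have hy := hpt.hy
  obtain ⟨e1, e2, -, eX⟩ := tau_facts p (y := y)
  rw [← hx] at eX
  have hX : 144 ≤ x ^ 2 := by nlinarith only [hx1]
  have hx0 : 0 ≤ x := by linarith
  obtain ⟨S, hS, huf⟩ := uAF_has (a := 0) (h := uh) (uv := y ^ 2) (by simp [rn]; positivity)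
    (by rw [← eX, Nat.zero_add]; exact hu)
  obtain ⟨e, he, h⟩ := withEnv_sound (S := S) hS hT h
  rw [← hτT] at he
  replace h := (Bool.and_eq_true_iff.1 h).1
  simp only [capZoneOK, AF.force_eq] at h
  obtain ⟨v, R, vp, vm, hv, h⟩ := withFarV_sound hS hT (by rw [abs_of_pos hτ0]; linarith) he (huf T)
    (has_ratio hS hT has_one 1 4 (by norm_num)) h
  obtain ⟨hRX, hRd, hpX, hpd, hmX, hmd⟩ := hv.flat (x ^ 2) (le_of_eq_of_le (by norm_num [rn]) hX)
  obtain ⟨hkw0, hkwp, hkwm⟩ := hv.kw (x ^ 2) eX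
  obtain ⟨hCp, hCm⟩ := hv.C (x ^ 2) eX
  have hWf := has_ratio hS hT (has_one (S := S) (T := T)) 21 10 (by norm_num)
  obtain ⟨-, iW, hiW, h⟩ := withInv_sound hS hT h hWf
  obtain ⟨rho, hrho, h⟩ := withRho_sound hS hT hWf h
  have hWmf := has_one.add he.eb
  obtain ⟨-, iWm, hiWm, h⟩ := withInv_sound hS hT h hWmf
  obtain ⟨rhom, hrhom, h⟩ := withRho_sound hS hT hWmf h
  obtain ⟨hS'0, iS, hiS, h⟩ := withInv_sound hS hT h hv.Sv
  try simp only [AF.force_eq] at h
  obtain ⟨hκ, ik, hik, h⟩ := withInv_sound hS hT h (has_cst kap)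
  simp only [AF.force_eq, Bool.and_eq_true] at h
  obtain ⟨⟨⟨⟨⟨⟨⟨⟨⟨⟨hkpn, hkpmn⟩, hka⟩, hkb⟩, hkc⟩, hkd⟩, hA1⟩, hlin⟩, hB1⟩, hB0⟩, hL⟩ := h
  set S' := 1 - y ^ 2 with hS'
  have hxS : 1 - x ^ 2 * tau p = S' := by rw [eX]
  have hot : 0 < 1 - tau p := he.h1
  set κ := rn kap with hκd
  have hzero := has_zero (S := S) (T := T)
  have htM := he.t.mul hv.hR hS hT
  have hkpf := hv.kpp.mul hv.Sv hS hT
  have hkpmf := hv.kpm.mul hv.Sv hS hT
  have hkap := has_cst (S := S) (T := T) kap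
  set C := (c.co (tau p)).C (tau p) (x ^ 2) with hCd
  set GBv := ((c.co (tau p)).G + (c.co (tau p)).b ^ 2 * (c.co (tau p)).D) * (1 + 2 * tau p) /
    (1 - tau p) with hGBd
  have hLv := farL_eq (c.co (tau p)) (τ := tau p) (X := x ^ 2) (R := R) (by rw [hxS]; exact hS'0.ne')
  have hQv : ∀ w : ℝ, _ := fun w => farQ_eq (c.co (tau p)) (τ := tau p) (X := x ^ 2) (v := w)
    (by rw [hxS]; exact hS'0.ne')
  rw [hxS] at hLv
  simp only [hxS, ← hGBd] at hQv
  set ψ := (t - y) / (k * tau p * y) with hψd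
  have hkτy : 0 < k * tau p * y := mul_pos (mul_pos hk hτ0) hy.1
  have hθ : t - y = k * tau p * y * ψ := by rw [hψd, mul_div_cancel₀ _ hkτy.ne']
  have hR0 := hv.R0
  have haS := has_one.sub (has_ratio hS hT he.t 2 1 one_pos)
  have hlamC : lamC p = (1 - 2 * tau p) * (1 / (1 - tau p)) * (1 / (1 - tau p)) := lamC_eq p
  have hlam0 : 0 ≤ lamC p := by unfold lamC; positivity
  have ha0 : 0 ≤ 1 - 2 * tau p := he.h2.le
  have hA10 := nn_le hS hT hA1 hv.A1
  have hS1 : S' ≤ 1 := by rw [hS']; linarith [sq_nonneg y]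
  set A0 := farLin0 (c.co (tau p)) (tau p) (1 - y ^ 2) R with hA0d
  set A1 := farLin1 (c.co (tau p)) (tau p)
  -- the constant
  have hm0f := (((((haS.mul hv.hu hS hT).mul ((has_ratio hS hT has_one 1 2 two_pos).add
    (hv.hu.mul hiS hS hT)) hS hT).mul hv.hR hS hT).sub (hv.hvm.mul hv.Sv hS hT)).add
      (has_ratio hS hT ((hCm.mul hCm hS hT).mul (hv.Sv.mul hik hS hT) hS hT) 1 4 (by norm_num)))
  have hm1f := (he.GB.mul hv.Sv hS hT).sub ((has_one.sub he.t).mul hv.hvm hS hT)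
  have hnegf := (hv.A0.add (haS.mul hv.hR hS hT)).neg
  set pn := rn (posHi (v.A0.add ((one.sub (e.t.scale 2 1)).mul v.R)).neg') with hpnd
  set M1 := rn (posHi ((e.GB.mul v.Sv).sub ((one.sub e.t).mul v.vm))) with hM1d
  set M0 := rn (posHi ((((((one.sub (e.t.scale 2 1)).mul v.u).mul ((one.scale 1 2).add (v.u.mul iS))).mul
    v.R).sub (v.vm.mul v.Sv)).add (((v.Cm.mul v.Cm).mul (v.Sv.mul ik)).scale 1 4))) with hM0d
  have hpn := le_posHi hS hT hnegf
  have hM1 := le_posHi hS hT hm1f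
  have hM0 := le_posHi hS hT hm0f
  rw [← hpnd] at hpn; rw [← hM1d] at hM1; rw [← hM0d] at hM0
  have hpn0 : 0 ≤ pn := Mid.rn_nonneg _
  have hM10 : 0 ≤ M1 := Mid.rn_nonneg _
  have hM00 : 0 ≤ M0 := Mid.rn_nonneg _
  push_cast at hpn hM1 hM0
  set c0 := R * lamC p + 1 / (1 - tau p) * pn +
    rn c.K * (1 / (1 - tau p) * (1 / (1 - tau p))) * (M1 + M0) / 144 with hc0d
  set c1 := 1 / (1 - tau p) * A1 with hc1d
  have hi0 : 0 ≤ 1 / (1 - tau p) := (one_div_pos.2 hot).le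
  have hK0 := Mid.rn_nonneg c.K
  have hc00 : 0 ≤ c0 := by positivity
  have hc10 : 0 ≤ c1 := by positivity
  have hc0f := ((hv.hR.mul he.eL hS hT).add (he.i1.mul (has_cst (posHi (v.A0.add
    ((one.sub (e.t.scale 2 1)).mul v.R)).neg')) hS hT)).add (has_ratio hS hT
      (((has_cst c.K).mul (he.i1.mul he.i1 hS hT) hS hT).mul ((has_cst (posHi ((e.GB.mul v.Sv).sub
        ((one.sub e.t).mul v.vm)))).add (has_cst (posHi ((((((one.sub (e.t.scale 2 1)).mul v.u).mul
          ((one.scale 1 2).add (v.u.mul iS))).mul v.R).sub (v.vm.mul v.Sv)).add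
            (((v.Cm.mul v.Cm).mul (v.Sv.mul ik)).scale 1 4))))) hS hT) 1 144 (by norm_num))
  have hsum := le_posHi hS hT (hc0f.add (has_ratio hS hT (he.i1.mul hv.A1 hS hT) 144 1 one_pos))
  have hV : 145 * (c0 + 144 * c1) ≤ rn c.dl * exp (144 * (4095 / 8192)) := by
    have h0 := Nat.cast_le (α := ℝ).2 (Nat.le_of_ble_eq_true hL)
    simp only [Nat.mul_eq, Nat.cast_mul, Nat.cast_ofNat] at h0
    refine le_trans (mul_le_mul_of_nonneg_left (le_of_eq_of_le ?_ hsum) (by norm_num))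
      (le_trans ?_ (mul_le_mul_of_nonneg_left ((Mid.expLo_sound 1207664640).trans
        (exp_le_exp.2 (by norm_num [rn]))) (Mid.rn_nonneg _)))
    · rw [hc0d, hc1d, hlamC, hpnd, hM1d, hM0d]; push_cast; ring
    · refine le_of_mul_le_mul_right ?_ (show (0 : ℝ) < 16777216 ^ 2 by norm_num)
      simp only [rn]
      refine le_trans (le_of_eq ?_) (h0.trans (le_of_eq ?_)) <;> (field_simp; try ring)
  have fin : ∀ Φ : ℝ, Φ ≤ c0 + x ^ 2 * c1 →
      semi y ^ (p + 1) * (majZero p ((c.co (tau p)).G / ((p : ℝ) + 1))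
        ((c.co (tau p)).D / ((p : ℝ) + 1)) c2 y + k * tau p ^ 3 * Φ) ≤
      semi y ^ (p + 1) * majZero p ((c.co (tau p)).G / ((p : ℝ) + 1))
        ((c.co (tau p)).D / ((p : ℝ) + 1)) c2 y + k * tau p ^ 3 * (rn c.dl / (1 + x ^ 2)) := fun Φ hΦ =>
    cap_fin hy eX hτ4 hX hk hc00 hc10 (Mid.rn_nonneg _) hV hΦ
  push_cast at hκ
  refine ⟨fun hty => ?_, fun hyt => ?_⟩
  · -- `t ≤ y`
    obtain ⟨hyz, hwW⟩ := behind_facts hpt hp hk hkK hK hty
    have hψ0 : ψ ≤ 0 := div_nonpos_of_nonpos_of_nonneg (by linarith) hkτy.le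
    set W := 1 + rn c.K * (tau p / (1 - tau p)) with hWd
    set zl := -(rn c.K * tau p ^ 2 * (S' * (1 / (1 - tau p)))) with hzld
    have hzI : y * (t - y) ∈ Icc zl 0 := by
      refine ⟨?_, mul_nonpos_of_nonneg_of_nonpos hy.1.le (by linarith)⟩
      have := mul_le_mul_of_nonneg_right (mul_le_mul_of_nonneg_right hkK (sq_nonneg (tau p)))
        (show 0 ≤ S' * (1 / (1 - tau p)) by positivity)
      linarith
    have hkpv := has_cast hkpmf (v := (c.co (tau p)).kp (tau p) (x ^ 2) zl)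
      (by simp only [Co.kp]; rw [hxS, hzld, ← hS']; ring)
    obtain ⟨kw, hkw, hkwn, hκW, hκl⟩ :=
      kw_sel (τ := tau p) (X := x ^ 2) (Co' := c.co (tau p))
        (P := fun kw => 0 ≤ kw ∧ κ * W ≤ numUp p ((c.co (tau p)).kp (tau p) (x ^ 2) zl) kw W -
          tau p * R * rhoW W + 0 ∧
          κ ≤ numLow p ((c.co (tau p)).kp (tau p) (x ^ 2) zl) kw - tau p * R) hzI
        (kapOK_sound hS hT he rfl hp1 hkap hkpv (has_cast hkwm (by rw [hzld])) (by positivity)
          hiWm hrhom htM htM hzero hkd)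
        (kapOK_sound hS hT he rfl hp1 hkap hkpv hkw0 (by positivity) hiWm hrhom htM htM hzero hkc)
    have hkp' : 0 ≤ (c.co (tau p)).kp (tau p) (x ^ 2) zl := nn_le hS hT hkpmn hkpv
    have hridge := ridge_behind hpt hk hθ hψ0
    rw [← hx, hxS] at hridge
    have hside := side_le (R := c.R.val (tau p)) (R' := c.R.der (tau p)) (v := c.Vm.val (tau p))
      (v' := c.Vm.der (tau p)) (c2 := c2) (W := W) (μ := 0) (cl := 0) (ν := 0) (κ := κ) (kw := kw)
      (kp := (c.co (tau p)).kp (tau p) (x ^ 2) zl) (qc := 0)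
      (a := x ^ 2 * ((1 - 2 * tau p) / S'))
      (be := (1 - 2 * tau p) * (x ^ 2 * tau p / S' * (1 / 2) + (x ^ 2 * tau p / S') ^ 2))
      hok hpt hk hθ (by rw [← hx]; exact kp_mono hb hok.hD.1 hot.le hzI.1) hkp'
      (by rw [← hx]; exact hkw) hkwn hκ
      (by rw [← hx, hRX, mul_zero, sub_zero]; exact hR0) le_rfl (Or.inl rfl) le_rfl (Or.inl rfl)
      (fun _ => by
        refine ⟨hwW, hridge, ?_, le_max_left _ _⟩
        rw [← hx, hRX]
        simpa using hκW)
      (fun _ => ⟨zero_le_one, Or.inl ⟨hridge, by rw [← hx, hRX]; simpa using hκl⟩⟩)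
    refine hside.trans (fin _ ?_)
    simp only [ridgeB, coefL, ← hx, hRX, hRd, hmX, hmd, eX, zero_add, add_zero, sub_zero, mul_zero,
      zero_mul, hlamC]
    rw [← hlamC]
    set Lv := (c.co (tau p)).L (tau p) (x ^ 2) R 0
    have hQv' := hQv vm
    set Qv := (c.co (tau p)).Q (tau p) (x ^ 2) vm 0 0
    set Cv := C vm
    have hXψ : -(x ^ 2 * ψ) ≤ S' * (1 / (1 - tau p)) := by
      refine le_of_mul_le_mul_left ?_ (show 0 < k * tau p ^ 2 by positivity)
      refine le_trans (le_of_eq ?_) hyz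
      linear_combination y * hθ - (k * tau p * ψ) * eX
    have hn0 : 0 ≤ -(x ^ 2 * ψ) := by
      rw [neg_nonneg]; exact mul_nonpos_of_nonneg_of_nonpos (sq_nonneg x) hψ0
    have t1 : x ^ 2 * (1 - 2 * tau p) / S' * R * ψ + x ^ 2 * Lv * ψ ≤
        1 / (1 - tau p) * (pn + x ^ 2 * A1) := by
      have e : x ^ 2 * (1 - 2 * tau p) / S' * R * ψ + x ^ 2 * Lv * ψ =
          -(x ^ 2 * ψ) / S' * (x ^ 2 * A1 - (A0 + (1 - 2 * tau p) * R)) := by
        rw [show Lv = (A0 - x ^ 2 * A1) / S' from (eq_div_iff hS'0.ne').2 hLv]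
        ring
      have b : -(x ^ 2 * ψ) / S' ≤ 1 / (1 - tau p) := by rw [div_le_iff₀ hS'0]; linarith
      rw [e]
      exact (mul_le_mul_of_nonneg_left (by linarith) (div_nonneg hn0 hS'0.le)).trans
        (mul_le_mul_of_nonneg_right b (by positivity))
    set qa := (1 - 2 * tau p) * (y ^ 2 / S' * (1 / 2) + (y ^ 2 / S') ^ 2) * R + Qv +
      Cv * Cv / (4 * κ) with hqad
    have t2 : k * qa * ψ ^ 2 ≤
        rn c.K * (1 / (1 - tau p) * (1 / (1 - tau p))) * (M1 + M0) / 144 := by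
      have eq : qa * S' ≤ x ^ 2 * M1 + M0 := by
        have a := mul_le_mul_of_nonneg_left hM1 (sq_nonneg x)
        have b := hM0
        have ee : qa * S' = (1 - 2 * tau p) * y ^ 2 * (1 / 2 * 1 + y ^ 2 * S'⁻¹) * R - vm * S' +
            1 / 4 * (Cv * Cv * (S' * κ⁻¹)) + x ^ 2 * (GBv * S' - (1 - tau p) * vm) := by
          rw [hqad, add_mul, add_mul, hQv']; field_simp; ring
        rw [ee]
        linarith
      refine le_of_mul_le_mul_right ?_ (show 0 < S' * (x ^ 2) ^ 2 by positivity)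
      calc k * qa * ψ ^ 2 * (S' * (x ^ 2) ^ 2)
          = k * (-(x ^ 2 * ψ)) ^ 2 * (qa * S') := by ring
        _ ≤ k * (-(x ^ 2 * ψ)) ^ 2 * (x ^ 2 * M1 + M0) := mul_le_mul_of_nonneg_left eq (by positivity)
        _ ≤ rn c.K * (S' * (1 / (1 - tau p))) ^ 2 * (x ^ 2 * M1 + M0) :=
            mul_le_mul_of_nonneg_right (mul_le_mul hkK (pow_le_pow_left₀ hn0 hXψ 2) (sq_nonneg _) hK0)
              (by positivity)
        _ ≤ rn c.K * (S' * (1 / (1 - tau p))) ^ 2 * ((x ^ 2) ^ 2 * ((M1 + M0) / 144)) := by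
            refine mul_le_mul_of_nonneg_left ?_ (by positivity)
            have a := mul_le_mul_of_nonneg_left hX (mul_nonneg (sq_nonneg x) hM10)
            have b := mul_le_mul (show (144 : ℝ) * 1 ≤ x ^ 2 * x ^ 2 by nlinarith only [hX]) (le_refl M0)
              hM00 (by positivity)
            linarith
        _ ≤ _ := by
            have := mul_le_mul_of_nonneg_left hS1
              (show 0 ≤ rn c.K * (1 / (1 - tau p) * (1 / (1 - tau p))) * (M1 + M0) / 144 *
                (S' * (x ^ 2) ^ 2) by positivity)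
            linarith
    rw [show (c.co (tau p)).C (tau p) (x ^ 2) vm = Cv from rfl]
    simp only [hc0d, hc1d, hqad] at t2 ⊢
    linear_combination t1 + t2
  · -- `y ≤ t`
    have hψ0 : 0 ≤ ψ := div_nonneg (by linarith) hkτy.le
    have hwW := hcap hyt
    have hzI : y * (t - y) ∈ Icc 0 ((1 : ℝ) / 4) := by
      refine ⟨mul_nonneg hy.1.le (by linarith), ?_⟩
      have := mul_le_mul_of_nonneg_left (show t - y ≤ 1 - y by linarith [hpt.ht.2]) hy.1.le
      linarith [sq_nonneg (2 * y - 1)]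
    have hkpv := has_cast hkpf (v := (c.co (tau p)).kp (tau p) (x ^ 2) 0)
      (by simp only [Co.kp]; rw [hxS, hS']; ring)
    obtain ⟨kw, hkw, hkwn, hκW, hκl⟩ :=
      kw_sel (τ := tau p) (X := x ^ 2) (Co' := c.co (tau p))
        (P := fun kw => 0 ≤ kw ∧ κ * (21 / 10) ≤ numUp p ((c.co (tau p)).kp (tau p) (x ^ 2) 0) kw (21 / 10) -
          tau p * R * rhoW (21 / 10) + 0 ∧
          κ ≤ numLow p ((c.co (tau p)).kp (tau p) (x ^ 2) 0) kw - 0) hzI
        (kapOK_sound hS hT he rfl hp1 hkap hkpv hkw0 (by norm_num) (by simpa using hiW)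
          (by simpa using hrho) htM hzero hzero hka)
        (kapOK_sound hS hT he rfl hp1 hkap hkpv (has_cast hkwp (by norm_num)) (by norm_num)
          (by simpa using hiW) (by simpa using hrho) htM hzero hzero hkb)
    have hkp' : 0 ≤ (c.co (tau p)).kp (tau p) (x ^ 2) 0 := nn_le hS hT hkpn hkpv
    have hridge := ridge_ahead hpt hp1 hk hθ hψ0 hwW (by norm_num)
    rw [← hx, hxS] at hridge
    set be := x ^ 2 * tau p / S' * ((1 - 2 * tau p + 2 * tau p * (21 / 10 - 1)) / 2) with hbed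
    set al := (1 - 2 * tau p + 2 * tau p * (21 / 10 - 1)) / S' with hald
    have hn2 : 0 ≤ 1 - 2 * tau p + 2 * tau p * (21 / 10 - 1) := by linarith
    have hB0' : 0 ≤ ridgeB p (x ^ 2 * al) be k ψ := by
      unfold ridgeB; rw [hald, hbed]; positivity
    have hside := side_le (R := c.R.val (tau p)) (R' := c.R.der (tau p)) (v := c.Vp.val (tau p))
      (v' := c.Vp.der (tau p)) (c2 := c2) (W := 21 / 10) (μ := 0) (cl := 0) (ν := 0) (κ := κ) (kw := kw)
      (kp := (c.co (tau p)).kp (tau p) (x ^ 2) 0) (qc := 0) (a := x ^ 2 * al) (be := be)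
      hok hpt hk hθ (by rw [← hx]; exact kp_mono hb hok.hD.1 hot.le hzI.1) hkp'
      (by rw [← hx]; exact hkw) hkwn hκ
      (by rw [← hx, hRX, mul_zero, sub_zero]; exact hR0) le_rfl (Or.inl rfl) le_rfl (Or.inl rfl)
      (fun _ => by
        refine ⟨hwW, hridge, ?_, le_max_left _ _⟩
        rw [← hx, hRX]
        simpa using hκW)
      (fun _ => ⟨zero_le_one, Or.inr ⟨hB0', by simpa using hκl⟩⟩)
    refine hside.trans (fin _ ?_)
    simp only [ridgeB, coefL, ← hx, hRX, hRd, hpX, hpd, zero_add, add_zero, sub_zero, mul_zero, zero_mul]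
    set Lv := (c.co (tau p)).L (tau p) (x ^ 2) R 0
    have hQv' := hQv vp
    set Qv := (c.co (tau p)).Q (tau p) (x ^ 2) vp 0 0
    set Cv := (c.co (tau p)).C (tau p) (x ^ 2) vp
    have halSf := haS.add (has_ratio hS hT (has_ratio hS hT he.t 11 10 (by norm_num)) 2 1 one_pos)
    have hB1f := ((has_one.sub he.t).mul hv.hvp hS hT).sub (he.GB.mul hv.Sv hS hT)
    have hB0f := ((((has_ratio hS hT hv.hu 1 2 two_pos).mul halSf hS hT).mul hv.hR hS hT).sub
      (hv.hvp.mul hv.Sv hS hT)).add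
        (has_ratio hS hT ((hCp.mul hCp hS hT).mul (hv.Sv.mul hik hS hT) hS hT) 1 4 (by norm_num))
    have l1 := np_le hS hT hlin ((hv.A0.add (halSf.mul hv.hR hS hT)).sub
      (has_ratio hS hT hv.A1 144 1 one_pos))
    have b1 := nn_le hS hT hB1 hB1f
    have b0 := np_le hS hT hB0 (hB0f.sub (has_ratio hS hT hB1f 144 1 one_pos))
    push_cast at l1 b0
    have t1 : x ^ 2 * al * R * ψ + x ^ 2 * Lv * ψ ≤ 0 := by
      have e : x ^ 2 * al * R * ψ + x ^ 2 * Lv * ψ = x ^ 2 * ψ / S' *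
          ((A0 + (1 - 2 * tau p + 2 * tau p * (21 / 10 - 1)) * R) - x ^ 2 * A1) := by
        rw [hald, show Lv = (A0 - x ^ 2 * A1) / S' from (eq_div_iff hS'0.ne').2 hLv]; ring
      rw [e]
      refine mul_nonpos_of_nonneg_of_nonpos (by positivity) ?_
      have := mul_le_mul_of_nonneg_right hX hA10
      linarith
    have t2 : k * (be * R + Qv + Cv * Cv / (4 * κ)) * ψ ^ 2 ≤ 0 := by
      refine mul_nonpos_of_nonpos_of_nonneg (mul_nonpos_of_nonneg_of_nonpos hk.le ?_) (sq_nonneg ψ)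
      refine nonpos_of_mul_nonpos_left ?_ hS'0
      have ee : (be * R + Qv + Cv * Cv / (4 * κ)) * S' = 1 / 2 * y ^ 2 *
          (1 - 2 * tau p + 2 * (11 / 10 * tau p)) * R - vp * S' +
          1 / 4 * (Cv * Cv * (S' * κ⁻¹)) - x ^ 2 * ((1 - tau p) * vp - GBv * S') := by
        rw [hbed, add_mul, add_mul, hQv', eX]; field_simp; ring
      rw [ee]
      have := mul_le_mul_of_nonneg_right hX b1
      linarith
    have n1 := mul_nonneg hi0 (add_nonneg hpn0 (mul_nonneg (sq_nonneg x) hA10))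
    have n2 : 0 ≤ rn c.K * (1 / (1 - tau p) * (1 / (1 - tau p))) * (M1 + M0) / 144 := by positivity
    rw [hc0d, hc1d]
    linear_combination t1 + t2 + n1 + n2

/-- The bracket ahead, scaled by `S √τ / x`. -/
theorem crude_ahead_alg {τ x y S sS sτ R kp g W th Ca pl : ℝ} (hx : 12 ≤ x) (hy0 : 0 < y) (hy1 : y ≤ 1)
    (hS : 0 ≤ S) (hS1 : S ≤ 1) (hsS : 0 < sS) (hsS1 : sS ≤ 1) (hsτ : 0 ≤ sτ) (hsτ1 : sτ ≤ 1 / 64)
    (hτ : τ ≤ 1 / 4096) (hτ0 : 0 ≤ τ) (hxy : x * sτ = y) (hsq : sS ^ 2 = S) (hW : W = 19 / 20 * x / sS)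
    (hW1 : 1 ≤ W) (hth : th = S / y) (hR : 0 ≤ R) (hkp : 0 ≤ kp) (hg : 0 ≤ g) (hCa : 0 ≤ Ca) (hpl : 0 ≤ pl) :
    (τ * R * (W - 1) + max (kp * (W - 1)) (g / S) + Ca * th * max 1 (W - 1) + pl / S * (y ^ 2 * th)) *
      (S * sτ) ≤
      x * ((kp + R / 4096) * (19 / 1280) + (g + pl) / 768 + Ca * (19 / 240)) := by
  subst hW hth
  set W := 19 / 20 * x / sS with hW
  have hS0 : 0 < S := hsq ▸ pow_pos hsS 2
  have a0 : W * (S * sτ) = 19 / 20 * x * (sS * sτ) := by rw [hW, ← hsq]; field_simp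
  have a1 : τ * R * (W - 1) + max (kp * (W - 1)) (g / S) + Ca * (S / y) * max 1 (W - 1) ≤
      (τ * R + kp) * W + g / S + Ca * (S / y) * W := by
    have b1 := mul_le_mul_of_nonneg_left (sub_le_self W zero_le_one) (mul_nonneg hτ0 hR)
    have b2 : max (kp * (W - 1)) (g / S) ≤ kp * W + g / S :=
      max_le ((mul_le_mul_of_nonneg_left (sub_le_self W zero_le_one) hkp).trans
        (le_add_of_nonneg_right (by positivity))) (le_add_of_nonneg_left (mul_nonneg hkp (by linarith)))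
    have b3 := mul_le_mul_of_nonneg_left (max_le hW1 (sub_le_self W zero_le_one))
      (show 0 ≤ Ca * (S / y) by positivity)
    linarith
  have a2 : sS * sτ ≤ 1 / 64 := (mul_le_of_le_one_left hsτ hsS1).trans hsτ1
  have c1 : (τ * R + kp) * W * (S * sτ) ≤ x * ((kp + R / 4096) * (19 / 1280)) := by
    rw [mul_assoc, a0]
    have := mul_le_mul (show τ * R + kp ≤ kp + R / 4096 by nlinarith only [hτ, hR])
      (mul_le_mul_of_nonneg_left a2 (show 0 ≤ 19 / 20 * x by positivity)) (by positivity) (by positivity)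
    linarith
  have c2 : g / S * (S * sτ) ≤ x * (g / 768) := by
    rw [← mul_assoc, div_mul_cancel₀ _ hS0.ne']
    have := mul_le_mul_of_nonneg_left hsτ1 hg
    have := mul_le_mul_of_nonneg_right hx (show 0 ≤ g by linarith)
    linarith
  have c3 : Ca * (S / y) * W * (S * sτ) ≤ x * (Ca * (19 / 240)) := by
    rw [mul_assoc, a0]
    have e : Ca * (S / y) * (19 / 20 * x * (sS * sτ)) = Ca * (19 / 20) * (S * sS) := by
      rw [← hxy]; field_simp [show x ≠ 0 by linarith, show sτ ≠ 0 from fun h => by simp [h] at hxy; linarith]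
    rw [e]
    have := mul_le_mul_of_nonneg_left (mul_le_one₀ hS1 hsS.le hsS1) (mul_nonneg hCa (show (0 : ℝ) ≤ 19 / 20 by norm_num))
    have := mul_le_mul_of_nonneg_right hx hCa
    linarith
  have c4 : pl / S * (y ^ 2 * (S / y)) * (S * sτ) ≤ x * (pl / 768) := by
    have e : pl / S * (y ^ 2 * (S / y)) * (S * sτ) = pl * (S * (y * sτ)) := by field_simp
    rw [e]
    have := mul_le_mul_of_nonneg_left (show S * (y * sτ) ≤ 1 * (1 * (1 / 64)) from
      mul_le_mul hS1 (mul_le_mul hy1 hsτ1 hsτ zero_le_one) (by positivity) zero_le_one) hpl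
    have := mul_le_mul_of_nonneg_right hx hpl
    linarith
  have := mul_le_mul_of_nonneg_right a1 (mul_nonneg hS hsτ)
  linarith

/-- The bracket behind, scaled by `S √τ`. -/
theorem crude_behind_alg {τ X u S sτ R eb km g Ca A1 pn K i1 Kτ2 M1 V : ℝ} (hX : 144 ≤ X) (hu : u = X * τ)
    (hu1 : u ≤ 1) (hS : 0 < S) (hS1 : S ≤ 1) (hsτ : 0 ≤ sτ) (hsτ1 : sτ ≤ 1 / 64) (hτ0 : 0 ≤ τ)
    (hR : 0 ≤ R) (heb : 0 ≤ eb) (heb1 : eb ≤ 1) (hkm : 0 ≤ km) (hg : 0 ≤ g) (hCa : 0 ≤ Ca) (hA1 : 0 ≤ A1)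
    (hpn : 0 ≤ pn) (hK : 0 ≤ K) (hi1 : 0 ≤ i1) (hKτ : Kτ2 = K * τ ^ 2) (hM1 : 0 ≤ M1) (hV : 0 ≤ V) :
    (τ * R * eb + max (km * eb) (g / S) + Ca * (K * τ * i1 * S / X) * max 1 eb +
      (X * A1 + pn) / S * (u * (K * τ * i1 * S / X)) + (X * M1 + V) / S * (K * τ * i1 * S / X) ^ 2) *
      (S * sτ) ≤
      (τ * R * eb + km * eb + g + Ca * (i1 * τ * K / 144) + (A1 * (i1 * τ * K) + pn * (Kτ2 * i1)) +
        (M1 + V) * (i1 * τ * K * (i1 * τ * K)) / 144) / 64 := by
  subst hu hKτ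
  set Kt := i1 * τ * K with hKt
  have hKt0 : 0 ≤ Kt := by positivity
  have hX0 : 0 < X := by linarith
  have hth : K * τ * i1 * S / X = Kt * S / X := by rw [hKt]; ring
  rw [hth, max_eq_left heb1, mul_one]
  have m1 : max (km * eb) (g / S) ≤ km * eb + g / S :=
    max_le_add_of_nonneg (by positivity) (by positivity)
  have hSX : S / X ≤ 1 / 144 := div_le_div₀ zero_le_one hS1 (by norm_num) hX
  have b1 : (τ * R * eb + max (km * eb) (g / S)) * S ≤ τ * R * eb + km * eb + g := by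
    have a := mul_le_mul_of_nonneg_left hS1 (show 0 ≤ τ * R * eb + km * eb by positivity)
    have b := mul_le_mul_of_nonneg_right m1 hS.le
    have c := div_mul_cancel₀ g hS.ne'
    linarith
  have b2 : Ca * (Kt * S / X) * S ≤ Ca * (Kt / 144) := by
    have := mul_le_mul hSX hS1 hS.le (by norm_num)
    have := mul_le_mul_of_nonneg_left this (mul_nonneg hCa hKt0)
    exact le_of_eq_of_le (by ring) (this.trans (le_of_eq (by ring)))
  have b3 : (X * A1 + pn) / S * (X * τ * (Kt * S / X)) * S ≤ A1 * Kt + pn * (K * τ ^ 2 * i1) := by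
    have e : (X * A1 + pn) / S * (X * τ * (Kt * S / X)) * S = (X * τ) * (A1 * Kt) * S + pn * (K * τ ^ 2 * i1) * S := by
      rw [hKt]; field_simp
    rw [e]
    exact add_le_add (mul_le_of_le_one_right (by positivity) hS1 |>.trans
      (mul_le_of_le_one_left (by positivity) hu1)) (mul_le_of_le_one_right (by positivity) hS1)
  have b4 : (X * M1 + V) / S * (Kt * S / X) ^ 2 * S ≤ (M1 + V) * (Kt * Kt) / 144 := by
    have e : (X * M1 + V) / S * (Kt * S / X) ^ 2 * S = Kt * Kt * S ^ 2 * (M1 / X + V / X ^ 2) := by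
      field_simp
    rw [e]
    have c1 : M1 / X ≤ M1 / 144 := div_le_div_of_nonneg_left hM1 (by norm_num) hX
    have c2 : V / X ^ 2 ≤ V / 144 := div_le_div_of_nonneg_left hV (by norm_num) (by nlinarith only [hX])
    have c3 := mul_le_mul_of_nonneg_left (add_le_add c1 c2) (mul_nonneg hKt0 hKt0)
    have c4 := mul_le_mul_of_nonneg_right (pow_le_one₀ hS.le hS1 (n := 2))
      (show 0 ≤ Kt * Kt * (M1 / X + V / X ^ 2) by positivity)
    linarith
  have := mul_le_mul_of_nonneg_right (add_le_add (add_le_add (add_le_add b1 b2) b3) b4) hsτ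
  have := mul_le_mul_of_nonneg_left hsτ1 (show 0 ≤ τ * R * eb + km * eb + g + Ca * (Kt / 144) +
    (A1 * Kt + pn * (K * τ ^ 2 * i1)) + (M1 + V) * (Kt * Kt) / 144 by positivity)
  linarith

set_option maxHeartbeats 1600000 in
/-- Absolutely where `fac ^ 2 k ^ 2 τ ^ 5 ≥ exp (-3X/4)`. -/
theorem crudeZone_sound {c : Cell} {kap uh fac p : ℕ} {τ x k y t r lam : ℝ} (hT : |T| ≤ 1)
    (hτ : τ = tau p) (hτ4 : τ ≤ 1 / 4096) (hτT : τ = tauOf 2048 2048 T) (hp : 29 ≤ p)
    (hok : (c.co τ).Ok p) (hb : 1 ≤ (c.co τ).b) (hk : 0 < k) (hkK : k ≤ rn c.K)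
    (hK : rn c.K ≤ 1) (hpt : Pt p k y t r lam) (hx : x ^ 2 = XP p y) (hx1 : 12 ≤ x)
    (hfac : 0 < fac) (hz : exp (-(3 * x ^ 2 / 4)) ≤ (fac : ℝ) ^ 2 * (k ^ 2 * tau p ^ 5))
    (h : (withEnv c 2048 2048 fun e =>
      capZoneOK c e (144 * 16777216) kap uh && crudeZoneOK c e (144 * 16777216) fac) = true) (c2 : ℝ) :
    (t ≤ y → total p (c.co τ) (c.R.val τ) (c.R.der τ) (c.Vm.val τ) (c.Vm.der τ) c2 lam y t r ≤
      semi y ^ (p + 1) * majZero p ((c.co τ).G / ((p : ℝ) + 1)) ((c.co τ).D / ((p : ℝ) + 1)) c2 y +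
        k * tau p ^ 3 * (rn c.dl / (1 + x ^ 2))) ∧
    (y ≤ t → total p (c.co τ) (c.R.val τ) (c.R.der τ) (c.Vp.val τ) (c.Vp.der τ) c2 lam y t r ≤
      semi y ^ (p + 1) * majZero p ((c.co τ).G / ((p : ℝ) + 1)) ((c.co τ).D / ((p : ℝ) + 1)) c2 y +
        k * tau p ^ 3 * (rn c.dl / (1 + x ^ 2))) := by
  subst hτ
  have hτ0 := tau_pos p
  have hy := hpt.hy
  obtain ⟨e1, e2, -, eX⟩ := tau_facts p (y := y)
  rw [← hx] at eX
  have hX : 144 ≤ x ^ 2 := by nlinarith only [hx1]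
  have hy2 : y ^ 2 < 1 := by nlinarith only [hy.1, hy.2]
  have hx0 : 0 < x := by linarith
  obtain ⟨S, hS, huf⟩ := uAF_has (a := 0) (h := 8388608) (uv := y ^ 2) (by simp [rn]; positivity)
    (hy2.le.trans (by norm_num [rn]))
  obtain ⟨e, he, h⟩ := withEnv_sound (S := S) hS hT h
  rw [← hτT] at he
  replace h := (Bool.and_eq_true_iff.1 h).2
  simp only [crudeZoneOK, AF.force_eq] at h
  obtain ⟨v, R, vp, vm, hv, h⟩ := withFarV_sound hS hT (by rw [abs_of_pos hτ0]; linarith) he (huf T)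
    (has_ratio hS hT has_one 1 4 (by norm_num)) h
  obtain ⟨hRX, hRd, hpX, hpd, hmX, hmd⟩ := hv.flat (x ^ 2) (le_of_eq_of_le (by norm_num [rn]) hX)
  obtain ⟨hkw0, hkwp, hkwm⟩ := hv.kw (x ^ 2) eX
  obtain ⟨hCp, hCm⟩ := hv.C (x ^ 2) eX
  obtain ⟨hkpp0, ikp, hikp, h⟩ := withInv_sound hS hT h (has_ratio hS hT hv.kpp 2 1 one_pos)
  obtain ⟨hkpm0, ikm, hikm, h⟩ := withInv_sound hS hT h (has_ratio hS hT hv.kpm 2 1 one_pos)
  simp only [kmAF, AF.force_eq, Bool.and_eq_true] at h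
  obtain ⟨⟨⟨⟨heb, hA1⟩, hvp⟩, hQp⟩, hL⟩ := h
  push_cast at hkpp0 hkpm0
  set S' := 1 - y ^ 2 with hS'
  have hS'0 : 0 < S' := by linarith
  have hS1 : S' ≤ 1 := by rw [hS']; linarith [sq_nonneg y]
  have hxS : 1 - x ^ 2 * tau p = S' := by rw [eX]
  have hot : 0 < 1 - tau p := he.h1
  have hsy := semi_pos (t := y) ⟨by linarith [hy.1], hy.2⟩
  have hsy2 : semi y ^ 2 = S' := semi_sq ⟨by linarith [hy.1], hy.2.le⟩
  have hsy1 : semi y ≤ 1 := Real.sqrt_le_one.2 (by linarith [sq_nonneg y])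
  have hsτ0 : 0 < √(tau p) := Real.sqrt_pos.2 hτ0
  have hsτ : √(tau p) ≤ 1 / 64 := Real.sqrt_le_iff.2 ⟨by norm_num, hτ4.trans (by norm_num)⟩
  have hxy : x * √(tau p) = y := by
    refine (pow_left_inj₀ (by positivity) hy.1.le two_ne_zero).1 ?_
    rw [mul_pow, Real.sq_sqrt hτ0.le, eX]
  have hLv := farL_eq (c.co (tau p)) (τ := tau p) (X := x ^ 2) (R := R) (by rw [hxS]; exact hS'0.ne')
  have hQv : ∀ w : ℝ, _ := fun w => farQ_eq (c.co (tau p)) (τ := tau p) (X := x ^ 2) (v := w)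
    (by rw [hxS]; exact hS'0.ne')
  simp only [hxS] at hLv hQv
  set Lv := (c.co (tau p)).L (tau p) (x ^ 2) R 0
  set A0 := farLin0 (c.co (tau p)) (tau p) S' R
  set A1 := farLin1 (c.co (tau p)) (tau p)
  have hA10 := nn_le hS hT hA1 hv.A1
  have hvp0 := nn_le hS hT hvp hv.hvp
  have hQp0 := nn_le hS hT hQp (((has_one.sub he.t).mul hv.hvp hS hT).sub (he.GB.mul hv.Sv hS hT))
  set kp := rn (Mid.nmax (posHi v.kw0) (posHi v.kwp)) with hkpd
  set km := rn (Mid.nmax (posHi v.kw0) (posHi v.kwm)) with hkmd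
  have hkp0 : 0 ≤ kp := Mid.rn_nonneg _
  have hkm0 : 0 ≤ km := Mid.rn_nonneg _
  set Cap := rn (absHi v.Cp)
  set Cam := rn (absHi v.Cm)
  set pl := rn (posHi (v.A0.sub (v.A1.scale 144 1))) with hpld
  set PA := rn (posHi v.A1)
  set pn := rn (posHi v.A0.neg')
  set M1 := rn (posHi ((e.GB.mul v.Sv).sub ((one.sub e.t).mul v.vm))) with hM1d
  set V := rn (posHi (v.vm.mul v.Sv).neg') with hVd
  have hpl := le_posHi hS hT (hv.A0.sub (has_ratio hS hT hv.A1 144 1 one_pos))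
  have hPA := le_posHi hS hT hv.A1
  have hpn := le_posHi hS hT hv.A0.neg
  have hM1 := le_posHi hS hT ((he.GB.mul hv.Sv hS hT).sub ((has_one.sub he.t).mul hv.hvm hS hT))
  have hV := le_posHi hS hT (hv.hvm.mul hv.Sv hS hT).neg
  push_cast at hpl
  set kpv := (c.co (tau p)).gc / (1 - tau p) with hkpvd
  set kmv := ((c.co (tau p)).gc - (c.co (tau p)).gc * ((c.co (tau p)).b - 1) / (1 - tau p) *
    (rn c.K * tau p ^ 2)) / (1 - tau p) with hkmvd
  have hkpv : 0 < kpv := by linarith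
  have hkmv : 0 < kmv := by linarith
  set eb := rn c.K * (tau p / (1 - tau p)) with hebd
  have hK0 := Mid.rn_nonneg c.K
  have hi0 : 0 ≤ 1 / (1 - tau p) := (one_div_pos.2 hot).le
  have heb0 : 0 ≤ eb := by positivity
  have heb1 : eb ≤ 1 := by
    have := nn_le hS hT heb (has_one.sub he.eb)
    linarith
  have hR0 := hv.R0
  set Kt := 1 / (1 - tau p) * tau p * rn c.K with hKtd
  set Fp := (kp + R / 4096) * (19 / 1280) + (kp * kp * (2 * kpv)⁻¹ + pl) / 768 + Cap * (19 / 240) with hFpd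
  set Fm := tau p * R * eb + km * eb + km * km * (2 * kmv)⁻¹ + Cam * (Kt / 144) +
    (PA * Kt + pn * (rn c.K * tau p ^ 2 * (1 / (1 - tau p)))) + (M1 + V) * (Kt * Kt) / 144 with hFmd
  have hnum := Mid.rn_nonneg (absHi v.Cp)
  have hnum2 := Mid.rn_nonneg (absHi v.Cm)
  have hpl0 : 0 ≤ pl := Mid.rn_nonneg _
  have hPA0 : 0 ≤ PA := Mid.rn_nonneg _
  have hpn0 : 0 ≤ pn := Mid.rn_nonneg _
  have hM10 : 0 ≤ M1 := Mid.rn_nonneg _
  have hV0 : 0 ≤ V := Mid.rn_nonneg _
  have hFp0 : 0 ≤ Fp := by positivity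
  have hFm0 : 0 ≤ Fm := by positivity
  have hKtf := (he.i1.mul he.t hS hT).mul (has_cst c.K) hS hT
  have hF := le_posHi hS hT (((((has_ratio hS hT ((has_cst (Mid.nmax (posHi v.kw0) (posHi v.kwp))).add
    (has_ratio hS hT hv.hR 1 4096 (by norm_num))) 19 1280 (by norm_num)).add (has_ratio hS hT
      ((((has_cst (Mid.nmax (posHi v.kw0) (posHi v.kwp))).mul (has_cst (Mid.nmax (posHi v.kw0) (posHi v.kwp)))
        hS hT).mul hikp hS hT).add (has_cst (posHi (v.A0.sub (v.A1.scale 144 1))))) 1 768 (by norm_num))).add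
    (has_ratio hS hT (has_cst (absHi v.Cp)) 19 240 (by norm_num)))).add (has_ratio hS hT
      (((((((he.t.mul hv.hR hS hT).mul he.eb hS hT).add ((has_cst (Mid.nmax (posHi v.kw0) (posHi v.kwm))).mul he.eb hS hT)).add
        (((has_cst (Mid.nmax (posHi v.kw0) (posHi v.kwm))).mul (has_cst (Mid.nmax (posHi v.kw0) (posHi v.kwm))) hS hT).mul hikm hS hT)).add
        ((has_cst (absHi v.Cm)).mul (has_ratio hS hT hKtf 1 144 (by norm_num)) hS hT)).add
        ((((has_cst (posHi v.A1)).mul hKtf hS hT).add ((has_cst (posHi v.A0.neg')).mul (he.Kt2.mul he.i1 hS hT) hS hT)).add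
          (has_ratio hS hT (((has_cst (posHi ((e.GB.mul v.Sv).sub ((one.sub e.t).mul v.vm)))).add
            (has_cst (posHi (v.vm.mul v.Sv).neg'))).mul (hKtf.mul hKtf hS hT) hS hT) 1 144 (by norm_num)))))
        1 768 (by norm_num)))
  have hVF : 1740 * fac * (Fp + Fm / 768) ≤ rn c.dl * exp (144 * (1 / 8 - 3 / 8192)) := by
    have h0 := Nat.cast_le (α := ℝ).2 (Nat.le_of_ble_eq_true hL)
    simp only [Nat.mul_eq, Nat.cast_mul, Nat.cast_ofNat] at h0
    refine le_trans (mul_le_mul_of_nonneg_left (le_of_eq_of_le ?_ hF) (by positivity))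
      (le_trans ?_ (mul_le_mul_of_nonneg_left ((Mid.expLo_sound 301105152).trans
        (exp_le_exp.2 (by norm_num [rn]))) (Mid.rn_nonneg _)))
    · rw [hFpd, hFmd, hebd, hKtd]; push_cast; ring
    · refine le_of_mul_le_mul_right ?_ (show (0 : ℝ) < 16777216 ^ 2 by norm_num)
      simp only [rn]
      refine le_trans (le_of_eq ?_) (h0.trans (le_of_eq ?_)) <;> (field_simp; try ring)
  have fin : ∀ B : ℝ, B * (S' * √(tau p)) ≤ x * (Fp + Fm / 768) →
      semi y ^ (p + 1) * (tau p * B) ≤ k * tau p ^ 3 * (rn c.dl / (1 + x ^ 2)) := fun B hB => by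
    have hd0 := Mid.rn_nonneg c.dl
    -- `k τ ^ (5/2)` from below
    have hkz : exp (-(3 * x ^ 2 / 8)) * √(tau p) ≤ fac * (k * tau p ^ 3) := by
      refine (pow_le_pow_iff_left₀ (by positivity) (by positivity) two_ne_zero).1 ?_
      rw [mul_pow, ← Real.exp_nat_mul, Real.sq_sqrt hτ0.le]
      refine le_trans (mul_le_mul_of_nonneg_right (le_of_eq_of_le ?_ hz) hτ0.le) (le_of_eq (by ring))
      congr 1; push_cast; ring
    have hw : semi y ^ (p - 1) ≤ exp (-((1 - 3 * tau p) * x ^ 2 / 2)) := by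
      refine (semi_pow_le' hy).trans (exp_le_exp.2 (neg_le_neg ?_))
      have a : ((p - 1 : ℕ) : ℝ) / 2 * y ^ 2 = (1 - 3 * tau p) * x ^ 2 / 2 := by
        rw [← eX, Nat.cast_sub (show 1 ≤ p by omega), tau]; push_cast; field_simp; ring
      rw [← a]
      exact mul_le_mul_of_nonneg_left (by
        linarith [show 0 ≤ (y ^ 2) ^ 2 / 2 + (y ^ 2) ^ 3 / 3 + (y ^ 2) ^ 4 / 4 by positivity]) (by positivity)
    have d1 : x ≤ 12 * exp ((x ^ 2 - 144) / 288) := by
      refine (pow_le_pow_iff_left₀ hx0.le (by positivity) two_ne_zero).1 ?_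
      rw [mul_pow, ← Real.exp_nat_mul]
      refine le_trans (le_of_eq_of_le (show x ^ 2 = 144 * (x ^ 2 / 144) by ring)
        (mul_le_mul_of_nonneg_left (div_le_exp (by norm_num)) (by norm_num))) (le_of_eq ?_)
      norm_num; ring
    have d2 : 1 + x ^ 2 ≤ 145 * exp ((x ^ 2 + 1 - 145) / 145) := by
      have := div_le_exp (x := x ^ 2 + 1) (show (0 : ℝ) < 145 by norm_num)
      linarith
    have key : semi y ^ (p - 1) * (B * (S' * √(tau p))) * (1 + x ^ 2) * fac ≤
        rn c.dl * exp (-(3 * x ^ 2 / 8)) := by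
      calc semi y ^ (p - 1) * (B * (S' * √(tau p))) * (1 + x ^ 2) * fac
          ≤ exp (-((1 - 3 * tau p) * x ^ 2 / 2)) * (x * (Fp + Fm / 768)) * (1 + x ^ 2) * fac :=
            mul_le_mul_of_nonneg_right (mul_le_mul_of_nonneg_right ((mul_le_mul_of_nonneg_left hB
              (pow_nonneg hsy.le _)).trans (mul_le_mul_of_nonneg_right hw (by positivity))) (by positivity))
              (Nat.cast_nonneg _)
        _ = exp (-((1 - 3 * tau p) * x ^ 2 / 2)) * (x * (1 + x ^ 2) * (fac * (Fp + Fm / 768))) := by ring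
        _ ≤ exp (-((1 - 3 * tau p) * x ^ 2 / 2)) * (12 * exp ((x ^ 2 - 144) / 288) *
            (145 * exp ((x ^ 2 + 1 - 145) / 145)) * (fac * (Fp + Fm / 768))) :=
            mul_le_mul_of_nonneg_left (mul_le_mul_of_nonneg_right (mul_le_mul d1 d2 (by positivity)
              (by positivity)) (by positivity)) (exp_pos _).le
        _ = 1740 * fac * (Fp + Fm / 768) * exp (-((1 - 3 * tau p) * x ^ 2 / 2) + (x ^ 2 - 144) / 288 +
            (x ^ 2 + 1 - 145) / 145) := by rw [Real.exp_add, Real.exp_add]; ring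
        _ ≤ rn c.dl * exp (144 * (1 / 8 - 3 / 8192)) * exp (-((1 - 3 * tau p) * x ^ 2 / 2) +
            (x ^ 2 - 144) / 288 + (x ^ 2 + 1 - 145) / 145) :=
            mul_le_mul_of_nonneg_right hVF (exp_pos _).le
        _ ≤ rn c.dl * exp (-(3 * x ^ 2 / 8)) := by
            rw [mul_assoc, ← Real.exp_add]
            refine mul_le_mul_of_nonneg_left (exp_le_exp.2 ?_) hd0
            have := mul_le_mul_of_nonneg_right hτ4 (sq_nonneg x)
            linarith
    rw [show semi y ^ (p + 1) * (tau p * B) = semi y ^ (p - 1) * (B * (S' * √(tau p))) * √(tau p) by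
      rw [show p + 1 = (p - 1) + 2 by omega, pow_add, hsy2]
      linear_combination (-(semi y ^ (p - 1) * S' * B)) * Real.mul_self_sqrt hτ0.le]
    rw [← mul_div_assoc, le_div_iff₀ (by positivity)]
    refine le_of_mul_le_mul_left ?_ (Nat.cast_pos.2 hfac : (0 : ℝ) < fac)
    calc (fac : ℝ) * (semi y ^ (p - 1) * (B * (S' * √(tau p))) * √(tau p) * (1 + x ^ 2))
        = semi y ^ (p - 1) * (B * (S' * √(tau p))) * (1 + x ^ 2) * fac * √(tau p) := by ring
      _ ≤ rn c.dl * exp (-(3 * x ^ 2 / 8)) * √(tau p) := mul_le_mul_of_nonneg_right key hsτ0.le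
      _ ≤ (fac : ℝ) * (k * tau p ^ 3 * rn c.dl) := by
          rw [mul_assoc, ← mul_assoc (fac : ℝ), mul_comm ((fac : ℝ) * (k * tau p ^ 3))]
          exact mul_le_mul_of_nonneg_left hkz hd0
  refine ⟨fun hty => ?_, fun hyt => ?_⟩
  · -- `t ≤ y`
    obtain ⟨hyz, hwW⟩ := behind_facts hpt hp hk hkK hK hty
    set th := rn c.K * tau p * (1 / (1 - tau p)) * S' / x ^ 2 with hthd
    set zl := -(rn c.K * tau p ^ 2 * (S' * (1 / (1 - tau p)))) with hzld
    have hzl : y * (y - t) ≤ -zl := by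
      rw [hzld, neg_neg]
      exact hyz.trans (mul_le_mul_of_nonneg_right (mul_le_mul_of_nonneg_right hkK (sq_nonneg _)) (by positivity))
    have hkp' := kp_mono (p := p) (X := x ^ 2) (c := c.co (tau p)) (z0 := zl) (z := y * (t - y)) hb
      hok.hD.1 hot.le (by linarith)
    have hth : |t - y| ≤ th * y := by
      rw [abs_of_nonpos (by linarith)]
      refine le_of_mul_le_mul_left ?_ hy.1
      refine le_trans (le_of_eq_of_le (by ring) hzl) (le_of_eq ?_)
      rw [hzld, hthd, show y * (rn c.K * tau p * (1 / (1 - tau p)) * S' / x ^ 2 * y) =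
        rn c.K * tau p * (1 / (1 - tau p)) * S' / x ^ 2 * y ^ 2 by ring, ← eX]
      field_simp
    have hc := crude_point (R := c.R.val (tau p)) (R' := c.R.der (tau p)) (v := c.Vm.val (tau p))
      (v' := c.Vm.der (tau p)) (c2 := c2) (km := km) (W := 1 + eb) (th := th)
      (Ls := (x ^ 2 * PA + pn) / S') (Ca := Cam) (Qb := (x ^ 2 * M1 + V) / S') (kp := S' * kmv) hok hpt hk
      hwW (le_add_of_nonneg_right heb0) (by rw [← hx, hRX]; exact hR0)
      (by
        rw [← hx]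
        refine le_of_eq_of_le ?_ hkp'
        rw [hkmvd]; simp only [Co.kp]; rw [hxS, hzld]; ring)
      (mul_pos hS'0 hkmv)
      (by
        rw [← hx]
        exact kw_ends ⟨by linarith, mul_nonpos_of_nonneg_of_nonpos hy.1.le (by linarith)⟩
          ((le_posHi hS hT hkwm).trans (Mid.rn_le (Mid.le_nmax_right _ _)))
          ((le_posHi hS hT hkw0).trans (Mid.rn_le (Mid.le_nmax_left _ _))))
      hkm0 hth
      (by
        rw [← hx, hRX, hRd, abs_of_nonpos (by linarith : t - y ≤ 0)]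
        have h1 : -Lv ≤ (x ^ 2 * PA + pn) / S' := by
          rw [le_div_iff₀ hS'0]
          have := mul_le_mul_of_nonneg_left hPA (sq_nonneg x)
          linarith
        have := mul_le_mul_of_nonneg_right h1 (show 0 ≤ -(t - y) by linarith)
        linarith)
      (by positivity) (by rw [← hx, hmX]; exact abs_le_absHi hS hT hCm)
      (by
        rw [← hx, hmX, hmd, le_div_iff₀ hS'0, hQv]
        have := mul_le_mul_of_nonneg_left hM1 (sq_nonneg x)
        linarith)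
      (by positivity)
    refine hc.trans ?_
    rw [mul_add]
    refine add_le_add le_rfl (fin _ ?_)
    rw [← hx, hRX, eX, show 1 + eb - 1 = eb by ring,
      show km ^ 2 / (2 * (S' * kmv)) = km * km * (2 * kmv)⁻¹ / S' by field_simp]
    have halg := crude_behind_alg (τ := tau p) (X := x ^ 2) (u := y ^ 2) (S := S') (sτ := √(tau p)) (R := R)
      (eb := eb) (km := km) (g := km * km * (2 * kmv)⁻¹) (Ca := Cam) (A1 := PA) (pn := pn) (K := rn c.K)
      (i1 := 1 / (1 - tau p)) (M1 := M1) (V := V) hX eX.symm hy2.le hS'0 hS1 hsτ0.le hsτ hτ0.le hR0 heb0 heb1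
      hkm0 (by positivity) hnum2 hPA0 hpn0 hK0 hi0 rfl hM10 hV0
    rw [← hthd, ← hKtd, ← hFmd] at halg
    refine halg.trans ?_
    have := mul_le_mul_of_nonneg_right hx1 hFm0
    have := mul_nonneg hx0.le hFp0
    linarith
  · -- `y ≤ t`
    obtain ⟨hwW, hW1⟩ := wide_w hpt (by omega) hx (by linarith)
    set W := 19 / 20 * x / semi y with hWd
    have hz' : y * (t - y) ∈ Icc 0 ((1 : ℕ) / (4 : ℕ) * (1 : ℝ)) := by
      refine ⟨mul_nonneg hy.1.le (by linarith), ?_⟩
      have := mul_le_mul_of_nonneg_left (show t - y ≤ 1 - y by linarith only [hpt.ht.2]) hy.1.le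
      push_cast
      linarith only [this, sq_nonneg (2 * y - 1)]
    have hkp' := kp_mono (p := p) (X := x ^ 2) (c := c.co (tau p)) (z0 := 0) (z := y * (t - y)) hb
      hok.hD.1 hot.le hz'.1
    have hth : |t - y| ≤ S' / y * y := by
      rw [div_mul_cancel₀ _ hy.1.ne', abs_of_nonneg (by linarith), hS']
      nlinarith only [hpt.ht.2, hy.1, hy.2]
    have hc := crude_point (R := c.R.val (tau p)) (R' := c.R.der (tau p)) (v := c.Vp.val (tau p))
      (v' := c.Vp.der (tau p)) (c2 := c2) (km := kp) (W := W) (th := S' / y) (Ls := pl / S')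
      (Ca := Cap) (Qb := 0) (kp := S' * kpv) hok hpt hk hwW hW1 (by rw [← hx, hRX]; exact hR0)
      (by
        rw [← hx]
        refine le_of_eq_of_le ?_ hkp'
        rw [hkpvd]; simp only [Co.kp]; rw [hxS]; ring)
      (mul_pos hS'0 hkpv)
      (by
        rw [← hx]
        exact kw_ends hz' ((le_posHi hS hT hkw0).trans (Mid.rn_le (Mid.le_nmax_left _ _)))
          ((le_posHi hS hT hkwp).trans (Mid.rn_le (Mid.le_nmax_right _ _))))
      hkp0 hth
      (by
        rw [← hx, hRX, hRd, abs_of_nonneg (by linarith : 0 ≤ t - y)]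
        refine mul_le_mul_of_nonneg_right ?_ (by linarith)
        rw [le_div_iff₀ hS'0, hLv]
        have := mul_le_mul_of_nonneg_right hX hA10
        linarith)
      (by positivity) (by rw [← hx, hpX]; exact abs_le_absHi hS hT hCp)
      (by
        rw [← hx, hpX, hpd]
        refine nonpos_of_mul_nonpos_left ?_ hS'0
        rw [hQv]
        have := mul_le_mul_of_nonneg_right hX hQp0
        have := mul_nonneg hvp0 hS'0.le
        linarith)
      le_rfl
    refine hc.trans ?_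
    rw [mul_add]
    refine add_le_add le_rfl (fin _ ?_)
    rw [← hx, hRX, eX, zero_mul, add_zero,
      show kp ^ 2 / (2 * (S' * kpv)) = kp * kp * (2 * kpv)⁻¹ / S' by field_simp]
    refine (crude_ahead_alg hx1 hy.1 hy.2.le hS'0.le hS1 hsy hsy1 hsτ0.le hsτ hτ4 hτ0.le hxy hsy2 hWd
      hW1 rfl hR0 hkp0 (by positivity) hnum hpl0).trans ?_
    rw [← hFpd]
    have := mul_nonneg hx0.le hFm0
    linarith

/-- Beyond `x₁ = 12` on a slice next to `τ = 0`. -/
theorem farBOK_sound {c : Cell} {kap p : ℕ} {τ x k y t r lam : ℝ} (hτ : τ = tau p)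
    (hτ4 : tau p ≤ 1 / 4096) (hp : 29 ≤ p) (hok : (c.co τ).Ok p) (hb : 1 ≤ (c.co τ).b) (hk : 0 < k)
    (hkK : k ≤ rn c.K) (hkl : exp (-(5 / 4 * √((p : ℝ) + 1))) / 5 ≤ k) (hpt : Pt p k y t r lam)
    (hx : x ^ 2 = XP p y) (hx1 : 12 ≤ x) (h : farBOK c kap = true) (c2 : ℝ) :
    (t ≤ y → total p (c.co τ) (c.R.val τ) (c.R.der τ) (c.Vm.val τ) (c.Vm.der τ) c2 lam y t r ≤
      semi y ^ (p + 1) * majZero p ((c.co τ).G / ((p : ℝ) + 1)) ((c.co τ).D / ((p : ℝ) + 1)) c2 y +
        k * tau p ^ 3 * (rn c.dl / (1 + x ^ 2))) ∧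
    (y ≤ t → total p (c.co τ) (c.R.val τ) (c.R.der τ) (c.Vp.val τ) (c.Vp.der τ) c2 lam y t r ≤
      semi y ^ (p + 1) * majZero p ((c.co τ).G / ((p : ℝ) + 1)) ((c.co τ).D / ((p : ℝ) + 1)) c2 y +
        k * tau p ^ 3 * (rn c.dl / (1 + x ^ 2))) := by
  simp only [farBOK, Bool.and_eq_true] at h
  obtain ⟨hK, h⟩ := h
  have hK' : rn c.K ≤ 16 / 1000 := (Mid.rn_le (Nat.le_of_ble_eq_true hK)).trans (by norm_num [rn])
  have hτ0 := tau_pos p
  set T := tau p * 8192 - 1 with hTd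
  have hT : |T| ≤ 1 := abs_le.2 ⟨by linarith, by linarith⟩
  have hτT : τ = tauOf 2048 2048 T := by rw [hτ, tauOf, hTd]; push_cast; ring
  have hK1 : rn c.K ≤ 1 := hK'.trans (by norm_num)
  rcases lt_or_ge (k ^ 2 * tau p ^ 5) (exp (-(3 * x ^ 2 / 4))) with hz | hz
  · have hu := cap_zone_u (X := x ^ 2) hτ4 hk hkl hz
    exact capZone_sound hT hτ (hτ ▸ hτ4) hτT hp hok hb hk hkK hK1 hpt hx hx1
      (hu.trans (by norm_num [rn]))
      (fun _ => cap_zone_W hpt (by omega) hk (hkK.trans hK') hτ4 hx hx1 hu hz) h c2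
  · exact crudeZone_sound hT hτ (hτ ▸ hτ4) hτT hp hok hb hk hkK hK1 hpt hx hx1 (fac := 1) one_pos
      (by simpa using hz) h c2

end Vale.Agent.P237.All.Transport.Small.Large
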