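import Vale.Agent.P237.All.Small.Large.SoundMinus

/-!
P237, every dimension, excess `k ≤ .0134`: the tests of the right side of a box, with the band and in the
tail, bound the bracket there.
-/

noncomputable section

open Real Set

namespace Vale.Agent.P237.All.Transport.Small.Large

open Mid (Sg AF Pt XP epsP rn)

variable {c : Cell} {e : Env} {v : Vals} {S T τ x k : ℝ} {p : ℕ} {y t r lam : ℝ}

theorem has_lin (l : Lin) : l.af.Has S T ((l.c.v + l.s.v * S + l.t.v * T) / Mid.U) := by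
  simp [AF.Has, Lin.af, div_mul_cancel₀ _ Mid.U_ne]

/-- The upper end of `y θ` in the tail. -/
theorem tail_z {z : ℕ} (hS : |S| ≤ 1) (hT : |T| ≤ 1) (hv : ValsHas c v S T τ x)
    (hXy : x ^ 2 * τ = y ^ 2) (hy : y ∈ Ioo (0 : ℝ) 1) (ht : t ∈ Ioo (0 : ℝ) 1)
    (h : (Nat.ble 4194304 z || np (v.Xt.sub ((cst z).mul (cst z))) ||
      np (v.S.sub (cst (Nat.mul 2 z)))) = true) : y * (t - y) ≤ rn z := by
  have h1 := mul_le_mul_of_nonneg_left (show t - y ≤ 1 - y by linarith [ht.2]) hy.1.le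
  refine h1.trans ?_
  rw [Bool.or_eq_true, Bool.or_eq_true] at h
  rcases h with (h | h) | h
  · have := Mid.rn_le (Nat.le_of_ble_eq_true h)
    have e : rn 4194304 = 1 / 4 := by norm_num [rn]
    nlinarith [sq_nonneg (y - 1 / 2)]
  · have h' := np_le hS hT h (hv.Xt.sub ((has_cst z).mul (has_cst z) hS hT))
    have : y ≤ rn z := (pow_le_pow_iff_left₀ hy.1.le (Mid.rn_nonneg z) two_ne_zero).1 (by
      rw [pow_two (rn z)]; linarith)
    nlinarith [hy.1, hy.2]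
  · have h' := np_le hS hT h (hv.Sv.sub (has_cst _))
    rw [hXy, rn, Nat.mul_eq, Nat.cast_mul] at h'
    have : 2 * (y * (1 - y)) ≤ 1 - y ^ 2 := by nlinarith [hy.1, hy.2]
    rw [rn]
    push_cast at h'
    linarith

theorem qc_ratio (B : InBox c e v S T τ x k p y t r lam) : (1 - τ) * (1 / (1 - 2 * τ)) = ((p : ℝ) + 1) / p := by
  rw [B.hτ, (tau_facts p (y := y)).1, (tau_facts p (y := y)).2.1]; field_simp

/-- The band side. -/
theorem plusBand_sound (B : InBox c e v S T τ x k p y t r lam) (hyt : y ≤ t)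
    (hfwd : mass p semi t ≤ lam ^ p * mass p semi y) {cap : CapK} {hbk : HbK} {psiL kapL : Lin} {nc nd : Sg}
    {n0 n1 : Node} {whole : Bool} {u : ℝ} (hu : u ∈ Icc (0 : ℝ) 1)
    (hwh : whole = true → u = (1 + T) / 2)
    (h : plusOK c e v n0 n1 whole (.band cap hbk psiL kapL nc nd) = true) (c2 : ℝ) :
    total p (c.co τ) (c.R.val τ) (c.R.der τ) (c.Vp.val τ) (c.Vp.der τ) c2 lam y t r ≤
      semi y ^ (p + 1) * (majZero p ((c.co τ).G / ((p : ℝ) + 1)) ((c.co τ).D / ((p : ℝ) + 1)) c2 y +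
        k * tau p ^ 3 * segPi n0 n1 ((1 + S) / 2) u (k / rn c.K)) := by
  have hS := B.hS
  have hT := B.hT
  have he := B.env
  have hv := B.vals
  have hp1 : 1 ≤ p := by linarith [B.hp]
  have hk := B.hk
  have hK0 : 0 < rn c.K := hk.trans_le B.hkK
  have hτ0 := B.τ0
  have hot : 0 < 1 - τ := he.h1
  have hSx := hv.hS
  have hXy : x ^ 2 * τ = y ^ 2 := by rw [B.hx, B.hτ, (tau_facts p (y := y)).2.2.2]
  simp only [plusOK, AF.force_eq] at h
  have hps := has_lin (S := S) (T := T) psiL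
  set psv := (psiL.c.v + psiL.s.v * S + psiL.t.v * T) / Mid.U
  obtain ⟨hb, hbv, hhb, hH, h⟩ := withHb_sound hS hT he hv B.hτ B.hx B.hx0 B.pt.hy h
  rw [Bool.and_eq_true] at h
  set ψ := (t - y) / (k * tau p * y) with hψd
  have hkτy : 0 < k * tau p * y := mul_pos (mul_pos hk (tau_pos p)) B.pt.hy.1
  have hθ : t - y = k * tau p * y * ψ := by rw [hψd, mul_div_cancel₀ _ hkτy.ne']
  have hψ0 : 0 ≤ ψ := div_nonneg (by linarith) hkτy.le
  obtain ⟨hps0, hψ1⟩ :=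
    bandOK_sound hS hT he hv B.hτ B.hx B.pt hp1 hk B.hkK B.hK hθ hfwd hps hhb hH h.1
  obtain ⟨Wf, mX, mW, W, c0, hWf, -, -, -, hW1, hwW, h⟩ :=
    withCap_sound hS hT he hv B.hτ B.hx B.hx0 B.pt hp1 hk.le B.hkK B.hK h.2
  simp only [withPlus, AF.force_eq] at h
  obtain ⟨-, iW, hiW, h⟩ := withInv_sound hS hT h hWf
  obtain ⟨rho, hrho, h⟩ := withRho_sound hS hT hWf h
  obtain ⟨hkap0, ik, hik, h⟩ := withInv_sound hS hT h (has_lin kapL)
  set κ := (kapL.c.v + kapL.s.v * S + kapL.t.v * T) / Mid.U with hκd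
  simp only [Bool.and_eq_true] at h
  obtain ⟨⟨⟨⟨⟨hkp, hR⟩, hMK⟩, hc0⟩, hc1⟩, ⟨he0, heK⟩⟩ := h
  have hz : y * (t - y) ∈ Icc 0 (rn c.K * τ ^ 2 * (x ^ 2 * psv)) := by
    have e1 : y * (t - y) = k * τ ^ 2 * (x ^ 2 * ψ) := by
      rw [hθ, ← B.hτ]; linear_combination -(k * τ * ψ) * hXy
    refine ⟨by rw [e1]; positivity, ?_⟩
    rw [e1]
    exact mul_le_mul (mul_le_mul_of_nonneg_right B.hkK (sq_nonneg τ))
      (mul_le_mul_of_nonneg_left hψ1 (sq_nonneg x)) (by positivity) (by positivity)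
  have hzh := he.Kt2.mul (hv.X.mul hps hS hT) hS hT
  have hkwf := has_cast (hv.kw0.add (he.cth.mul hzh hS hT))
    (v := (c.co τ).kw τ (x ^ 2) (rn c.K * τ ^ 2 * (x ^ 2 * psv))) (by simp only [Co.kw]; ring)
  set ν := nuVal nc nd S with hνd
  have hnu : (nuAF nc nd).Has S T ν := has_nu _ _
  set Kn := rn c.K * rn (Nat.sub (Nat.add nd.abs' nc.negPart) nc.posPart) with hKnd
  have hMb := hv.R.add ((has_cst (S := S) (T := T) c.K).mul
    (has_cst (Nat.sub (Nat.add nd.abs' nc.negPart) nc.posPart)) hS hT)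
  have hMKf := hv.R.sub ((has_cst c.K).mul hnu hS hT)
  have htM := he.t.mul hMb hS hT
  obtain ⟨hM, hMbb⟩ := mult_bound nc nd hS hk.le B.hkK (nn_le hS hT hR hv.R) (nn_le hS hT hMK hMKf)
  have hkp0 := nn_le hS hT hkp hv.kp0
  obtain ⟨kw, hkw, hkw0, hκW, hκl⟩ :=
    kw_sel (τ := τ) (X := x ^ 2) (Co' := c.co τ)
      (P := fun kw => 0 ≤ kw ∧
        κ * W ≤ numUp p ((c.co τ).kp τ (x ^ 2) 0) kw W - τ * (c.R.val τ (x ^ 2) + Kn) * rhoW W + 0 ∧
        κ ≤ numLow p ((c.co τ).kp τ (x ^ 2) 0) kw - 0) hz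
      (kapOK_sound hS hT he B.hτ hp1 (has_lin kapL) hv.kp0 hv.kw0 (by linarith) hiW hrho htM has_zero
        has_zero hc0)
      (kapOK_sound hS hT he B.hτ hp1 (has_lin kapL) hv.kp0 hkwf (by linarith) hiW hrho htM has_zero
        has_zero hc1)
  have hqf := has_one.sub ((hWf.sub has_one).mul ((has_one.sub he.t).mul he.i2 hS hT) hS hT)
  obtain ⟨hq0, hq1⟩ := qc_facts hS hT hqf (sub_le_self _ (mul_nonneg (by linarith)
    (mul_nonneg hot.le (one_div_nonneg.2 he.h2.le))))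
  set qc := rn (one.sub ((Wf.sub one).mul ((one.sub e.t).mul e.i2))).low.posPart with hqcd
  have hridge := ridge_ahead B.pt hp1 hk hθ hψ0 hwW hW1
  rw [← B.hx] at hridge
  simp only [← B.hτ] at hridge
  set al := (1 - 2 * τ + 2 * τ * (W - 1)) / (1 - x ^ 2 * τ) with hald
  set be := x ^ 2 * τ / (1 - x ^ 2 * τ) * ((1 - 2 * τ + 2 * τ * (W - 1)) / 2) with hbed
  have hl2 : 0 ≤ 1 - 2 * τ + 2 * τ * (W - 1) := by
    have := mul_nonneg hτ0.le (show 0 ≤ W - 1 by linarith)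
    linarith [he.h2]
  have hbe0 : 0 ≤ be := by positivity
  have hρ := rhoW_nonneg hW1
  have hB0 : 0 ≤ ridgeB p (x ^ 2 * al) be k ψ := by
    have : 0 ≤ lamC p := by unfold lamC; positivity
    unfold ridgeB; positivity
  have hside := side_le (R := c.R.val τ) (R' := c.R.der τ) (v := c.Vp.val τ) (v' := c.Vp.der τ)
    (c2 := c2) (W := W) (μ := 0) (cl := 0) (ν := ν) (κ := κ) (kw := kw)
    (kp := (c.co τ).kp τ (x ^ 2) 0) (qc := qc) (a := x ^ 2 * al) (be := be)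
    B.hok B.pt hk hθ
    (by
      have := kp_mono (p := p) (X := x ^ 2) B.hb B.hok.hD.1 (by rw [← B.hτ]; exact hot.le) hz.1
      rw [← B.hτ] at this
      rw [← B.hτ, ← B.hx]; exact this)
    hkp0 (by rw [← B.hτ, ← B.hx]; exact hkw) hkw0 hkap0 (by rw [← B.hx]; exact hM) le_rfl (Or.inl rfl)
    le_rfl (Or.inl rfl)
    (fun _ => by
      refine ⟨hwW, ?_, ?_, ?_⟩ <;> (try simp only [← B.hτ]) <;> (try simp only [← B.hx])
      · exact hridge
      · have := mul_le_mul_of_nonneg_right (mul_le_mul_of_nonneg_left hMbb hτ0.le) hρ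
        simp only [mul_zero, zero_div, add_zero, zero_mul] at hκW ⊢
        linarith
      · refine hq0.trans (le_of_eq ?_)
        rw [← qc_ratio B]; congr 1; ring)
    (fun _ => ⟨hq1, Or.inr ⟨hB0, by linarith⟩⟩)
  refine hside.trans (mul_le_mul_of_nonneg_left (add_le_add le_rfl (mul_le_mul_of_nonneg_left ?_
    (mul_nonneg hk.le (pow_nonneg (tau_pos p).le 3)))) (pow_nonneg (Real.sqrt_nonneg _) _))
  simp only [ridgeB, lamC_eq, coefL, ← B.hτ, ← B.hx]
  set L := (c.co τ).L τ (x ^ 2) (c.R.val τ (x ^ 2)) (c.R.der τ (x ^ 2))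
  set C := (c.co τ).C τ (x ^ 2) (c.Vp.val τ (x ^ 2))
  set base := be * (c.R.val τ (x ^ 2) + Kn) +
    (c.co τ).Q τ (x ^ 2) (c.Vp.val τ (x ^ 2)) (c.Vp.der τ (x ^ 2)) qc with hbased
  have hl2f := has_ratio hS hT (he.t.mul (hWf.sub has_one) hS hT) 2 1 one_pos
  have hbef := has_cast (((has_one.sub (has_ratio hS hT he.t 2 1 one_pos)).add hl2f).mul
    (has_ratio hS hT (hv.Xt.mul hv.iS hS hT) 1 2 two_pos) hS hT) (v := be)
    (by rw [hbed]; push_cast; ring)
  have half := has_cast (hv.a0.add (hl2f.mul hv.iS hS hT)) (v := al) (by rw [hald]; push_cast; ring)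
  have hbasef := has_cast (((hbef.mul hMb hS hT).add hv.Qp).sub ((he.bgt.mul (has_cst
    (one.sub ((Wf.sub one).mul ((one.sub e.t).mul e.i2))).low.posPart) hS hT).mul hv.X hS hT))
    (v := base) (by rw [hbased, hqcd, hKnd]; simp only [Co.Q]; ring)
  set s := k / rn c.K with hsd
  have hks : k = s * rn c.K := by rw [hsd, div_mul_cancel₀ _ hK0.ne']
  have hs0 : 0 ≤ s := div_nonneg hk.le hK0.le
  have hs1 : s ≤ 1 := (div_le_one hK0).2 B.hkK
  have hsplit := bracket_split (R := c.R.val τ (x ^ 2)) (ν := ν) (L := L) (al := al)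
    (eL := (1 - 2 * τ) * (1 / (1 - τ)) * (1 / (1 - τ))) (base := base) (C := C) (ik := κ⁻¹) (X := x ^ 2)
    (ψ := ψ) hks
  have hEnds : Ends ⟨v.R, v.R.sub ((cst c.K).mul (nuAF nc nd)),
      v.R.add ((cst c.K).mul (cst (Nat.sub (Nat.add nd.abs' nc.negPart) nc.posPart))), ik, _, _⟩
      S T _ _ al base κ⁻¹ := ⟨hv.R, hMKf, hik, half, hbasef⟩
  have hbtw := btw_pos hψ0 hψ1
  have p0 := end0_sound hS hT he hv hEnds (hv.X.mul hps hS hT) hu hwh (z := x ^ 2 * ψ)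
    (by
      obtain ⟨w, hw, hwe⟩ := hbtw
      exact ⟨w, hw, by rw [hwe]; ring⟩) he0
  obtain ⟨a, b1, b2, hk', ha, hb1, hb2⟩ := withEndK_sound hS hT he hv hEnds hv.Cp hnu heK
  have pK := chordOK_sound hS hT ha hb1 hb2 hps hu hwh hbtw hk'
  have hbb : k * be * (c.R.val τ (x ^ 2) - k * ν) * ψ ^ 2 ≤
      k * be * (c.R.val τ (x ^ 2) + Kn) * ψ ^ 2 :=
    mul_le_mul_of_nonneg_right (mul_le_mul_of_nonneg_left hMbb (mul_nonneg hk.le hbe0)) (sq_nonneg ψ)
  have q0 := mul_le_mul_of_nonneg_left p0 (sub_nonneg.2 hs1)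
  have qK := mul_le_mul_of_nonneg_left pK hs0
  rw [show (ν + (C - 0) * ψ) ^ 2 / (4 * κ) = (ν + C * ψ) ^ 2 * κ⁻¹ / 4 by ring]
  rw [hbased] at hsplit qK
  simp only [segPi]
  linarith

theorem withMu_sound {mu : ℕ} {W tmu : AF} {Wv tmv : ℝ} {kont : AF → Bool} (hS : |S| ≤ 1)
    (hT : |T| ≤ 1) (hW : W.Has S T Wv) (htm : tmu.Has S T tmv) (hz : mu = 0 → tmv = 0)
    (h : withMu mu W tmu kont = true) :
    ∃ a1 : AF, a1.Has S T (tmv / (Wv - 1) * Wv) ∧ kont a1 = true := by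
  rw [withMu] at h
  cases hm : Nat.beq mu 0 with
  | true =>
    rw [hm, cond_true] at h
    rw [hz (Nat.eq_of_beq_eq_true hm)]
    exact ⟨_, has_cast has_zero (by simp), h⟩
  | false =>
    rw [hm, cond_false] at h
    obtain ⟨-, i, hi, h⟩ := withInv_sound hS hT h (hW.sub has_one)
    simp only [AF.force_eq] at h
    exact ⟨_, has_cast ((htm.mul hi hS hT).mul hW hS hT) (by rw [div_eq_mul_inv]), h⟩

/-- The tail side. -/
theorem plusTail_sound (B : InBox c e v S T τ x k p y t r lam) (hyt : y ≤ t) {cap : CapK} {mu z : ℕ}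
    {kapL clL : Lin} {n0 n1 : Node} {whole : Bool} {u : ℝ} (hu : u ∈ Icc (0 : ℝ) 1)
    (hwh : whole = true → u = (1 + T) / 2)
    (h : plusOK c e v n0 n1 whole (.tail cap mu z kapL clL) = true) (c2 : ℝ) :
    total p (c.co τ) (c.R.val τ) (c.R.der τ) (c.Vp.val τ) (c.Vp.der τ) c2 lam y t r ≤
      semi y ^ (p + 1) * (majZero p ((c.co τ).G / ((p : ℝ) + 1)) ((c.co τ).D / ((p : ℝ) + 1)) c2 y +
        k * tau p ^ 3 * segPi n0 n1 ((1 + S) / 2) u (k / rn c.K)) := by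
  have hS := B.hS
  have hT := B.hT
  have he := B.env
  have hv := B.vals
  have hp1 : 1 ≤ p := by linarith [B.hp]
  have hk := B.hk
  have hK0 : 0 < rn c.K := hk.trans_le B.hkK
  have hτ0 := B.τ0
  have hot : 0 < 1 - τ := he.h1
  have hSx := hv.hS
  have hXy : x ^ 2 * τ = y ^ 2 := by rw [B.hx, B.hτ, (tau_facts p (y := y)).2.2.2]
  rw [plusOK] at h
  obtain ⟨Wf, mX, mW, W, c0, hWf, hc00, hmX, hmW, hW1, hwW, h⟩ :=
    withCap_sound hS hT he hv B.hτ B.hx B.hx0 B.pt hp1 hk.le B.hkK B.hK h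
  simp only [tailOK, AF.force_eq] at h
  obtain ⟨-, iW, hiW, h⟩ := withInv_sound hS hT h hWf
  obtain ⟨rho, hrho, h⟩ := withRho_sound hS hT hWf h
  rw [Bool.and_eq_true] at h
  obtain ⟨hzc, h⟩ := h
  have htmu := he.t.mul (has_cst mu) hS hT
  obtain ⟨a1f, ha1, h⟩ :=
    withMu_sound hS hT hWf htmu (fun h0 => by simp [h0, rn]) h
  obtain ⟨hkap0, ik, hik, h⟩ := withInv_sound hS hT h (has_lin kapL)
  set κ := (kapL.c.v + kapL.s.v * S + kapL.t.v * T) / Mid.U with hκd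
  have hclf := has_lin (S := S) (T := T) clL
  set cl := (clL.c.v + clL.s.v * S + clL.t.v * T) / Mid.U with hcld
  simp only [Bool.and_eq_true] at h
  obtain ⟨⟨⟨⟨⟨hcl, hkp⟩, hR⟩, hc0⟩, hc1⟩, ⟨⟨hlin, hsq⟩, hb0⟩, hbK⟩ := h
  have hcl0 := nn_le hS hT hcl hclf
  have hR0 := nn_le hS hT hR hv.R
  have hkp0 := nn_le hS hT hkp hv.kp0
  have hμ := Mid.rn_nonneg mu
  set ψ := (t - y) / (k * tau p * y) with hψd
  have hkτy : 0 < k * tau p * y := mul_pos (mul_pos hk (tau_pos p)) B.pt.hy.1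
  have hθ : t - y = k * tau p * y * ψ := by rw [hψd, mul_div_cancel₀ _ hkτy.ne']
  have hψ0 : 0 ≤ ψ := div_nonneg (by linarith) hkτy.le
  have hz : y * (t - y) ∈ Icc 0 (rn z) :=
    ⟨mul_nonneg B.pt.hy.1.le (by linarith), tail_z hS hT hv hXy B.pt.hy B.pt.ht hzc⟩
  have hkwf := has_cast (hv.kw0.add (he.cth.mul (has_cst z) hS hT))
    (v := (c.co τ).kw τ (x ^ 2) (rn z)) (by simp only [Co.kw]; ring)
  have hMf := hv.R.add (has_cst mu)
  have htM := he.t.mul hMf hS hT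
  obtain ⟨kw, hkw, hkw0, hκW, hκl⟩ :=
    kw_sel (τ := τ) (X := x ^ 2) (Co' := c.co τ)
      (P := fun kw => 0 ≤ kw ∧
        κ * W ≤ numUp p ((c.co τ).kp τ (x ^ 2) 0) kw W - τ * (c.R.val τ (x ^ 2) + rn mu) * rhoW W +
          τ * rn mu / (W - 1) * W ∧
        κ ≤ numLow p ((c.co τ).kp τ (x ^ 2) 0) kw - 0) hz
      (kapOK_sound hS hT he B.hτ hp1 (has_lin kapL) hv.kp0 hv.kw0 (by linarith) hiW hrho htM has_zero
        ha1 hc0)
      (kapOK_sound hS hT he B.hτ hp1 (has_lin kapL) hv.kp0 hkwf (by linarith) hiW hrho htM has_zero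
        ha1 hc1)
  have hqf := has_one.sub ((hWf.sub has_one).mul ((has_one.sub he.t).mul he.i2 hS hT) hS hT)
  obtain ⟨hq0, hq1⟩ := qc_facts hS hT hqf (sub_le_self _ (mul_nonneg (by linarith)
    (mul_nonneg hot.le (one_div_nonneg.2 he.h2.le))))
  set qc := rn (one.sub ((Wf.sub one).mul ((one.sub e.t).mul e.i2))).low.posPart with hqcd
  have hridge := ridge_ahead B.pt hp1 hk hθ hψ0 hwW hW1
  rw [← B.hx] at hridge
  simp only [← B.hτ] at hridge
  set al := (1 - 2 * τ + 2 * τ * (W - 1)) / (1 - x ^ 2 * τ) with hald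
  set be := x ^ 2 * τ / (1 - x ^ 2 * τ) * ((1 - 2 * τ + 2 * τ * (W - 1)) / 2) with hbed
  have hl2 : 0 ≤ 1 - 2 * τ + 2 * τ * (W - 1) := by
    have := mul_nonneg hτ0.le (show 0 ≤ W - 1 by linarith)
    linarith [he.h2]
  have hbe0 : 0 ≤ be := by positivity
  have hB0 : 0 ≤ ridgeB p (x ^ 2 * al) be k ψ := by
    have : 0 ≤ lamC p := by unfold lamC; positivity
    unfold ridgeB; positivity
  have hside := side_le (R := c.R.val τ) (R' := c.R.der τ) (v := c.Vp.val τ) (v' := c.Vp.der τ)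
    (c2 := c2) (W := W) (μ := rn mu) (cl := cl) (ν := 0) (κ := κ) (kw := kw)
    (kp := (c.co τ).kp τ (x ^ 2) 0) (qc := qc) (a := x ^ 2 * al) (be := be)
    B.hok B.pt hk hθ
    (by
      have := kp_mono (p := p) (X := x ^ 2) B.hb B.hok.hD.1 (by rw [← B.hτ]; exact hot.le) hz.1
      rw [← B.hτ] at this
      rw [← B.hτ, ← B.hx]; exact this)
    hkp0 (by rw [← B.hτ, ← B.hx]; exact hkw) hkw0 hkap0
    (by rw [← B.hx, mul_zero, sub_zero]; exact hR0) hμ (Or.inr hB0)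
    hcl0 (Or.inr ⟨hψ0, hW1⟩)
    (fun _ => by
      refine ⟨hwW, ?_, ?_, ?_⟩ <;> (try simp only [← B.hτ]) <;> (try simp only [← B.hx])
      · exact hridge
      · simp only [mul_zero, sub_zero] at hκW ⊢
        exact hκW
      · refine hq0.trans (le_of_eq ?_)
        rw [← qc_ratio B]; congr 1; ring)
    (fun _ => ⟨hq1, Or.inr ⟨hB0, by linarith⟩⟩)
  refine hside.trans (mul_le_mul_of_nonneg_left (add_le_add le_rfl (mul_le_mul_of_nonneg_left ?_
    (mul_nonneg hk.le (pow_nonneg (tau_pos p).le 3)))) (pow_nonneg (Real.sqrt_nonneg _) _))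
  simp only [ridgeB, lamC_eq, coefL, ← B.hτ, ← B.hx]
  set L := (c.co τ).L τ (x ^ 2) (c.R.val τ (x ^ 2)) (c.R.der τ (x ^ 2))
  set C := (c.co τ).C τ (x ^ 2) (c.Vp.val τ (x ^ 2))
  set M := c.R.val τ (x ^ 2) + rn mu with hMd
  set base := be * M + (c.co τ).Q τ (x ^ 2) (c.Vp.val τ (x ^ 2)) (c.Vp.der τ (x ^ 2)) qc with hbased
  have hl2f := has_ratio hS hT (he.t.mul (hWf.sub has_one) hS hT) 2 1 one_pos
  have hbef := has_cast (((has_one.sub (has_ratio hS hT he.t 2 1 one_pos)).add hl2f).mul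
    (has_ratio hS hT (hv.Xt.mul hv.iS hS hT) 1 2 two_pos) hS hT) (v := be)
    (by rw [hbed]; push_cast; ring)
  have half := has_cast (hv.a0.add (hl2f.mul hv.iS hS hT)) (v := al) (by rw [hald]; push_cast; ring)
  have hbasef := has_cast (((hbef.mul hMf hS hT).add hv.Qp).sub ((he.bgt.mul (has_cst
    (one.sub ((Wf.sub one).mul ((one.sub e.t).mul e.i2))).low.posPart) hS hT).mul hv.X hS hT))
    (v := base) (by rw [hbased, hqcd, hMd]; simp only [Co.Q]; ring)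
  -- the coefficient of `ψ`
  have hlf := hv.L.add (half.mul hMf hS hT)
  have h1' : x ^ 2 * (L + al * M) + cl * ((W - 1) / τ) ≤ 0 := by
    rw [Bool.or_eq_true, Bool.and_eq_true] at hlin
    rcases hlin with ⟨hz', hn⟩ | hlin
    · rw [Lin.isZero, Nat.beq_eq, Nat.add_eq, Nat.add_eq] at hz'
      have z1 := par_abs_zero (show clL.c.abs' = 0 by omega)
      have z2 := par_abs_zero (show clL.s.abs' = 0 by omega)
      have z3 := par_abs_zero (show clL.t.abs' = 0 by omega)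
      have e0 : cl = 0 := by rw [hcld, z1, z2, z3]; simp
      rw [e0, zero_mul, add_zero]
      exact mul_nonpos_of_nonneg_of_nonpos (sq_nonneg x) (np_le hS hT hn hlf)
    have h1 := np_le hS hT hlin ((hmX.mul hlf hS hT).add (hclf.mul hmW hS hT))
    refine nonpos_of_mul_nonpos_right ?_ hc00
    rw [mul_add]; linarith
  -- the coefficient of `ψ ^ 2`
  have hdC := hv.Cp.sub hclf
  have h2 := np_le hS hT hsq (hbasef.add (has_ratio hS hT ((hdC.mul hdC hS hT).mul hik hS hT) 1 4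
    (by norm_num)))
  push_cast at h2
  have t1 := mul_nonpos_of_nonpos_of_nonneg h1' hψ0
  have t2 := mul_nonpos_of_nonpos_of_nonneg h2 (mul_nonneg hk.le (sq_nonneg ψ))
  -- the constant
  have hMe := hMf.mul he.eL hS hT
  have p0 := below_sound hS hT hMe has_zero hu hwh hb0
  have pK := below_sound hS hT hMe has_zero hu hwh hbK
  rw [add_zero] at p0 pK
  have hs0 : 0 ≤ k / rn c.K := div_nonneg hk.le hK0.le
  have hs1 : k / rn c.K ≤ 1 := (div_le_one hK0).2 B.hkK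
  have q0 := mul_le_mul_of_nonneg_left p0 (sub_nonneg.2 hs1)
  have qK := mul_le_mul_of_nonneg_left pK hs0
  rw [show (0 + (C - cl) * ψ) ^ 2 / (4 * κ) = ((C - cl) * (C - cl) * κ⁻¹ / 4) * ψ ^ 2 by ring]
  simp only [segPi, hbased] at t2 ⊢
  rw [hMd] at *
  linarith

/-- The right side. -/
theorem plusOK_sound (B : InBox c e v S T τ x k p y t r lam) (hyt : y ≤ t)
    (hfwd : mass p semi t ≤ lam ^ p * mass p semi y) {n0 n1 : Node} {whole : Bool} {pl : Plus} {u : ℝ}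
    (hu : u ∈ Icc (0 : ℝ) 1) (hwh : whole = true → u = (1 + T) / 2)
    (h : plusOK c e v n0 n1 whole pl = true) (c2 : ℝ) :
    total p (c.co τ) (c.R.val τ) (c.R.der τ) (c.Vp.val τ) (c.Vp.der τ) c2 lam y t r ≤
      semi y ^ (p + 1) * (majZero p ((c.co τ).G / ((p : ℝ) + 1)) ((c.co τ).D / ((p : ℝ) + 1)) c2 y +
        k * tau p ^ 3 * segPi n0 n1 ((1 + S) / 2) u (k / rn c.K)) := by
  cases pl with
  | band cap hb psi kap nc nd => exact plusBand_sound B hyt hfwd hu hwh h c2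
  | tail cap mu z kap cl => exact plusTail_sound B hyt hu hwh h c2

end Vale.Agent.P237.All.Transport.Small.Large
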