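import Vale.Agent.P237.All.Small.Large.SoundBudget
import Vale.Agent.P237.All.Small.Large.SoundPlus
import Vale.Agent.P237.All.Small.Large.SoundFarB
import Vale.Agent.P237.All.Small.Large.Chunk
import Vale.Agent.P237.All.Small.Large.Frame

/-!
P237, every dimension, excess `k ≤ .0134`: a slice that passes its tests gives a certificate at every
dimension in it.
-/

noncomputable section

open Real Set

namespace Vale.Agent.P237.All.Transport.Small.Large

open Mid (Sg AF Pt Spl XP rn)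

/-- Whether the multiplier is nonnegative on the slice. -/
def ellOK (c : Cell) (tc hh : ℕ) : Bool :=
  withEnv c tc hh fun e => nn (one.add ((gaf c.e1 e.t).mul e.Eh))

/-- The test beyond the last segment. -/
def farTest (c : Cell) (tc hh x1 zk kap : ℕ) : Bool :=
  farOK c tc hh x1 zk ||
    (Nat.ble (Nat.add tc hh) 4096 && Nat.ble (12 * 16777216) x1 && farBOK c kap)

/-- The place of a `τ` in a slice. -/
theorem tauOf_surj {tc hh : ℕ} {τ : ℝ} (h0 : 0 ≤ τ) (h1 : rn (Nat.sub tc hh) ≤ τ)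
    (h2 : τ ≤ rn (Nat.add tc hh)) : ∃ T : ℝ, |T| ≤ 1 ∧ τ = tauOf tc hh T := by
  simp only [rn, Nat.sub_eq, Nat.add_eq, Nat.cast_add] at h1 h2
  rw [div_le_iff₀ (by norm_num)] at h1
  rw [le_div_iff₀ (by norm_num)] at h2
  have h3 : (tc : ℝ) - hh ≤ τ * 16777216 := by
    rcases le_total hh tc with h | h
    · rw [Nat.cast_sub h] at h1; linarith
    · have := Nat.cast_le (α := ℝ).2 h
      nlinarith only [this, h0]
  rcases Nat.eq_zero_or_pos hh with h | h
  · subst h
    refine ⟨0, by norm_num, ?_⟩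
    simp only [tauOf, Nat.cast_zero, zero_mul, add_zero, sub_zero] at *
    rw [le_antisymm h3 h2 |>.symm.symm]; field_simp
  · have hh' : (0 : ℝ) < hh := Nat.cast_pos.2 h
    refine ⟨(τ * 16777216 - tc) / hh, ?_, ?_⟩
    · rw [abs_div, abs_of_pos hh', div_le_one hh', abs_le]
      constructor <;> linarith
    · rw [tauOf]; field_simp; ring

/-- Some part of a segment holds `τ`. -/
theorem parts_cover {c : Cell} {tc hh : ℕ} {n0 n1 : Node} {τ : ℝ} (hτ1 : τ ≤ rn (Nat.add tc hh)) :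
    ∀ {l : List Part} {lo : ℕ}, partsOK c tc hh n0 n1 l lo = true → rn lo ≤ τ → lo < Nat.add tc hh →
      ∃ q : Part, partOK c tc hh n0 n1 q = true ∧ rn (Nat.sub q.tc q.hh) ≤ τ ∧ τ ≤ rn (Nat.add q.tc q.hh)
  | [], lo, h, _, hlt => absurd (Nat.le_of_ble_eq_true h) (not_le.2 hlt)
  | q :: l, lo, h, hlo, _ => by
    simp only [partsOK, Bool.and_eq_true] at h
    obtain ⟨⟨h1, h2⟩, h3⟩ := h
    rcases le_or_gt τ (rn (Nat.add q.tc q.hh)) with hq | hq
    · exact ⟨q, h2, (Mid.rn_le (Nat.le_of_ble_eq_true h1)).trans hlo, hq⟩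
    · refine parts_cover hτ1 h3 hq.le ((Nat.cast_lt (α := ℝ)).1 ?_)
      exact (div_lt_div_iff_of_pos_right (show (0 : ℝ) < 16777216 by norm_num)).1 (hq.trans_le hτ1)

variable {c : Cell} {tc hh p : ℕ} {T τ x k y t r lam : ℝ}

/-- Both sides against a bound `B`, in units of `k τ ^ 3`. -/
def Sides (c : Cell) (p : ℕ) (k c2 lam y t r B : ℝ) : Prop :=
  (y ≤ t → total p (c.co (tau p)) (c.R.val (tau p)) (c.R.der (tau p)) (c.Vp.val (tau p))
      (c.Vp.der (tau p)) c2 lam y t r ≤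
    semi y ^ (p + 1) * majZero p ((c.co (tau p)).G / ((p : ℝ) + 1)) ((c.co (tau p)).D / ((p : ℝ) + 1)) c2 y +
      k * tau p ^ 3 * B) ∧
  (t ≤ y → total p (c.co (tau p)) (c.R.val (tau p)) (c.R.der (tau p)) (c.Vm.val (tau p))
      (c.Vm.der (tau p)) c2 lam y t r ≤
    semi y ^ (p + 1) * majZero p ((c.co (tau p)).G / ((p : ℝ) + 1)) ((c.co (tau p)).D / ((p : ℝ) + 1)) c2 y +
      k * tau p ^ 3 * B)

/-- What a slice assumes of a point. -/
structure SlicePt (c : Cell) (tc hh p : ℕ) (T x k y t r lam : ℝ) : Prop where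
  hhh : 0 < hh
  hle : hh ≤ tc
  hT : |T| ≤ 1
  hτ : tau p = tauOf tc hh T
  hp : 29 ≤ p
  hok : (c.co (tau p)).Ok p
  hb : 1 ≤ (c.co (tau p)).b
  hk : 0 < k
  hkK : k ≤ rn c.K
  hK : rn c.K ≤ 1
  hkl : exp (-(5 / 4 * √((p : ℝ) + 1))) / 5 ≤ k
  hzc : 0 < c.zk → exp (-rn c.zk) / 5 ≤ k
  hx : x ^ 2 = XP p y
  hx0 : 0 ≤ x
  pt : Pt p k y t r lam
  fwd : mass p semi t ≤ lam ^ p * mass p semi y

theorem SlicePt.tau_le (P : SlicePt c tc hh p T x k y t r lam) :
    rn (Nat.sub tc hh) ≤ tau p ∧ tau p ≤ rn (Nat.add tc hh) := by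
  rw [P.hτ, tauOf, Nat.sub_eq, Nat.add_eq, rn, rn, Nat.cast_sub P.hle, Nat.cast_add]
  obtain ⟨h1, h2⟩ := abs_le.1 P.hT
  have h3 := mul_le_mul_of_nonneg_left h1 (Nat.cast_nonneg (α := ℝ) hh)
  have h4 := mul_le_mul_of_nonneg_left h2 (Nat.cast_nonneg (α := ℝ) hh)
  constructor <;> refine div_le_div_of_nonneg_right ?_ (by norm_num) <;> linarith

/-- One segment. -/
theorem seg_sound (P : SlicePt c tc hh p T x k y t r lam) {n0 n1 : Node} {parts : List Part}
    (h : partsOK c tc hh n0 n1 parts (Nat.sub tc hh) = true) (hx : x ∈ Icc (rn n0.x) (rn n1.x)) (c2 : ℝ) :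
    Sides c p k c2 lam y t r (semi y ^ (p + 1) *
        ((1 - k / rn c.K) * (((rn n1.x - x) * n0.val false ((1 + T) / 2) +
            (x - rn n0.x) * n1.val false ((1 + T) / 2)) / (rn n1.x - rn n0.x)) +
          k / rn c.K * (((rn n1.x - x) * n0.val true ((1 + T) / 2) +
            (x - rn n0.x) * n1.val true ((1 + T) / 2)) / (rn n1.x - rn n0.x))) +
      rn c.dl / (1 + x ^ 2)) := by
  obtain ⟨hl, hu⟩ := P.tau_le
  have hk := P.hk
  obtain ⟨q, hq, hq0, hq1⟩ := parts_cover hu h hl (by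
    have := P.hhh; have := P.hle; simp only [Nat.sub_eq, Nat.add_eq]; omega)
  obtain ⟨T', hT', hτ'⟩ := tauOf_surj (tau_pos p).le hq0 hq1
  simp only [partOK] at hq
  -- the box, at any place in it
  have hq' := hq
  obtain ⟨e0, he0, h0⟩ := withEnv_sound (S := 0) (by simp) hT' hq'
  simp only [withVals, AF.force_eq, Bool.and_eq_true] at h0
  obtain ⟨⟨⟨⟨⟨hlt, hev⟩, -⟩, -⟩, -⟩, -⟩ := h0
  have hlt' := Nat.le_of_ble_eq_true hlt
  have hev' := Nat.eq_of_beq_eq_true hev
  obtain ⟨d, hd⟩ : ∃ d, n1.x = n0.x + 2 * d ∧ 0 < d := ⟨(n1.x - n0.x) / 2, by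
    have : (n0.x + n1.x) % 2 = 0 := hev'
    omega⟩
  have hd0 : (0 : ℝ) < d := Nat.cast_pos.2 hd.2
  set S := (x * 16777216 - (n0.x + d : ℕ)) / d with hSd
  have hx' := hx
  simp only [rn, mem_Icc, div_le_iff₀ (show (0 : ℝ) < 16777216 by norm_num),
    le_div_iff₀ (show (0 : ℝ) < 16777216 by norm_num)] at hx'
  rw [hd.1] at hx'
  push_cast at hx'
  have hS : |S| ≤ 1 := by
    rw [hSd, abs_div, abs_of_pos hd0, div_le_one hd0, abs_le]
    push_cast
    constructor <;> linarith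
  have hxS : x = xOf n0.x n1.x S := by
    have a1 : Nat.div (Nat.add n0.x n1.x) 2 = n0.x + d := by
      simp only [Mid.nat_div_def, Nat.add_eq]; omega
    have a2 : Nat.div (Nat.sub n1.x n0.x) 2 = d := by
      simp only [Mid.nat_div_def, Nat.sub_eq]; omega
    rw [xOf, a1, a2, hSd]; field_simp; ring
  obtain ⟨e, he, hq⟩ := withEnv_sound (S := S) hS hT' hq
  rw [← hτ'] at he
  obtain ⟨v, hv, hq⟩ := withVals_sound hS hT' he hxS hx hq
  have B : InBox c e v S T' (tau p) x k p y t r lam :=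
    ⟨hS, hT', he, hv, rfl, P.hx, P.hx0, P.hp, P.hok, P.hb, hk, P.hkK, P.hK, P.pt⟩
  set u := (1 + T) / 2 with hud
  have huI : u ∈ Icc (0 : ℝ) 1 := unit_mem P.hT
  have hwh : (Nat.beq q.tc tc && Nat.beq q.hh hh) = true → u = (1 + T') / 2 := fun hw => by
    simp only [Bool.and_eq_true, Nat.beq_eq] at hw
    have e1 := hτ'
    rw [hw.1, hw.2, P.hτ, tauOf, tauOf, div_left_inj' (by norm_num), add_right_inj,
      mul_right_inj' (Nat.cast_pos.2 P.hhh).ne'] at e1
    rw [hud, e1]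
  have hK0 : 0 < rn c.K := hk.trans_le P.hkK
  have hs0 : 0 ≤ k / rn c.K := div_nonneg hk.le hK0.le
  have hs1 : k / rn c.K ≤ 1 := (div_le_one hK0).2 P.hkK
  have ha : ∀ kk, ((rn n1.x - x) * n0.val kk u + (x - rn n0.x) * n1.val kk u) / (rn n1.x - rn n0.x) =
      segVal n0 n1 kk ((1 + S) / 2) u := fun kk => by
    rw [segVal, hSd, rn, rn, hd.1]; push_cast; field_simp; ring
  have hpi : (1 - k / rn c.K) * segVal n0 n1 false ((1 + S) / 2) u +
      k / rn c.K * segVal n0 n1 true ((1 + S) / 2) u = segPi n0 n1 ((1 + S) / 2) u (k / rn c.K) := rfl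
  rw [ha, ha, hpi]
  have hdl : 0 ≤ rn c.dl / (1 + x ^ 2) := div_nonneg (Mid.rn_nonneg _) (by positivity)
  have hsg : 0 ≤ semi y ^ (p + 1) * segPi n0 n1 ((1 + S) / 2) u (k / rn c.K) := by
    refine mul_nonneg (pow_nonneg (Real.sqrt_nonneg _) _) ?_
    obtain ⟨w0, w1⟩ := unit_mem hS
    have := fun kk : Bool => n0.val_nonneg (kk := kk) huI
    have := fun kk : Bool => n1.val_nonneg (kk := kk) huI
    unfold segPi segVal
    have a0 : 0 ≤ 1 - (1 + S) / 2 := sub_nonneg.2 w1
    have b0 : 0 ≤ 1 - k / rn c.K := sub_nonneg.2 hs1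
    have := n0.val_nonneg (kk := false) huI
    have := n1.val_nonneg (kk := false) huI
    have := n0.val_nonneg (kk := true) huI
    have := n1.val_nonneg (kk := true) huI
    positivity
  have hτ3 : 0 ≤ k * tau p ^ 3 := mul_nonneg hk.le (pow_nonneg (tau_pos p).le 3)
  have w1 := mul_nonneg hτ3 hdl
  have w2 := mul_nonneg hτ3 hsg
  cases hb : q.body with
  | full mi pl =>
    simp only [hb, Bool.and_eq_true] at hq
    constructor
    · intro hyt
      have := plusOK_sound B hyt P.fwd huI hwh hq.2 c2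
      linarith
    · intro hty
      have := minusOK_sound B hty hx.1 huI hwh hq.1 c2
      linarith
  | crude cap zm iy zk =>
    simp only [hb] at hq
    obtain ⟨hm, hp⟩ := crudeOK_sound B hq0 P.hkl P.hzc hq c2
    constructor
    · intro hyt
      have := hp hyt
      linarith
    · intro hty
      have := hm hty
      linarith

/-- Every segment. -/
theorem segs_sound (P : SlicePt c tc hh p T x k y t r lam) (rest : List Node) (c2 : ℝ) :
    ∀ {segs : List Seg} {n : Node}, segsOK c tc hh n segs = true → rn n.x < x →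
      x ≤ rn (endOf n segs).x →
      Sides c p k c2 lam y t r (semi y ^ (p + 1) *
          chainK ((1 + T) / 2) (k / rn c.K) n (segs.map Seg.n ++ rest) x +
        rn c.dl / (1 + x ^ 2))
  | [], _, _, h0, h1 => absurd h1 (not_le.2 h0)
  | s :: l, n, h, h0, h1 => by
    simp only [segsOK, Bool.and_eq_true] at h
    obtain ⟨⟨-, hparts⟩, hl⟩ := h
    rcases le_or_gt x (rn s.n.x) with hc | hc
    · have := seg_sound P hparts ⟨h0.le, hc⟩ c2
      simpa only [chainK, List.map_cons, List.cons_append, chainP, if_pos hc] using this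
    · have e : ∀ kk, chainP kk ((1 + T) / 2) n ((s :: l).map Seg.n ++ rest) x =
          chainP kk ((1 + T) / 2) s.n (l.map Seg.n ++ rest) x := fun kk => by
        simp only [List.map_cons, List.cons_append, chainP, if_neg (not_le.2 hc)]
      simp only [chainK, e]
      exact segs_sound P rest c2 hl hc h1

/-- The conditions on the constants. -/
theorem slice_consts (hT : |T| ≤ 1) (hτ : tau p = tauOf tc hh T) (hp : 2 ≤ p)
    (h : sliceOK c tc hh = true) :
    (c.co (tau p)).Ok p ∧ 1 ≤ (c.co (tau p)).b := by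
  simp only [sliceOK, Bool.and_eq_true] at h
  obtain ⟨-, h⟩ := h
  obtain ⟨e, he, h⟩ := withEnv_sound (S := 0) (by simp) hT h
  rw [← hτ] at he
  simp only [envOK, Bool.and_eq_true] at h
  obtain ⟨⟨⟨hG, hD⟩, hb⟩, hK⟩ := h
  have hS : |(0 : ℝ)| ≤ 1 := by simp
  have hG0 := nn_le hS hT hG he.G
  have hDf : (gaf c.D e.t).Has 0 T (c.co (tau p)).D := gaf_has hS hT c.D he.t
  have hD0 := nn_le hS hT hD hDf
  have hb1 : 1 ≤ (c.co (tau p)).b := Mid.rn_U.ge.trans (Mid.rn_le (Nat.le_of_ble_eq_true hb))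
  have hbf : (cst c.b).Has 0 T (c.co (tau p)).b := has_cst _
  have hK0 := nn_le hS hT hK (((hbf.mul he.gc hS hT).mul (has_one.sub he.t) hS hT).sub
    ((he.G.add ((hbf.mul hbf hS hT).mul hDf hS hT)).mul
      (has_one.add (has_ratio hS hT he.t 2 1 one_pos)) hS hT))
  push_cast at hK0
  refine ⟨⟨hp, zero_le_one.trans hb1, ⟨hD0, ?_⟩, ?_⟩, hb1⟩
  · simp only [Co.G] at hG0; linarith
  · obtain ⟨e1, -, e3, -⟩ := tau_facts p (y := 0)
    rw [e1, show 2 / 1 * tau p = 2 * tau p by ring, e3] at hK0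
    refine le_of_mul_le_mul_right ?_ (show (0 : ℝ) < 1 / ((p : ℝ) + 2) by positivity)
    linear_combination hK0

/-- A slice that passes gives a certificate at each of its dimensions and each excess. -/
theorem hasCert_slice {n last : Node} {segs : List Seg} {x1 zk kap : ℕ} (hp : 29 ≤ p)
    (hτ0 : rn (Nat.sub tc hh) ≤ tau p) (hτ1 : tau p ≤ rn (Nat.add tc hh))
    (hs : sliceTest c tc hh n segs last = true) (hell : ellOK c tc hh = true)
    (hx1 : Nat.ble x1 (endOf n segs).x = true) (hfar : farTest c tc hh x1 zk kap = true)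
    (hkl : exp (-(5 / 4 * √((p : ℝ) + 1))) / 5 ≤ k)
    (hzc : 0 < c.zk → exp (-rn c.zk) / 5 ≤ k) (hkK : k ≤ rn c.K) :
    HasCert p (exp (k / ((p : ℝ) + 1)) * (2 * mass (p + 1) semi 1)) := by
  obtain ⟨T, hT, hτ⟩ := tauOf_surj (tau_pos p).le hτ0 hτ1
  simp only [sliceTest, Bool.and_eq_true] at hs
  obtain ⟨⟨hsl, hseg⟩, hbud⟩ := hs
  have hle : hh ≤ tc := by
    have := hbud
    simp only [budgetOK, withEnv, Bool.and_eq_true] at this
    exact Nat.le_of_ble_eq_true this.1
  obtain ⟨hok, hb⟩ := slice_consts hT hτ (by omega) hsl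
  have hsl' := hsl
  simp only [sliceOK, Bool.and_eq_true] at hsl'
  obtain ⟨⟨⟨hh0, hcK⟩, hhi⟩, -⟩ := hsl'
  have hk : 0 < k := lt_of_lt_of_le (by positivity) hkl
  have hK1 : rn c.K ≤ 1 := (Mid.rn_le (Nat.le_of_ble_eq_true hcK)).trans Mid.rn_U.le
  have hell0 : 0 ≤ 1 + (c.co (tau p)).e1 / ((p : ℝ) + 1) := by
    obtain ⟨e, he, h⟩ := withEnv_sound (S := 0) (by simp) hT hell
    rw [← hτ] at he
    have hS : |(0 : ℝ)| ≤ 1 := by simp
    have := nn_le hS hT h (has_one.add ((gaf_has hS hT c.e1 he.t).mul he.Eh hS hT))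
    refine this.trans (le_of_eq ?_)
    rw [eps_eq rfl, Mid.epsP]
    simp only [Cell.co]
    ring
  refine hasCert_frame hok hell0 (fun X => Spl.hasDerivAt c.R (tau p) X)
    (fun X => Spl.hasDerivAt c.Vp (tau p) X) (fun X => Spl.hasDerivAt c.Vm (tau p) X) hk
    (ka := k) (kb := k) (fun k' hk' => ?_) le_rfl le_rfl
  obtain rfl : k' = k := le_antisymm hk'.2 hk'.1
  set l := segs.map Seg.n ++ [last] with hl
  set u := (1 + T) / 2 with hud
  set s := k' / rn c.K with hsd
  have hK0 : 0 < rn c.K := hk.trans_le hkK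
  have hsI : s ∈ Icc (0 : ℝ) 1 := ⟨div_nonneg hk.le hK0.le, (div_le_one hK0).2 hkK⟩
  have hG : 0 ≤ (c.co (tau p)).G := by unfold Co.G; linarith [hok.hD.2]
  obtain ⟨e, he, -⟩ := withEnv_sound (S := -1) (by norm_num) hT (by rw [← budgetOK]; exact hbud)
  have hint := budgetOK_sound (s := s) hT hp hle hτ.symm (Nat.le_of_ble_eq_true hhi) hsI hbud he hG
  have hup : chainUp n l = true := by
    obtain ⟨e', -, h'⟩ := withEnv_sound (S := 0) (by simp) hT (by rw [← budgetOK]; exact hbud)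
    simp only [AF.force_eq, Mid.forceN_eq, Bool.and_eq_true] at h'
    exact h'.1.1.1.1.1.2
  have hn0 : rn n.x = 0 := by
    obtain ⟨e', -, h'⟩ := withEnv_sound (S := 0) (by simp) hT (by rw [← budgetOK]; exact hbud)
    simp only [AF.force_eq, Mid.forceN_eq, Bool.and_eq_true] at h'
    rw [Nat.eq_of_beq_eq_true h'.1.1.1.1.1.1]; simp [rn]
  refine ⟨piFun p (rn c.dl) u s n l, piFun_continuous hup, hint, ?_⟩
  intro c2 lam y t r hpt hfwd
  set x := √((p : ℝ) + 2) * y with hxd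
  have hx : x ^ 2 = XP p y := by rw [hxd, mul_pow, Real.sq_sqrt (by positivity)]; rfl
  have hx0 : 0 ≤ x := mul_nonneg (Real.sqrt_nonneg _) hpt.hy.1.le
  have P : SlicePt c tc hh p T x k' y t r lam :=
    ⟨Nat.le_of_ble_eq_true hh0, hle, hT, hτ, hp, hok, hb, hk, hkK, hK1, hkl, hzc, hx, hx0, hpt, hfwd⟩
  have key : Sides c p k' c2 lam y t r
      (semi y ^ (p + 1) * chainK u s n l x + rn c.dl / (1 + x ^ 2)) := by
    rcases le_or_gt x (rn (endOf n segs).x) with hin | hout
    · exact segs_sound P [last] c2 hseg (by rw [hn0]; exact mul_pos (Real.sqrt_pos.2 (by positivity)) hpt.hy.1) hin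
    · have hge : rn x1 ≤ x := (Mid.rn_le (Nat.le_of_ble_eq_true hx1)).trans hout.le
      have hC : 0 ≤ semi y ^ (p + 1) * chainK u s n l x := by
        refine mul_nonneg (pow_nonneg (Real.sqrt_nonneg _) _) ?_
        have := chainP_nonneg (kk := false) (unit_mem hT) hup x (hn0 ▸ hx0)
        have := chainP_nonneg (kk := true) (unit_mem hT) hup x (hn0 ▸ hx0)
        have := sub_nonneg.2 hsI.2
        have := hsI.1
        unfold chainK
        positivity
      have w := mul_nonneg (mul_nonneg hk.le (pow_nonneg (tau_pos p).le 3)) hC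
      rw [farTest, Bool.or_eq_true] at hfar
      rcases hfar with hf | hf
      · obtain ⟨hm, hpl⟩ := farOK_sound hT rfl hτ hle hp hok hb hk hkK hK1 hkl hzc hpt hx hge hf c2
        constructor
        · intro h; linarith [hpl h]
        · intro h; linarith [hm h]
      · simp only [Bool.and_eq_true] at hf
        obtain ⟨⟨h4, h12⟩, hf⟩ := hf
        have hτ4 : tau p ≤ 1 / 4096 :=
          hτ1.trans ((Mid.rn_le (Nat.le_of_ble_eq_true h4)).trans (by norm_num [rn]))
        have h12' : 12 ≤ x :=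
          le_trans (by norm_num [rn]) ((Mid.rn_le (Nat.le_of_ble_eq_true h12)).trans hge)
        obtain ⟨hm, hpl⟩ := farBOK_sound rfl hτ4 hp hok hb hk hkK hkl hpt hx h12' hf c2
        constructor
        · intro h; linarith [hpl h]
        · intro h; linarith [hm h]
  have e : piFun p (rn c.dl) u s n l y =
      semi y ^ (p + 1) * chainK u s n l x + rn c.dl / (1 + x ^ 2) := by
    rw [piFun, hx, ← hxd]; rfl
  rw [e]
  exact key

end Vale.Agent.P237.All.Transport.Small.Large
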