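import Vale.Agent.P237.All.Mid.Weight

/-!
P237, every dimension, excess `k ≤ .0134`: the test of a box of `x = √(p + 2) y` and of a slice of
`τ = 1 / (p + 2)`, written for evaluation by the kernel (`notes/P237h3/large`).  Everything is at the
scale `U`.  The bracket of the majorant is in units of `k τ ^ 3`, with `w - 1 = k τ σ` and
`t - y = k τ y ψ` (`Large/Coef`).
-/

noncomputable section

namespace Vale.Agent.P237.All.Transport.Small.Large

open Mid (Sg AF Par Spl Knot knClear)

/-- A natural number as a form. -/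
def cst (n : ℕ) : AF := AF.const (Sg.ofN n)

/-- One. -/
def one : AF := cst 16777216

/-- A parameter affine in `τ`. -/
def gaf (P : Par) (t : AF) : AF := (AF.const P.c).add ((AF.const P.t).mul t)

/-- Whether a form is nonnegative. -/
def nn (f : AF) : Bool := Sg.le ⟨0, 0⟩ f.low

/-- Whether a form is nonpositive. -/
def np (f : AF) : Bool := nn f.neg'

/-- Whether a form is positive. -/
def ps (f : AF) : Bool := Nat.blt 0 f.low.posPart

/-- Passes the inverse on, when it exists. -/
def withInv (f : AF) (k : AF → Bool) : Bool := ps f && f.inv.force k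

/-- An affine form given as data. -/
structure Lin where
  c : Sg
  s : Sg
  t : Sg

/-- Data as a form. -/
def Lin.af (l : Lin) : AF := ⟨l.c, l.s, l.t, 0⟩

/-- Whether data vanish. -/
def Lin.isZero (l : Lin) : Bool :=
  Nat.beq (Nat.add (Nat.add l.c.abs' l.s.abs') l.t.abs') 0

/-! ### A spline on a box, evaluated at the left end -/

/-- The knots below `X0`, exactly: sums of `d u ^ 2`, `d u`, `d`, `u = X0 - tau` in integers, added
to twelve running naturals and normalized at the end. -/
def knA {α : Type} (l : List Knot) (X0 : ℕ) (k : Par → Par → Par → α) :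
    ℕ → ℕ → ℕ → ℕ → ℕ → ℕ → ℕ → ℕ → ℕ → ℕ → ℕ → ℕ → α :=
  List.rec (motive := fun _ => ℕ → ℕ → ℕ → ℕ → ℕ → ℕ → ℕ → ℕ → ℕ → ℕ → ℕ → ℕ → α)
    (fun a b c d e f g h i j m n =>
      k ⟨Sg.nm a b, Sg.nm c d⟩ ⟨Sg.nm e f, Sg.nm g h⟩ ⟨Sg.nm i j, Sg.nm m n⟩)
    (fun K _ ih a b c d e f g h i j m n =>
      cond (Nat.ble K.tau X0)
        (Mid.forceN (Nat.sub X0 K.tau) fun u =>
          ih (Nat.add a (Nat.mul (Nat.mul u u) K.d.c.pos)) (Nat.add b (Nat.mul (Nat.mul u u) K.d.c.neg))
            (Nat.add c (Nat.mul (Nat.mul u u) K.d.t.pos)) (Nat.add d (Nat.mul (Nat.mul u u) K.d.t.neg))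
            (Nat.add e (Nat.mul u K.d.c.pos)) (Nat.add f (Nat.mul u K.d.c.neg))
            (Nat.add g (Nat.mul u K.d.t.pos)) (Nat.add h (Nat.mul u K.d.t.neg))
            (Nat.add i K.d.c.pos) (Nat.add j K.d.c.neg) (Nat.add m K.d.t.pos) (Nat.add n K.d.t.neg))
        (ih a b c d e f g h i j m n)) l

/-- Passes on the knots below `X0`. -/
def knC {α : Type} (l : List Knot) (X0 : ℕ) (k : Par → Par → Par → α) : α :=
  knA l X0 k 0 0 0 0 0 0 0 0 0 0 0 0

/-- A parameter rounded once: its form with the radius that covers the rounding. -/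
def gafR (c : Sg) (s : Sg) (d : ℕ) (t : AF) : AF :=
  (gaf ⟨c.divN d, s.divN d⟩ t).add ⟨⟨0, 0⟩, ⟨0, 0⟩, ⟨0, 0⟩, 2⟩

/-- Passes on a spline and its derivative on `[X0, X1]`. -/
def withSpl {α : Type} (P : Spl) (t X : AF) (X0 : ℕ) (k : AF → AF → α) : α :=
  knC P.kn X0 fun a b A =>
    (gafR (((P.v0.c.smul 562949953421312).add (P.v1.c.smul (Nat.mul 33554432 X0))).add a.c)
      (((P.v0.t.smul 562949953421312).add (P.v1.t.smul (Nat.mul 33554432 X0))).add a.t)
      562949953421312 t).force fun f0 =>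
    (gafR ((P.v1.c.smul 16777216).add b.c) ((P.v1.t.smul 16777216).add b.t) 16777216 t).force fun f1 =>
    (X.sub (cst X0)).force fun u =>
    cond (Nat.beq (Nat.add A.c.abs' A.t.abs') 0) ((f0.add (f1.mul u)).force fun f => k f f1)
      ((gaf A t).force fun g =>
        ((f0.add (f1.mul u)).add ((g.mul (u.mul u)).scale 1 2)).force fun f =>
        (f1.add (g.mul u)).force fun d => k f d)

/-! ### The constants of a slice -/

/-- The data of a cell: `k ≤ K`, `g = G / (p + 1)`, `d = D / (p + 1)`, the reservoir `dl`. -/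
structure Cell where
  b : ℕ
  K : ℕ
  dl : ℕ
  zk : ℕ
  D : Par
  e1 : Par
  R : Spl
  Vp : Spl
  Vm : Spl

/-- The forms that depend on `τ` only. -/
structure Env where
  t : AF
  i1 : AF
  i2 : AF
  ti2 : AF
  G : AF
  gc : AF
  gcb : AF
  e0 : AF
  K0 : AF
  Ll : AF
  T1 : AF
  X0c : AF
  cth : AF
  GB : AF
  eL : AF
  bgt : AF
  Eh : AF
  Qm : AF
  eb : AF
  el : AF
  Kt2 : AF
  Ki1 : AF

/-- Passes on the constants of the slice `τ = tc + hh T`. -/
def withEnv (c : Cell) (tc hh : ℕ) (k : Env → Bool) : Bool :=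
  Nat.ble hh tc &&
  (AF.linT (Sg.ofN tc) (Sg.ofN hh)).force fun t =>
  withInv (one.sub t) fun i1 =>
  withInv ((one.sub t).sub t) fun i2 =>
  (cst c.b).force fun b =>
  (gaf c.D t).force fun D =>
  ((one.scale 1 2).sub D).force fun G =>
  (((one.add b).mul D).scale 2 1).force fun gc =>
  (b.sub one).force fun bm =>
  ((gc.mul bm).mul i1).force fun gcb =>
  (one.sub gc).force fun e0 =>
  (((gaf c.e1 t).sub (one.scale 1 2)).add gc).force fun K0 =>
  (gc.add (((one.scale 1 2).add (t.mul e0)).mul i1)).force fun Ll =>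
  (((G.scale 4 1).sub ((b.mul D).scale 2 1)).add (D.scale 2 1)).force fun T1 =>
  ((((G.mul (one.add (t.scale 2 1))).scale 2 1).add
    (D.mul (((b.mul (bm.mul t)).scale 2 1).sub (b.scale 2 1)))).mul i1).force fun X1 =>
  (X1.sub (gc.mul bm)).force fun X0c =>
  ((X0c.mul i2).add gcb).force fun cth =>
  ((((G.add ((b.mul b).mul D)).mul (one.add (t.scale 2 1))).mul i1)).force fun GB =>
  (((one.sub (t.scale 2 1)).mul i1).mul i1).force fun eL =>
  (t.mul i1).force fun Eh =>
  ((b.mul gc).mul Eh).force fun bgt =>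
  ((cst 21027221).mul (one.add (Eh.scale 1 3))).force fun Qm =>
  ((cst c.K).mul Eh).force fun eb =>
  (one.add ((eb.mul Eh).scale 2 1)).force fun el =>
  ((cst c.K).mul (t.mul t)).force fun Kt2 =>
  ((cst c.K).mul i1).force fun Ki1 =>
  (t.mul i2).force fun ti2 =>
  k ⟨t, i1, i2, ti2, G, gc, gcb, e0, K0, Ll, T1, X0c, cth, GB, eL, bgt, Eh, Qm, eb, el, Kt2, Ki1⟩

/-- The conditions on the constants: `G`, `D` nonnegative and the one on the deficit. -/
def envOK (c : Cell) (e : Env) : Bool :=
  nn e.G && nn (gaf c.D e.t) && Nat.ble 16777216 c.b &&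
    nn ((((cst c.b).mul e.gc).mul (one.sub e.t)).sub
      ((e.G.add (((cst c.b).mul (cst c.b)).mul (gaf c.D e.t))).mul (one.add (e.t.scale 2 1))))

/-! ### The values on a box -/

/-- The forms of a box; the coefficients of `ψ` and `ψ ^ 2` as in `Large/Coef`, without `qc`. -/
structure Vals where
  x : AF
  X : AF
  Xt : AF
  S : AF
  iS : AF
  R : AF
  kp0 : AF
  kw0 : AF
  L : AF
  Cp : AF
  Cm : AF
  Qp : AF
  Qm : AF
  a0 : AF

/-- Passes on the values on `[xa, xb]`. -/
def withVals (c : Cell) (e : Env) (xa xb : ℕ) (k : Vals → Bool) : Bool :=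
  let X0 := Nat.div (Nat.mul xa xa) 16777216
  let X1 := Mid.cdiv (Nat.mul xb xb) 16777216
  Nat.blt xa xb && Nat.beq (Nat.mod (Nat.add xa xb) 2) 0 &&
  knClear c.R.kn X0 X1 && knClear c.Vp.kn X0 X1 && knClear c.Vm.kn X0 X1 &&
  (⟨Sg.ofN (Nat.div (Nat.add xa xb) 2), Sg.ofN (Nat.div (Nat.sub xb xa) 2), ⟨0, 0⟩, 0⟩ : AF).force fun x =>
  (x.mul x).force fun X =>
  (X.mul e.t).force fun Xt =>
  (one.sub Xt).force fun S =>
  withInv S fun iS =>
  withSpl c.R e.t X X0 fun R Rd =>
  withSpl c.Vp e.t X X0 fun vp vpd =>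
  withSpl c.Vm e.t X X0 fun vm vmd =>
  (one.sub e.t).force fun ot =>
  ((e.e0.add ((e.t.mul e.i1).mul e.K0)).add (Xt.mul e.Ll)).force fun lr =>
  (e.gc.mul (S.mul e.i1)).force fun kp0 =>
  ((lr.mul e.i2).add kp0).force fun kw0 =>
  ((((e.T1.mul e.i1).sub ((e.e0.mul (e.t.mul e.i1)).mul e.i2)).sub
    (X.mul ((e.e0.add (e.t.mul e.T1)).mul e.i1))).sub (e.K0.mul e.i2)).force fun ts0 =>
  (ts0.sub (ot.mul (((X.mul e.Ll).mul e.i2).add R))).force fun ts =>
  ((((e.Ll.mul e.i2).scale 2 1).add (Rd.scale 2 1)).add (ts.mul iS)).force fun L =>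
  ((Xt.mul e.X0c).mul e.i2).force fun cx =>
  ((vp.scale 2 1).sub cx).force fun Cp =>
  ((vm.scale 2 1).sub cx).force fun Cm =>
  ((X.mul ((vpd.scale 2 1).add e.GB)).sub (vp.add ((ot.mul (X.mul vp)).mul iS))).force fun Qp =>
  ((X.mul ((vmd.scale 2 1).add e.GB)).sub (vm.add ((ot.mul (X.mul vm)).mul iS))).force fun Qm =>
  ((one.sub (e.t.scale 2 1)).mul iS).force fun a0 =>
  k ⟨x, X, Xt, S, iS, R, kp0, kw0, L, Cp, Cm, Qp, Qm, a0⟩

/-! ### Elementary bounds -/

/-- Five squarings. -/
def sq5 {α : Type} (f : AF) (k : AF → α) : α :=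
  (f.mul f).force fun a => (a.mul a).force fun b => (b.mul b).force fun c => (c.mul c).force fun d =>
    (d.mul d).force fun g => k g

/-- Passes on an upper bound on `exp z`, `z ≥ 0`: `((1 + z / 64) / (1 - z / 64)) ^ 32`. -/
def withExp (z : AF) (k : AF → Bool) : Bool :=
  (z.mul (cst 262144)).force fun h =>
  ps (one.sub h) &&
  sq5 (one.add h) fun n => sq5 (one.sub h) fun d => withInv d fun id => (n.mul id).force k

/-- Passes on an upper bound on `-2 log (1 - v) / (2 v)` times `a X`, at `v = X τ`, `S = 1 - v`. -/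
def withPow (a X v iS : AF) (k : AF → Bool) : Bool :=
  withExp ((a.mul (X.scale 1 2)).mul (one.add ((v.mul iS).scale 1 2))) k

/-- The bound `x + (x + 17/4) / (x^2 + 11/3 x + 133/25)`. -/
def withMills (x : AF) (k : AF → Bool) : Bool :=
  withInv (((x.mul x).add (x.scale 11 3)).add (one.scale 133 25)) fun i =>
    (x.add ((x.add (one.scale 17 4)).mul i)).force k

/-- The bound on `excess / (s² / w)`, without `1 / (2 p)`. -/
def withRho (W : AF) (k : AF → Bool) : Bool :=
  withInv (W.add one) fun i =>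
    ((W.mul i).sub (((W.mul (W.sub one)).mul (i.mul (i.mul i))).scale 2 3)).force k

/-! ### The caps -/

/-- How a cap on `w` is justified: at `y` itself, or from `u = θ y` with `sy ≥ 1 / semi y` from `a`. -/
inductive CapK
  | self
  | shift (th a : ℕ)

/-- Passes on `W ≥ w` and the pair `(mX, mW)` with `mX / mW = X τ / (W - 1)`. -/
def withCap (e : Env) (v : Vals) : CapK → (AF → AF → AF → Bool) → Bool
  | .self, k =>
    withPow one v.X v.Xt v.iS fun E =>
    withMills v.x fun m =>
    ((e.Eh.scale 2 1).add (((e.el.mul e.Qm).mul m).mul E)).force fun br =>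
    (one.add (e.eb.mul br)).force fun W =>
    (e.Ki1.mul br).force fun om =>
    k W v.X om
  | .shift th a, k =>
    Nat.blt 0 th && Nat.ble th 16777216 && Nat.blt 0 a &&
    ((cst th).mul v.x).force fun xu =>
    (xu.mul xu).force fun Xu =>
    (Xu.mul e.t).force fun Xut =>
    withInv (one.sub Xut) fun iSu =>
    withPow (one.sub e.t) Xu Xut iSu fun E =>
    withInv xu fun ixu =>
    withInv ((Xu.mul (one.sub e.t)).add (one.scale 3 1)) fun iden =>
    withInv (cst a) fun ia =>
    withMills v.x fun m =>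
    (((cst a).mul v.iS).add ia).force fun sy2 =>
    (((m.mul ixu).mul ((Xu.add (one.scale 2 1)).mul iden))).force fun F =>
    ((e.el.mul (sy2.scale 1 2)).mul
      ((m.mul ((e.eb.mul e.Qm).mul E)).add ((one.sub (Xut.scale 1 2)).mul F))).force fun W =>
    nn (W.sub one) && k W v.Xt (W.sub one)

/-! ### The two sides -/

/-- How the half mass below `y` is bounded. -/
inductive HbK
  | one
  | tail

/-- Passes on `hb` with `mass y ≤ hb y semi y ^ p`. -/
def withHb (e : Env) (v : Vals) : HbK → (AF → Bool) → Bool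
  | .one, k => withPow (one.sub (e.t.scale 2 1)) v.X v.Xt v.iS k
  | .tail, k =>
    withPow (one.sub (e.t.scale 2 1)) v.X v.Xt v.iS fun E =>
    withInv v.x fun ix =>
    (((v.x.mul v.x).add (v.x.scale 11 3)).add (one.scale 133 25)).force fun g =>
    withInv (((v.x.mul g).add v.x).add (one.scale 17 4)) fun img =>
    (((e.Qm.mul E).sub (v.S.mul (g.mul img))).mul ix).force k

/-- The band ahead of `y`: `ψ ≤ psi`. -/
def bandOK (c : Cell) (e : Env) (v : Vals) (psi hb : AF) : Bool :=
  nn psi && (one.sub e.t).force fun ot =>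
  (psi.mul ot).force fun T =>
  ((cst c.K).mul T).force fun kT =>
  ((kT.mul ((one.scale 2 1).add (kT.mul e.Eh))).mul (v.X.mul (ot.mul v.iS))).force fun q =>
  ((e.Eh.mul e.Eh).mul q).force fun u =>
  withInv (one.sub u) fun rec =>
  (((one.sub e.Eh).scale 1 2).mul (q.mul (one.add ((u.mul rec).scale 1 2)))).force fun P =>
  withExp (e.Eh.mul P) fun E => ps (T.sub (hb.mul E))

/-- The form of the multiplier `ν`. -/
def nuAF (nc nd : Sg) : AF := ⟨nc, nd, ⟨0, 0⟩, 0⟩

/-- What a side passes on: `M` at both ends of `k`, `Mb ≥ M`, `1 / κ`, `a`, `base`. -/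
structure Cor where
  M0 : AF
  MK : AF
  Mb : AF
  ik : AF
  al : AF
  base : AF

/-- The curvature `kap` is below a bound on either side of `w = 1`, at one weight of the excess. -/
def kapOK (e : Env) (kap kp kw iW rho tM tl add : AF) : Bool :=
  nn kw &&
  (e.ti2.scale 1 2).force fun h =>
  ((kp.mul (one.add (e.ti2.mul iW))).sub (kw.mul (rho.add h))).force fun num =>
  ((kp.mul (one.add e.ti2)).sub (kw.mul ((one.scale 1 2).add h))).force fun numl =>
  nn ((numl.sub tl).sub kap) && nn ((((num.sub (tM.mul rho)).add add).mul iW).sub kap)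

/-- The left side `t ≤ y`. -/
def withMinus (c : Cell) (e : Env) (v : Vals) (kapL : Lin) (nc nd : Sg) (k : Cor → AF → Bool) : Bool :=
  (one.add e.eb).force fun W =>
  withInv W fun iW =>
  withRho W fun rho =>
  (e.Kt2.mul (v.S.mul e.i1)).force fun Zl =>
  (v.kp0.sub (e.gcb.mul Zl)).force fun kp =>
  (nuAF nc nd).force fun nu =>
  ((cst c.K).mul (cst (Nat.sub (Nat.add nd.abs' nc.negPart) nc.posPart))).force fun Kn =>
  (v.R.add Kn).force fun Mb =>
  (v.R.sub ((cst c.K).mul nu)).force fun MK =>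
  (e.t.mul Mb).force fun tM =>
  kapL.af.force fun kap =>
  withInv kap fun ik =>
  (one.sub ((W.sub one).mul ((one.sub e.t).mul e.i2))).force fun qf =>
  (v.Xt.mul v.iS).force fun u =>
  ((one.sub (e.t.scale 2 1)).mul ((u.scale 1 2).add (u.mul u))).force fun be =>
  (((be.mul Mb).add v.Qm).sub ((e.bgt.mul (cst qf.low.posPart)).mul v.X)).force fun base =>
  nn kp && nn v.R && nn MK &&
    kapOK e kap kp v.kw0 iW rho tM tM (cst 0) &&
    kapOK e kap kp (v.kw0.sub (e.cth.mul Zl)) iW rho tM tM (cst 0) &&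
    k ⟨v.R, MK, Mb, ik, v.a0, base⟩ nu

/-- The right side, with the band `ψ ≤ psi`. -/
def withPlus (c : Cell) (e : Env) (v : Vals) (W psi : AF) (kapL : Lin) (nc nd : Sg)
    (k : Cor → AF → Bool) : Bool :=
  withInv W fun iW =>
  withRho W fun rho =>
  (e.Kt2.mul (v.X.mul psi)).force fun zh =>
  (nuAF nc nd).force fun nu =>
  ((cst c.K).mul (cst (Nat.sub (Nat.add nd.abs' nc.negPart) nc.posPart))).force fun Kn =>
  (v.R.add Kn).force fun Mb =>
  (v.R.sub ((cst c.K).mul nu)).force fun MK =>
  (e.t.mul Mb).force fun tM =>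
  kapL.af.force fun kap =>
  withInv kap fun ik =>
  (one.sub ((W.sub one).mul ((one.sub e.t).mul e.i2))).force fun qf =>
  ((e.t.mul (W.sub one)).scale 2 1).force fun l2 =>
  (((one.sub (e.t.scale 2 1)).add l2).mul ((v.Xt.mul v.iS).scale 1 2)).force fun be =>
  (v.a0.add (l2.mul v.iS)).force fun al =>
  (((be.mul Mb).add v.Qp).sub ((e.bgt.mul (cst qf.low.posPart)).mul v.X)).force fun base =>
  nn v.kp0 && nn v.R && nn MK &&
    kapOK e kap v.kp0 v.kw0 iW rho tM (cst 0) (cst 0) &&
    kapOK e kap v.kp0 (v.kw0.add (e.cth.mul zh)) iW rho tM (cst 0) (cst 0) &&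
    k ⟨v.R, MK, Mb, ik, al, base⟩ nu

/-- The values at the two nodes of a box that a corner is compared with. -/
structure Node where
  x : ℕ
  a0 : ℕ
  a1 : ℕ
  b0 : ℕ
  b1 : ℕ

/-- The value at an end of `k` and of `τ`. -/
def Node.get (n : Node) (kk hi : Bool) : ℕ := cond kk (cond hi n.b1 n.b0) (cond hi n.a1 n.a0)

/-- The value a corner may use: on a part of the slice the smaller one. -/
def Node.use (n : Node) (whole kk hi : Bool) : ℕ :=
  cond whole (n.get kk hi) (Mid.nmin (n.get kk false) (n.get kk true))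

/-- The form plus `g` is below the nodes. -/
def below (n0 n1 : Node) (whole kk : Bool) (f g : AF) : Bool :=
  Sg.le ((f.hi false false).add (g.hi false false)) (Sg.ofN (n0.use whole kk false)) &&
  Sg.le ((f.hi true false).add (g.hi true false)) (Sg.ofN (n1.use whole kk false)) &&
  Sg.le ((f.hi false true).add (g.hi false true)) (Sg.ofN (n0.use whole kk true)) &&
  Sg.le ((f.hi true true).add (g.hi true true)) (Sg.ofN (n1.use whole kk true))

/-- The value at `k = 0`, linear in `ψ`: `P` is the far end of `ψ` times `X`. -/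
def end0OK (e : Env) (v : Vals) (r : Cor) (n0 n1 : Node) (whole : Bool) (XP : AF) : Bool :=
  (r.M0.mul e.eL).force fun a =>
  (v.L.add (r.al.mul r.M0)).force fun a1 =>
  below n0 n1 whole false a (cst 0) && below n0 n1 whole false (a.add (a1.mul XP)) (cst 0)

/-- The coefficients at `k = K`. -/
def withEndK (c : Cell) (e : Env) (v : Vals) (r : Cor) (C nu : AF) (k : AF → AF → AF → Bool) : Bool :=
  (cst c.K).force fun K =>
  ((r.MK.mul e.eL).add ((K.mul ((nu.mul nu).mul r.ik)).scale 1 4)).force fun a =>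
  (((v.X.mul (v.L.add (r.al.mul r.MK)))).add (((K.mul nu).mul (C.mul r.ik)).scale 1 2)).force fun b1 =>
  (K.mul (r.base.add (((C.mul C).mul r.ik).scale 1 4))).force fun b2 =>
  k a b1 b2

/-- The chord in `ψ` between `0` and `P`. -/
def chordOK (n0 n1 : Node) (whole : Bool) (a b1 b2 P : AF) : Bool :=
  (((P.mul P).mul (cst b2.low.negPart)).scale 1 4).force fun bm =>
  below n0 n1 whole true a bm && below n0 n1 whole true ((a.add (b1.mul P)).add (b2.mul (P.mul P))) bm

/-- The vertex, when the coefficient of `ψ ^ 2` is negative. -/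
def vertexOK (n0 n1 : Node) (whole : Bool) (a b1 b2 : AF) : Bool :=
  withInv (b2.neg'.scale 4 1) fun i => below n0 n1 whole true (a.add ((b1.mul b1).mul i)) (cst 0)

/-- The data of the left side. -/
structure Minus where
  first : Bool
  vert : Bool
  kap : Lin
  nc : Sg
  nd : Sg

/-- The test of the left side. -/
def minusOK (c : Cell) (e : Env) (v : Vals) (xa : ℕ) (n0 n1 : Node) (whole : Bool) (d : Minus) : Bool :=
  withMinus c e v d.kap d.nc d.nd fun r nu =>
  (v.S.mul e.i1).force fun Si =>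
  cond d.first
    (end0OK e v r n0 n1 whole Si.neg' &&
      withEndK c e v r v.Cm nu fun a b1 b2 => vertexOK n0 n1 whole a b1 b2)
    ((cst xa).force fun x0 =>
      withInv (((x0.mul x0).add (x0.mul (one.scale 313 100))).add (one.scale 201 50)) fun i =>
      ((x0.mul (x0.add (one.scale 313 100))).mul i).force fun f =>
      withInv (v.X.add (v.S.mul f)) fun iden =>
      ((Si.mul iden).neg').force fun P =>
      end0OK e v r n0 n1 whole (v.X.mul P) &&
        withEndK c e v r v.Cm nu fun a b1 b2 =>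
          cond d.vert (vertexOK n0 n1 whole a b1 b2) (chordOK n0 n1 whole a b1 b2 P))

/-- The data of the right side. -/
inductive Plus
  | band (cap : CapK) (hb : HbK) (psi kap : Lin) (nc nd : Sg)
  | tail (cap : CapK) (mu z : ℕ) (kap cl : Lin)

/-- Passes on what a multiplier `mu` adds to the curvature. -/
def withMu (mu : ℕ) (W tmu : AF) (k : AF → Bool) : Bool :=
  cond (Nat.beq mu 0) (k (cst 0))
    (withInv (W.sub one) fun i => ((tmu.mul i).mul W).force k)

/-- The test of the tail: `ν = 0`, the cross term split by `cl`. -/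
def tailOK (e : Env) (v : Vals) (n0 n1 : Node) (whole : Bool) (W mX mW : AF) (mu z : ℕ)
    (kapL clL : Lin) : Bool :=
  withInv W fun iW =>
  withRho W fun rho =>
  (Nat.ble 4194304 z || np (v.Xt.sub ((cst z).mul (cst z))) ||
    np (v.S.sub (cst (Nat.mul 2 z)))) &&
  (cst mu).force fun mu' =>
  (v.R.add mu').force fun M =>
  (e.t.mul M).force fun tM =>
  (e.t.mul mu').force fun tmu =>
  withMu mu W tmu fun add =>
  kapL.af.force fun kap =>
  withInv kap fun ik =>
  (one.sub ((W.sub one).mul ((one.sub e.t).mul e.i2))).force fun qf =>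
  ((e.t.mul (W.sub one)).scale 2 1).force fun l2 =>
  (((one.sub (e.t.scale 2 1)).add l2).mul ((v.Xt.mul v.iS).scale 1 2)).force fun be =>
  (v.a0.add (l2.mul v.iS)).force fun al =>
  (((be.mul M).add v.Qp).sub ((e.bgt.mul (cst qf.low.posPart)).mul v.X)).force fun base =>
  clL.af.force fun cl =>
  (v.Cp.sub cl).force fun dC =>
  nn cl && nn v.kp0 && nn v.R &&
    kapOK e kap v.kp0 v.kw0 iW rho tM (cst 0) add &&
    kapOK e kap v.kp0 (v.kw0.add (e.cth.mul (cst z))) iW rho tM (cst 0) add &&
    (v.L.add (al.mul M)).force fun a1 =>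
    ((clL.isZero && np a1) || np ((mX.mul a1).add (cl.mul mW))) &&
    np (base.add (((dC.mul dC).mul ik).scale 1 4)) &&
    below n0 n1 whole false (M.mul e.eL) (cst 0) && below n0 n1 whole true (M.mul e.eL) (cst 0)

/-- The test of the right side. -/
def plusOK (c : Cell) (e : Env) (v : Vals) (n0 n1 : Node) (whole : Bool) : Plus → Bool
  | .band cap hb psiL kap nc nd =>
    psiL.af.force fun psi =>
    withHb e v hb fun h => bandOK c e v psi h &&
    withCap e v cap fun W _ _ =>
    withPlus c e v W psi kap nc nd fun r nu =>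
    end0OK e v r n0 n1 whole (v.X.mul psi) &&
      withEndK c e v r v.Cp nu fun a b1 b2 => chordOK n0 n1 whole a b1 b2 psi
  | .tail cap mu z kap cl =>
    withCap e v cap fun W mX mW => tailOK e v n0 n1 whole W mX mW mu z kap cl

/-! ### The crude box: the reservoir alone, from `k ≥ exp (-5/4 √(p + 1)) / 5` -/

/-- The upper end of the absolute value of a form. -/
def absHi (f : AF) : ℕ :=
  Mid.nmax (f.neg'.low.negPart) (f.low.negPart)

/-- The positive part of the upper end. -/
def posHi (f : AF) : ℕ := f.neg'.low.negPart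

/-- The bound on the bracket less its constant, one side, in units of `τ`. -/
def withCrude (e : Env) (v : Vals) (W kp kw1 th Ls C Q : AF) (k : AF → Bool) : Bool :=
  nn kp &&
  (cst (Mid.nmax (posHi v.kw0) (posHi kw1))).force fun km =>
  withInv (kp.scale 2 1) fun ik =>
  (cst (posHi (W.sub one))).force fun wm =>
  (cst (Mid.nmax 16777216 (posHi (W.sub one)))).force fun sA =>
  (((e.t.mul v.R).mul wm).add (cst (Mid.nmax (posHi (km.mul wm)) (posHi ((km.mul km).mul ik))))).force fun f0 =>
  ((f0.add (((cst (absHi C)).mul th).mul sA)).add ((cst (posHi Ls)).mul (v.Xt.mul th))).force fun f1 =>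
  (f1.add ((cst (posHi Q)).mul (th.mul th))).force k

/-- The test of a crude box: `zk ≥ 5/4 √(p + 1)`, or `zk ≥ c.zk` when that is given. -/
def crudeOK (c : Cell) (e : Env) (v : Vals) (cap : CapK) (tl zm iy zk : ℕ) : Bool :=
  nn v.R &&
  (Nat.ble (Nat.mul (Nat.mul 25 (Nat.sub 16777216 tl)) (16777216 * 16777216))
    (Nat.mul 16 (Nat.mul tl (Nat.mul zk zk))) ||
    (Nat.blt 0 c.zk && Nat.ble c.zk zk)) &&
  (Nat.ble 4194304 zm || np (v.Xt.sub ((cst zm).mul (cst zm)))) &&
  nn ((((cst (Nat.add iy 16777216)).mul (cst (Nat.add iy 16777216))).mul v.Xt).sub one) &&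
  withCap e v cap fun W _ _ =>
  (cst zm).force fun zp =>
  (cst iy).force fun thp =>
  withCrude e v W v.kp0 (v.kw0.add (e.cth.mul zp)) thp v.L v.Cp v.Qp fun fp =>
  (e.Kt2.mul (v.S.mul e.i1)).force fun Zl =>
  withInv v.Xt fun iXt =>
  (Zl.mul iXt).force fun thm =>
  withCrude e v (one.add e.eb) (v.kp0.sub (e.gcb.mul Zl)) (v.kw0.sub (e.cth.mul Zl)) thm
      v.L.neg' v.Cm v.Qm fun fm =>
  (v.Xt.mul v.Xt).force fun y4 =>
  ((((one.sub e.t).mul v.X).scale 1 2).mul
    ((((one.add (v.Xt.scale 1 2)).add (y4.scale 1 3)).add ((y4.mul v.Xt).scale 1 4)).add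
      ((y4.mul y4).mul (((one.scale 1 5).add (v.Xt.scale 1 6)).add (y4.scale 1 7))))).force fun z =>
  Mid.forceN (posHi ((cst (Mid.nmax (posHi fp) (posHi fm))).mul (one.add v.X))) fun L =>
  Nat.blt zk z.low.posPart &&
  Nat.ble (Nat.mul (Nat.mul 5 L) (16777216 * 16777216 * 16777216))
    (Nat.mul (Nat.mul (Mid.expLo (Nat.sub z.low.posPart zk)) c.dl) (Nat.mul tl tl))

/-! ### Segments and the chain -/

/-- What is tested on a part of a slice over a segment. -/
inductive Body
  | full (mi : Minus) (pl : Plus)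
  | crude (cap : CapK) (zm iy zk : ℕ)

/-- A part `τ = tc + hh T` of a slice. -/
structure Part where
  tc : ℕ
  hh : ℕ
  body : Body

/-- A segment: its right node and its parts. -/
structure Seg where
  n : Node
  parts : List Part

/-- The test of a part. -/
def partOK (c : Cell) (tc hh : ℕ) (n0 n1 : Node) (q : Part) : Bool :=
  let whole := Nat.beq q.tc tc && Nat.beq q.hh hh
  withEnv c q.tc q.hh fun e => withVals c e n0.x n1.x fun v =>
    match q.body with
    | .full mi pl => minusOK c e v n0.x n0 n1 whole mi && plusOK c e v n0 n1 whole pl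
    | .crude cap zm iy zk => crudeOK c e v cap (Nat.sub q.tc q.hh) zm iy zk

/-- The parts cover the slice from `lo` to `hi`. -/
def partsOK (c : Cell) (tc hh : ℕ) (n0 n1 : Node) : List Part → ℕ → Bool
  | [], lo => Nat.ble (Nat.add tc hh) lo
  | q :: l, lo =>
    Nat.ble (Nat.sub q.tc q.hh) lo && partOK c tc hh n0 n1 q && partsOK c tc hh n0 n1 l (Nat.add q.tc q.hh)

/-- The segments from a node on. -/
def segsOK (c : Cell) (tc hh : ℕ) : Node → List Seg → Bool
  | _, [] => true
  | n0, s :: l =>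
    Nat.blt n0.x s.n.x && partsOK c tc hh n0 s.n s.parts (Nat.sub tc hh) && segsOK c tc hh s.n l

/-- The constants of a slice. -/
def sliceOK (c : Cell) (tc hh : ℕ) : Bool :=
  Nat.blt 0 hh && Nat.ble c.K 16777216 && Nat.ble (Nat.add tc hh) 1677722 &&
    withEnv c tc hh fun e => envOK c e

/-! ### The integral -/

/-- An upper bound on `semi y ^ (p + 1)` at a node, for `τ ∈ [lo, hi]`. -/
def weightUp (lo hi x : ℕ) : ℕ :=
  Mid.forceN (Nat.div (Nat.mul x x) 16777216) fun X =>
  Mid.forceN (Nat.div (Nat.mul (Nat.sub 16777216 hi)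
    (Nat.add (Nat.div X 2) (Nat.div (Nat.mul (Nat.mul X X) lo) (4 * 16777216 * 16777216)))) 16777216) fun z =>
  Mid.cdiv (16777216 * 16777216) (Mid.expLo z)

/-- Whether the weight is convex to the right of `x`. -/
def convexAt (hi x : ℕ) : Bool :=
  Nat.ble (16777216 * 16777216 * 16777216) (Nat.mul (Nat.sub 16777216 (Nat.mul 4 hi)) (Nat.mul x x))

/-- Six times the integral of the interpolation against the weight, from above, at `U ^ 3`. -/
def sum6 (lo hi : ℕ) (kk e : Bool) : Node → List Node → ℕ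
  | _, [] => 0
  | a, b :: l =>
    Nat.add
      (Mid.forceN (Nat.sub b.x a.x) fun h =>
        Mid.forceN (weightUp lo hi a.x) fun Wa =>
        Mid.forceN (weightUp lo hi b.x) fun Wb =>
        Nat.add
          (Nat.mul h (Nat.add (Nat.mul (a.get kk e) (Nat.add (Nat.mul 2 Wa) Wb))
            (Nat.mul (b.get kk e) (Nat.add Wa (Nat.mul 2 Wb)))))
          (cond (convexAt hi a.x) 0
            (Mid.cdiv (Nat.mul (Nat.mul (Nat.mul h (Nat.mul h h)) (Nat.add (a.get kk e) (b.get kk e)))
              (Nat.add 16777216 (Nat.mul 3 hi))) (4 * 16777216 * 16777216))))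
      (sum6 lo hi kk e b l)

/-- The nodes increase. -/
def chainUp : Node → List Node → Bool
  | _, [] => true
  | a, b :: l => Nat.blt a.x b.x && chainUp b l

/-- The last node vanishes. -/
def endZero : Node → List Node → Bool
  | a, [] => Nat.beq (Nat.add (Nat.add a.a0 a.a1) (Nat.add a.b0 a.b1)) 0
  | _, b :: l => endZero b l

/-- The integral test at one end of `k` and of the slice. -/
def sumOK (dl lo hi : ℕ) (G : AF) (kk e : Bool) (n : Node) (l : List Node) : Bool :=
  Nat.blt (Nat.add (sum6 lo hi kk e n l) (Nat.mul (Nat.mul 6 16777216) (Nat.mul dl 26353590)))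
    (Nat.mul (6 * 16777216 * 16777216) (G.lo false e).posPart)

/-- The integral test of a slice. -/
def budgetOK (c : Cell) (tc hh : ℕ) (n : Node) (l : List Node) : Bool :=
  withEnv c tc hh fun e =>
  (((cst 42053632).mul (e.G.mul (e.i1.mul e.i1))).mul (one.sub (e.t.scale 1 2))).force fun g =>
  Mid.forceN (Nat.sub tc hh) fun lo =>
  Mid.forceN (Nat.add tc hh) fun hi =>
  Nat.beq n.x 0 && chainUp n l && endZero n l &&
    sumOK c.dl lo hi g false false n l && sumOK c.dl lo hi g false true n l &&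
    sumOK c.dl lo hi g true false n l && sumOK c.dl lo hi g true true n l

/-- A slice: constants, segments, integral. -/
def sliceTest (c : Cell) (tc hh : ℕ) (n : Node) (segs : List Seg) (last : Node) : Bool :=
  sliceOK c tc hh && segsOK c tc hh n segs &&
    budgetOK c tc hh n (segs.map Seg.n ++ [last])

end Vale.Agent.P237.All.Transport.Small.Large
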