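import Vale.Agent.P237.All.Small.Excess
import Vale.Agent.P237.All.Mid.Major

/-!
P237, every dimension, excess `k ≤ .0134`: the coefficients of the majorant in the variables of the
checker (`notes/P237h3/large/model.py`): `X = (p + 2) y ^ 2`, `τ = 1 / (p + 2)`, `w - 1 = k τ σ`,
`t - y = k τ y ψ`, the bracket in units of `k τ ^ 3`.
-/

noncomputable section

open Real Set

namespace Vale.Agent.P237.All.Transport.Small.Large

open Mid (XP)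

/-- `1 / (p + 2)`. -/
def tau (p : ℕ) : ℝ := 1 / ((p : ℝ) + 2)

/-- The constants: `g = G / (p + 1)`, `d = D / (p + 1)`, `G + D = 1 / 2`. -/
structure Co where
  b : ℝ
  D : ℝ
  e1 : ℝ

namespace Co

variable (c : Co)

/-- The weight of the variance. -/
def G : ℝ := 1 / 2 - c.D

/-- `majC`, times `p + 1`. -/
def gc : ℝ := 2 * (1 + c.b) * c.D

/-- `1 - gc`. -/
def e0 : ℝ := 1 - c.gc

/-- The constant part of the linear coefficient. -/
def K0 : ℝ := c.e1 - 1 / 2 + c.gc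

/-- The slope of the linear coefficient in `y ^ 2`. -/
def Ll (t : ℝ) : ℝ := c.gc + (1 / 2 + t * c.e0) / (1 - t)

/-- The coefficient of `τ` in `majLt`. -/
def T1 : ℝ := 4 * c.G - 2 * c.b * c.D + 2 * c.D

/-- `majX`, per `y`. -/
def X0 (t : ℝ) : ℝ :=
  (2 * (c.G * (1 + 2 * t)) + c.D * (2 * c.b * (c.b - 1) * t - 2 * c.b)) / (1 - t) - c.gc * (c.b - 1)

/-- The slope of `kw` in `y θ`. -/
def cth (t : ℝ) : ℝ := c.X0 t / (1 - 2 * t) + c.gc * (c.b - 1) / (1 - t)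

/-- The linear coefficient. -/
def lr (t X : ℝ) : ℝ := c.e0 + t / (1 - t) * c.K0 + X * t * c.Ll t

/-- The coefficient of `ψ`, per `X`. -/
def L (t X R R' : ℝ) : ℝ :=
  2 * (c.Ll t / (1 - 2 * t)) + 2 * R' +
    ((c.T1 / (1 - t) - c.e0 * t / (1 - t) / (1 - 2 * t) - X * ((c.e0 + t * c.T1) / (1 - t)) -
        c.K0 / (1 - 2 * t)) - (1 - t) * (X * c.Ll t / (1 - 2 * t) + R)) / (1 - X * t)

/-- The coefficient of `σ ψ`. -/
def C (t X v : ℝ) : ℝ := 2 * v - X * t * c.X0 t / (1 - 2 * t)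

/-- The coefficient of `ψ ^ 2`, the kept part `qc` of the deficit included. -/
def Q (t X v v' qc : ℝ) : ℝ :=
  X * (2 * v' + (c.G + c.b ^ 2 * c.D) * (1 + 2 * t) / (1 - t)) -
    (v + (1 - t) * (X * v) / (1 - X * t)) - c.b * c.gc * (t / (1 - t)) * qc * X

/-- The weight of the deficit at `z = y θ`. -/
def kp (t X z : ℝ) : ℝ := c.gc * ((1 - X * t) / (1 - t)) + c.gc * (c.b - 1) / (1 - t) * z

/-- The weight of the excess. -/
def kw (t X z : ℝ) : ℝ :=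
  c.lr t X / (1 - 2 * t) + c.gc * ((1 - X * t) / (1 - t)) + c.cth t * z

/-- The multiplier. -/
def ell (p : ℕ) (c2 : ℝ) : ℝ := 1 + c.e1 / ((p : ℝ) + 1) + c.G / ((p : ℝ) + 1) * (c2 - 1)

/-- The linear coefficient of the potential, at the value `R`. -/
def A (p : ℕ) (R : ℝ → ℝ) (c2 y : ℝ) : ℝ :=
  majLr p (c.G / ((p : ℝ) + 1)) (c.D / ((p : ℝ) + 1)) c.b (c.ell p c2) c2 y / p +
    R (XP p y) * tau p ^ 2

/-- Its derivative, at the derivative `R'`. -/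
def dA (p : ℕ) (R' : ℝ → ℝ) (y : ℝ) : ℝ :=
  2 * y * (c.Ll (tau p) / p + R' (XP p y) * tau p)

end Co

/-- The quadratic coefficient of the potential. -/
def potW (p : ℕ) (v : ℝ → ℝ) (y : ℝ) : ℝ := v (XP p y) * tau p

/-- Its derivative. -/
def potdW (p : ℕ) (v' : ℝ → ℝ) (y : ℝ) : ℝ := 2 * y * v' (XP p y)

variable {c : Co} {p : ℕ} {c2 y : ℝ}

theorem tau_facts (p : ℕ) :
    1 - tau p = ((p : ℝ) + 1) / ((p : ℝ) + 2) ∧ 1 - 2 * tau p = (p : ℝ) / ((p : ℝ) + 2) ∧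
      1 + 2 * tau p = ((p : ℝ) + 4) / ((p : ℝ) + 2) ∧ XP p y * tau p = y ^ 2 := by
  refine ⟨?_, ?_, ?_, ?_⟩ <;> (simp only [tau, XP]; field_simp; try ring)

theorem hasDerivAt_XP (p : ℕ) (y : ℝ) : HasDerivAt (XP p) (2 * ((p : ℝ) + 2) * y) y := by
  refine ((hasDerivAt_pow 2 y).const_mul ((p : ℝ) + 2)).congr_deriv ?_
  norm_num; ring

theorem lr_eq (hp : 1 ≤ p) (c : Co) (c2 y : ℝ) :
    majLr p (c.G / ((p : ℝ) + 1)) (c.D / ((p : ℝ) + 1)) c.b (c.ell p c2) c2 y =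
      c.lr (tau p) (XP p y) := by
  have hp0 : (0 : ℝ) < p := Nat.cast_pos.2 (by omega)
  rw [Co.lr, Co.Ll, (tau_facts p).2.2.2, (tau_facts p (y := y)).1, majLr, majC]
  simp only [Co.ell, Co.G, Co.gc, Co.e0, Co.K0, tau]
  field_simp
  ring

theorem hasDerivAt_A (hp : 1 ≤ p) (c : Co) {R R' : ℝ → ℝ}
    (hR : ∀ X, HasDerivAt R (R' X) X) (c2 y : ℝ) :
    HasDerivAt (c.A p R c2) (c.dA p R' y) y := by
  have hp0 : (0 : ℝ) < p := Nat.cast_pos.2 (by omega)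
  have h : HasDerivAt (fun y => c.lr (tau p) (XP p y) / p + R (XP p y) * tau p ^ 2) (c.dA p R' y) y := by
    have h1 := ((((hasDerivAt_XP p y).mul_const (tau p)).mul_const (c.Ll (tau p))).const_add
      (c.e0 + tau p / (1 - tau p) * c.K0)).div_const (p : ℝ)
    have h2 := ((hR _).comp y (hasDerivAt_XP p y)).mul_const (tau p ^ 2)
    refine (h1.add h2).congr_deriv ?_
    rw [Co.dA, tau]; field_simp
  exact h.congr_of_eventuallyEq (Filter.Eventually.of_forall fun z => by rw [Co.A, lr_eq hp])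

theorem hasDerivAt_W (p : ℕ) {v v' : ℝ → ℝ} (hv : ∀ X, HasDerivAt v (v' X) X) (y : ℝ) :
    HasDerivAt (potW p v) (potdW p v' y) y := by
  refine (((hv _).comp y (hasDerivAt_XP p y)).mul_const (tau p)).congr_deriv ?_
  rw [potdW, tau]; field_simp

theorem re_eq (c : Co) (p : ℕ) (R : ℝ → ℝ) (c2 y : ℝ) :
    majRe p (c.G / ((p : ℝ) + 1)) (c.D / ((p : ℝ) + 1)) c.b (c.ell p c2) c2 (c.A p R c2 y) y *
      ((p : ℝ) + 2) ^ 2 = R (XP p y) := by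
  rw [majRe, Co.A, tau]; field_simp; ring

theorem le_eq (hp : 1 ≤ p) (hy : y ∈ Ioo (0 : ℝ) 1) (c : Co) (R R' : ℝ → ℝ) (c2 : ℝ) :
    majLe p (c.G / ((p : ℝ) + 1)) (c.D / ((p : ℝ) + 1)) c.b
      (c.dA p R' y - ((p : ℝ) + 1) * y / (1 - y ^ 2) * c.A p R c2 y) y * y * ((p : ℝ) + 2) ^ 2 =
    XP p y * c.L (tau p) (XP p y) (R (XP p y)) (R' (XP p y)) := by
  have hp0 : (0 : ℝ) < p := Nat.cast_pos.2 (by omega)
  have hS : (1 : ℝ) - y ^ 2 ≠ 0 := by nlinarith [hy.1, hy.2]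
  obtain ⟨h1, h2, -, hX⟩ := tau_facts p (y := y)
  rw [Co.A, lr_eq hp, majLe, Co.dA, Co.L, hX, h1, h2]
  simp only [majLt, majC, Co.lr, Co.Ll, hX, h1, Co.T1, Co.K0, Co.e0, Co.G, Co.gc]
  generalize R (XP p y) = r
  generalize R' (XP p y) = r'
  simp only [tau, XP]
  field_simp
  ring

theorem cross_eq (hp : 1 ≤ p) (hy : y ∈ Ioo (0 : ℝ) 1) (c : Co) (v : ℝ → ℝ) :
    majCross p (c.G / ((p : ℝ) + 1)) (c.D / ((p : ℝ) + 1)) c.b (potW p v y / y) y *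
      y * ((p : ℝ) + 2) = c.C (tau p) (XP p y) (v (XP p y)) := by
  have hp0 : (0 : ℝ) < p := Nat.cast_pos.2 (by omega)
  have hy0 := hy.1.ne'
  obtain ⟨h1, h2, h3, hX⟩ := tau_facts p (y := y)
  rw [Co.C, Co.X0, hX, h1, h2, h3, majCross, majX, majC, potW]
  simp only [Co.gc, Co.G, tau]
  field_simp
  ring

theorem sq_eq (hy : y ∈ Ioo (0 : ℝ) 1) (c : Co) (v v' : ℝ → ℝ) (qc : ℝ) :
    ((c.G / ((p : ℝ) + 1) + c.D / ((p : ℝ) + 1) * c.b ^ 2) * ((p : ℝ) + 4) +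
        (potdW p v' y / y - potW p v y / y ^ 2 -
          ((p : ℝ) + 1) * potW p v y / (1 - y ^ 2)) -
        c.b * majC c.b (c.D / ((p : ℝ) + 1)) * qc) * y ^ 2 * ((p : ℝ) + 2) =
      c.Q (tau p) (XP p y) (v (XP p y)) (v' (XP p y)) qc := by
  have hS : (1 : ℝ) - y ^ 2 ≠ 0 := by nlinarith [hy.1, hy.2]
  have hy0 := hy.1.ne'
  obtain ⟨h1, -, h3, hX⟩ := tau_facts p (y := y)
  rw [Co.Q, hX, h1, h3, potdW, potW, majC]
  simp only [Co.gc, tau, XP]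
  field_simp
  ring

theorem kp_eq (c : Co) (p : ℕ) (y t : ℝ) :
    majKp c.b (c.D / ((p : ℝ) + 1)) y (t - y) * ((p : ℝ) + 2) =
      c.kp (tau p) (XP p y) (y * (t - y)) := by
  obtain ⟨h1, -, -, hX⟩ := tau_facts p (y := y)
  rw [Co.kp, hX, h1, majKp, majC, Co.gc]; field_simp

theorem kw_eq (hp : 1 ≤ p) (c : Co) (c2 y t : ℝ) :
    majKw p (c.G / ((p : ℝ) + 1)) (c.D / ((p : ℝ) + 1)) c.b (c.ell p c2) c2 y (t - y) * ((p : ℝ) + 2) =
      c.kw (tau p) (XP p y) (y * (t - y)) := by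
  have hp0 : (0 : ℝ) < p := Nat.cast_pos.2 (by omega)
  obtain ⟨h1, h2, h3, hX⟩ := tau_facts p (y := y)
  rw [majKw, lr_eq hp, Co.kw, Co.cth, Co.X0, hX, h1, h2, h3, majKp, majX, majC]
  simp only [Co.gc, Co.G, tau]
  field_simp
  ring

end Vale.Agent.P237.All.Transport.Small.Large
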