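import Vale.Agent.P237.All.Small.Large.Chunk

/-!
P237, every dimension, excess `k ≤ .0134`: the constants of the cell, checked by the kernel
(`notes/P237h3/large`).
-/

noncomputable section

namespace Vale.Agent.P237.All.Transport.Small.Large

/-- The constants of the cell. -/
def cellA : Cell :=
  ⟨107374182,224815,33554,0,⟨⟨1575548,0⟩,⟨7791675,0⟩⟩,⟨⟨32660206,0⟩,⟨0,118799466⟩⟩,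
    ⟨⟨⟨1056780,0⟩,⟨161992409,0⟩⟩,⟨⟨0,4891909⟩,⟨0,909576922⟩⟩,[⟨0,⟨⟨13861184,0⟩,⟨2420480384,0⟩⟩⟩,⟨6553600,⟨⟨0,16105280⟩,⟨0,2493358592⟩⟩⟩,⟨16777216,⟨⟨13553408,0⟩,⟨197323392,0⟩⟩⟩,⟨44302336,⟨⟨0,502592⟩,⟨95564480,0⟩⟩⟩,⟨84934656,⟨⟨0,25856512⟩,⟨0,1556660608⟩⟩⟩,⟨150994944,⟨⟨21516160,0⟩,⟨2897470656,0⟩⟩⟩,⟨251920384,⟨⟨0,10689216⟩,⟨0,2172535360⟩⟩⟩,⟨419430400,⟨⟨5129344,0⟩,⟨672643968,0⟩⟩⟩,⟨764411904,⟨⟨0,906496⟩,⟨0,60928320⟩⟩⟩]⟩,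
    ⟨⟨⟨32774291,0⟩,⟨0,297460040⟩⟩,⟨⟨53893234,0⟩,⟨3958331916,0⟩⟩,[⟨0,⟨⟨0,395368832⟩,⟨0,7217907328⟩⟩⟩,⟨6553600,⟨⟨490070144,0⟩,⟨8300183936,0⟩⟩⟩,⟨16777216,⟨⟨0,28869696⟩,⟨0,3932294144⟩⟩⟩,⟨44302336,⟨⟨0,82663744⟩,⟨3740703680,0⟩⟩⟩,⟨84934656,⟨⟨12478912,0⟩,⟨0,1096337536⟩⟩⟩,⟨150994944,⟨⟨2134464,0⟩,⟨617508096,0⟩⟩⟩,⟨251920384,⟨⟨3077952,0⟩,⟨0,561964608⟩⟩⟩,⟨419430400,⟨⟨0,980352⟩,⟨176915968,0⟩⟩⟩,⟨764411904,⟨⟨121152,0⟩,⟨0,26808064⟩⟩⟩]⟩,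
    ⟨⟨⟨2693918,0⟩,⟨35696882,0⟩⟩,⟨⟨94933525,0⟩,⟨1092112767,0⟩⟩,[⟨0,⟨⟨62818240,0⟩,⟨0,2492004416⟩⟩⟩,⟨6553600,⟨⟨0,284915456⟩,⟨0,1954346752⟩⟩⟩,⟨16777216,⟨⟨233052864,0⟩,⟨7535455232,0⟩⟩⟩,⟨44302336,⟨⟨0,18866112⟩,⟨0,4574435328⟩⟩⟩,⟨84934656,⟨⟨14679360,0⟩,⟨1928124032,0⟩⟩⟩,⟨150994944,⟨⟨0,9710400⟩,⟨0,652857088⟩⟩⟩,⟨251920384,⟨⟨4782080,0⟩,⟨57488832,0⟩⟩⟩,⟨419430400,⟨⟨0,2340608⟩,⟨257795648,0⟩⟩⟩,⟨764411904,⟨⟨500032,0⟩,⟨0,105220160⟩⟩⟩]⟩⟩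

end Vale.Agent.P237.All.Transport.Small.Large
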