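import Vale.Agent.P237.All.Small.Large.Chunk

/-!
P237, every dimension, excess `k ≤ .0134`: the constants of the cell, checked by the kernel
(`notes/P237h3/large`).
-/

noncomputable section

namespace Vale.Agent.P237.All.Transport.Small.Large

/-- The constants of the cell. -/
def cellB : Cell :=
  ⟨184549376,224815,486539,50298880,⟨⟨326132,0⟩,⟨43151000,0⟩⟩,⟨⟨19381040,0⟩,⟨786213896,0⟩⟩,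
    ⟨⟨⟨0,3615155⟩,⟨385490092,0⟩⟩,⟨⟨72588966,0⟩,⟨0,4520956072⟩⟩,[⟨0,⟨⟨0,223204288⟩,⟨13284162112,0⟩⟩⟩,⟨6553600,⟨⟨236403072,0⟩,⟨0,13778248512⟩⟩⟩,⟨16777216,⟨⟨0,7392512⟩,⟨753175168,0⟩⟩⟩,⟨44302336,⟨⟨0,21158080⟩,⟨1178298240,0⟩⟩⟩,⟨84934656,⟨⟨41411776,0⟩,⟨0,3040607104⟩⟩⟩,⟨150994944,⟨⟨0,42151296⟩,⟨1832144640,0⟩⟩⟩,⟨251920384,⟨⟨18935744,0⟩,⟨0,162594624⟩⟩⟩,⟨419430400,⟨⟨0,2844416⟩,⟨0,66331520⟩⟩⟩,⟨764411904,⟨⟨0,0⟩,⟨1600,0⟩⟩⟩]⟩,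
    ⟨⟨⟨54755800,0⟩,⟨0,1705655665⟩⟩,⟨⟨217785073,0⟩,⟨10036969028,0⟩⟩,[⟨0,⟨⟨0,1069618624⟩,⟨0,28131391552⟩⟩⟩,⟨6553600,⟨⟨1429586432,0⟩,⟨19918918464,0⟩⟩⟩,⟨16777216,⟨⟨0,259441024⟩,⟨10290674816,0⟩⟩⟩,⟨44302336,⟨⟨0,212006784⟩,⟨936068672,0⟩⟩⟩,⟨84934656,⟨⟨130537984,0⟩,⟨0,4256165760⟩⟩⟩,⟨150994944,⟨⟨0,17101632⟩,⟨1252970944,0⟩⟩⟩,⟨251920384,⟨⟨0,2015040⟩,⟨0,24107904⟩⟩⟩,⟨419430400,⟨⟨35328,0⟩,⟨22761280,0⟩⟩⟩,⟨764411904,⟨⟨23360,0⟩,⟨0,9728960⟩⟩⟩]⟩,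
    ⟨⟨⟨0,8400688⟩,⟨832342852,0⟩⟩,⟨⟨0,69372085⟩,⟨0,113573913⟩⟩,[⟨0,⟨⟨741049280,0⟩,⟨12657247168,0⟩⟩⟩,⟨6553600,⟨⟨0,1431960896⟩,⟨0,21118621888⟩⟩⟩,⟨16777216,⟨⟨779258112,0⟩,⟨9657068096,0⟩⟩⟩,⟨44302336,⟨⟨0,136272128⟩,⟨0,3442307648⟩⟩⟩,⟨84934656,⟨⟨154498752,0⟩,⟨5222072192,0⟩⟩⟩,⟨150994944,⟨⟨0,160349440⟩,⟨0,5753757952⟩⟩⟩,⟨251920384,⟨⟨69937920,0⟩,⟨3560442816,0⟩⟩⟩,⟨419430400,⟨⟨0,20317056⟩,⟨0,733852928⟩⟩⟩,⟨764411904,⟨⟨4155456,0⟩,⟨0,48289856⟩⟩⟩]⟩⟩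

end Vale.Agent.P237.All.Transport.Small.Large
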