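import Vale.Agent.P237.All.Small.Large.Chunk

/-!
P237, every dimension, excess `k ≤ .0134`: the constants of the cell, checked by the kernel
(`notes/P237h3/large`).
-/

noncomputable section

namespace Vale.Agent.P237.All.Transport.Small.Large

/-- The constants of the cell. -/
def cellC : Cell :=
  ⟨184549376,224815,419430,59146240,⟨⟨257446,0⟩,⟨48914812,0⟩⟩,⟨⟨26231177,0⟩,⟨488032436,0⟩⟩,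
    ⟨⟨⟨0,27885411⟩,⟨1870659584,0⟩⟩,⟨⟨132205971,0⟩,⟨0,8241471297⟩⟩,[⟨0,⟨⟨0,317206528⟩,⟨19156520448,0⟩⟩⟩,⟨6553600,⟨⟨294121344,0⟩,⟨0,17285607872⟩⟩⟩,⟨16777216,⟨⟨42454784,0⟩,⟨0,2535783744⟩⟩⟩,⟨44302336,⟨⟨0,17049600⟩,⟨1304301760,0⟩⟩⟩,⟨84934656,⟨⟨0,787392⟩,⟨0,951569920⟩⟩⟩,⟨150994944,⟨⟨0,15147392⟩,⟨413538240,0⟩⟩⟩,⟨251920384,⟨⟨18525760,0⟩,⟨0,150834752⟩⟩⟩,⟨419430400,⟨⟨0,5144064⟩,⟨62722560,0⟩⟩⟩,⟨764411904,⟨⟨233088,0⟩,⟨0,13286720⟩⟩⟩]⟩,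
    ⟨⟨⟨41701448,0⟩,⟨0,876693422⟩⟩,⟨⟨14061858,0⟩,⟨3491506253,0⟩⟩,[⟨0,⟨⟨0,454868800⟩,⟨697932160,0⟩⟩⟩,⟨6553600,⟨⟨591806720,0⟩,⟨0,9606960832⟩⟩⟩,⟨16777216,⟨⟨0,21345024⟩,⟨11116335040,0⟩⟩⟩,⟨44302336,⟨⟨0,181790784⟩,⟨0,1705245440⟩⟩⟩,⟨84934656,⟨⟨85672704,0⟩,⟨0,1863326976⟩⟩⟩,⟨150994944,⟨⟨0,23657024⟩,⟨1700576832,0⟩⟩⟩,⟨251920384,⟨⟨7486400,0⟩,⟨0,530270464⟩⟩⟩,⟨419430400,⟨⟨0,4941184⟩,⟨290798912,0⟩⟩⟩,⟨764411904,⟨⟨1636992,0⟩,⟨0,99839232⟩⟩⟩]⟩,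
    ⟨⟨⟨7259837,0⟩,⟨0,68895⟩⟩,⟨⟨0,4667864⟩,⟨109211278,0⟩⟩,[⟨0,⟨⟨276733312,0⟩,⟨3350954944,0⟩⟩⟩,⟨6553600,⟨⟨0,612566784⟩,⟨0,597770752⟩⟩⟩,⟨16777216,⟨⟨535150656,0⟩,⟨37061760,0⟩⟩⟩,⟨44302336,⟨⟨0,400661056⟩,⟨0,9373807360⟩⟩⟩,⟨84934656,⟨⟨293118976,0⟩,⟨8886908032,0⟩⟩⟩,⟨150994944,⟨⟨0,87765696⟩,⟨0,4446911808⟩⟩⟩,⟨251920384,⟨⟨3687232,0⟩,⟨2438550144,0⟩⟩⟩,⟨419430400,⟨⟨0,17446784⟩,⟨150054912,0⟩⟩⟩,⟨764411904,⟨⟨9750144,0⟩,⟨0,445039872⟩⟩⟩]⟩⟩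

end Vale.Agent.P237.All.Transport.Small.Large
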