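import Vale.Agent.P237.All.Small.Large.Chunk

/-!
P237, every dimension, excess `k ≤ .0134`: the constants of the cell, checked by the kernel
(`notes/P237h3/large`).
-/

noncomputable section

namespace Vale.Agent.P237.All.Transport.Small.Large

/-- The constants of the cell. -/
def cellD : Cell :=
  ⟨184549376,224815,385876,70979584,⟨⟨703720,0⟩,⟨21182074,0⟩⟩,⟨⟨32321307,0⟩,⟨157546447,0⟩⟩,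
    ⟨⟨⟨3474561,0⟩,⟨82406330,0⟩⟩,⟨⟨17808561,0⟩,⟨0,1897334859⟩⟩,[⟨0,⟨⟨0,79197120⟩,⟨6219177024,0⟩⟩⟩,⟨6553600,⟨⟨100539072,0⟩,⟨0,6990222784⟩⟩⟩,⟨16777216,⟨⟨0,9030912⟩,⟨685652096,0⟩⟩⟩,⟨44302336,⟨⟨0,10126848⟩,⟨165201408,0⟩⟩⟩,⟨84934656,⟨⟨429824,0⟩,⟨0,351911808⟩⟩⟩,⟨150994944,⟨⟨0,13467456⟩,⟨452443904,0⟩⟩⟩,⟨251920384,⟨⟨14796160,0⟩,⟨0,254655744⟩⟩⟩,⟨419430400,⟨⟨0,4416064⟩,⟨104136704,0⟩⟩⟩,⟨764411904,⟨⟨473344,0⟩,⟨0,29820800⟩⟩⟩]⟩,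
    ⟨⟨⟨4424487,0⟩,⟨373376942,0⟩⟩,⟨⟨15999160,0⟩,⟨6904411618,0⟩⟩,[⟨0,⟨⟨0,170372800⟩,⟨0,21650071040⟩⟩⟩,⟨6553600,⟨⟨284495040,0⟩,⟨10714010560,0⟩⟩⟩,⟨16777216,⟨⟨0,60305280⟩,⟨16620756480,0⟩⟩⟩,⟨44302336,⟨⟨0,137252224⟩,⟨0,3273522112⟩⟩⟩,⟨84934656,⟨⟨111089664,0⟩,⟨0,4550497984⟩⟩⟩,⟨150994944,⟨⟨0,36382976⟩,⟨2804653568,0⟩⟩⟩,⟨251920384,⟨⟨15372480,0⟩,⟨0,1124039040⟩⟩⟩,⟨419430400,⟨⟨0,8002240⟩,⟨558499840,0⟩⟩⟩,⟨764411904,⟨⟨1358336,0⟩,⟨0,99790272⟩⟩⟩]⟩,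
    ⟨⟨⟨0,8929170⟩,⟨1010995036,0⟩⟩,⟨⟨42888414,0⟩,⟨0,3308130661⟩⟩,[⟨0,⟨⟨303491008,0⟩,⟨10144175872,0⟩⟩⟩,⟨6553600,⟨⟨0,754330496⟩,⟨0,10080577280⟩⟩⟩,⟨16777216,⟨⟨703472512,0⟩,⟨3542767808,0⟩⟩⟩,⟨44302336,⟨⟨0,474821376⟩,⟨0,10735873536⟩⟩⟩,⟨84934656,⟨⟨280583616,0⟩,⟨9499792192,0⟩⟩⟩,⟨150994944,⟨⟨0,20582784⟩,⟨0,4334925824⟩⟩⟩,⟨251920384,⟨⟨0,41326080⟩,⟨2144101824,0⟩⟩⟩,⟨419430400,⟨⟨0,5502272⟩,⟨372545024,0⟩⟩⟩,⟨764411904,⟨⟨9015872,0⟩,⟨0,552006080⟩⟩⟩]⟩⟩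

end Vale.Agent.P237.All.Transport.Small.Large
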