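import Vale.Agent.P237.All.Small.Large.Chunk

/-!
P237, every dimension, excess `k ≤ .0134`: the constants of the cell, checked by the kernel
(`notes/P237h3/large`).
-/

noncomputable section

namespace Vale.Agent.P237.All.Transport.Small.Large

/-- The constants of the cell. -/
def cellE : Cell :=
  ⟨184549376,224815,402653,90312704,⟨⟨227214,0⟩,⟨53670314,0⟩⟩,⟨⟨30658685,0⟩,⟨113237819,0⟩⟩,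
    ⟨⟨⟨7374761,0⟩,⟨0,364879282⟩⟩,⟨⟨0,9474184⟩,⟨0,62987141⟩⟩,[⟨0,⟨⟨0,1748480⟩,⟨2092394240,0⟩⟩⟩,⟨6553600,⟨⟨17641920,0⟩,⟨0,3330308352⟩⟩⟩,⟨16777216,⟨⟨0,11397888⟩,⟨1237914048,0⟩⟩⟩,⟨44302336,⟨⟨3595712,0⟩,⟨64,0⟩⟩⟩,⟨84934656,⟨⟨0,8490048⟩,⟨0,0⟩⟩⟩,⟨150994944,⟨⟨0,9833856⟩,⟨133114688,0⟩⟩⟩,⟨251920384,⟨⟨14451840,0⟩,⟨0,258288768⟩⟩⟩,⟨419430400,⟨⟨0,4486656⟩,⟨147010752,0⟩⟩⟩,⟨764411904,⟨⟨267456,0⟩,⟨0,21836672⟩⟩⟩]⟩,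
    ⟨⟨⟨16832581,0⟩,⟨740235936,0⟩⟩,⟨⟨23374906,0⟩,⟨2970322702,0⟩⟩,[⟨0,⟨⟨0,303228992⟩,⟨0,8968857984⟩⟩⟩,⟨6553600,⟨⟨422744704,0⟩,⟨3878702272,0⟩⟩⟩,⟨16777216,⟨⟨0,58437184⟩,⟨8539474624,0⟩⟩⟩,⟨44302336,⟨⟨0,96454144⟩,⟨0,3371524608⟩⟩⟩,⟨84934656,⟨⟨38610624,0⟩,⟨0,1044694528⟩⟩⟩,⟨150994944,⟨⟨0,66688⟩,⟨926572160,0⟩⟩⟩,⟨251920384,⟨⟨0,4320512⟩,⟨123900096,0⟩⟩⟩,⟨419430400,⟨⟨540352,0⟩,⟨0,34800832⟩⟩⟩,⟨764411904,⟨⟨611840,0⟩,⟨0,48771200⟩⟩⟩]⟩,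
    ⟨⟨⟨11606478,0⟩,⟨0,360852750⟩⟩,⟨⟨0,54331093⟩,⟨3020234151,0⟩⟩,[⟨0,⟨⟨424450112,0⟩,⟨2197949504,0⟩⟩⟩,⟨6553600,⟨⟨0,834773632⟩,⟨0,4344882496⟩⟩⟩,⟨16777216,⟨⟨483601792,0⟩,⟨0,2244773312⟩⟩⟩,⟨44302336,⟨⟨0,114123392⟩,⟨5629141760,0⟩⟩⟩,⟨84934656,⟨⟨74230336,0⟩,⟨0,648903488⟩⟩⟩,⟨150994944,⟨⟨0,3290880⟩,⟨0,3088982464⟩⟩⟩,⟨251920384,⟨⟨0,25693504⟩,⟨2327122688,0⟩⟩⟩,⟨419430400,⟨⟨0,16031680⟩,⟨955951808,0⟩⟩⟩,⟨764411904,⟨⟨11630848,0⟩,⟨0,782624000⟩⟩⟩]⟩⟩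

end Vale.Agent.P237.All.Transport.Small.Large
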