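import Vale.Agent.P237.All.Small.Large.Chunk

/-!
P237, every dimension, excess `k ≤ .0134`: the constants of the cell, checked by the kernel
(`notes/P237h3/large`).
-/

noncomputable section

namespace Vale.Agent.P237.All.Transport.Small.Large

/-- The constants of the cell. -/
def cellF : Cell :=
  ⟨167772160,224815,301990,115404800,⟨⟨484207,0⟩,⟨43366587,0⟩⟩,⟨⟨47383891,0⟩,⟨0,1066275963⟩⟩,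
    ⟨⟨⟨0,20565511⟩,⟨2164009206,0⟩⟩,⟨⟨96870225,0⟩,⟨0,9180492803⟩⟩,[⟨0,⟨⟨0,241914368⟩,⟨21818133248,0⟩⟩⟩,⟨6553600,⟨⟨246036608,0⟩,⟨0,21293954496⟩⟩⟩,⟨16777216,⟨⟨0,392320⟩,⟨120685056,0⟩⟩⟩,⟨44302336,⟨⟨13594304,0⟩,⟨0,1154953536⟩⟩⟩,⟨84934656,⟨⟨0,4409920⟩,⟨0,324162944⟩⟩⟩,⟨150994944,⟨⟨0,45456512⟩,⟨1922441216,0⟩⟩⟩,⟨251920384,⟨⟨42359296,0⟩,⟨0,1414209472⟩⟩⟩,⟨419430400,⟨⟨0,10112128⟩,⟨350804288,0⟩⟩⟩,⟨764411904,⟨⟨295040,0⟩,⟨0,24783360⟩⟩⟩]⟩,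
    ⟨⟨⟨44608940,0⟩,⟨0,2266350223⟩⟩,⟨⟨96452076,0⟩,⟨2351494424,0⟩⟩,[⟨0,⟨⟨0,706565056⟩,⟨11521249792,0⟩⟩⟩,⟨6553600,⟨⟨914515840,0⟩,⟨0,23153714368⟩⟩⟩,⟨16777216,⟨⟨0,119383424⟩,⟨11535076160,0⟩⟩⟩,⟨44302336,⟨⟨0,125685504⟩,⟨411007616,0⟩⟩⟩,⟨84934656,⟨⟨35313216,0⟩,⟨0,486811200⟩⟩⟩,⟨150994944,⟨⟨0,132992⟩,⟨484416768,0⟩⟩⟩,⟨251920384,⟨⟨4659328,0⟩,⟨0,583004096⟩⟩⟩,⟨419430400,⟨⟨0,3255744⟩,⟨328195648,0⟩⟩⟩,⟨764411904,⟨⟨534336,0⟩,⟨0,56416320⟩⟩⟩]⟩,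
    ⟨⟨⟨0,8019677⟩,⟨1211482767,0⟩⟩,⟨⟨12297044,0⟩,⟨6012618186,0⟩⟩,[⟨0,⟨⟨0,45740544⟩,⟨1584628224,0⟩⟩⟩,⟨6553600,⟨⟨0,73865152⟩,⟨0,1189271040⟩⟩⟩,⟨16777216,⟨⟨310223488,0⟩,⟨0,2837301696⟩⟩⟩,⟨44302336,⟨⟨0,362083968⟩,⟨0,121908480⟩⟩⟩,⟨84934656,⟨⟨188527616,0⟩,⟨2610147456,0⟩⟩⟩,⟨150994944,⟨⟨59661760,0⟩,⟨0,1971499584⟩⟩⟩,⟨251920384,⟨⟨0,97157568⟩,⟨1568299392,0⟩⟩⟩,⟨419430400,⟨⟨13445888,0⟩,⟨1247148672,0⟩⟩⟩,⟨764411904,⟨⟨6988480,0⟩,⟨0,890242944⟩⟩⟩]⟩⟩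

end Vale.Agent.P237.All.Transport.Small.Large
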