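import Vale.Agent.P237.All.Small.Large.Check

/-!
P237, every dimension, excess `k ≤ .0134`: the tests for the part beyond the last segment, where the
coefficients are constant.  Everything is multiplied by `S = 1 - u`, `u = X τ`.  A slice away from
`τ = 0` has it absolutely on `u ≥ u₁`; next to `τ = 0` (`τ ≤ 1/4096`, `X ≥ 144`) it is the tail form
while `k τ ^ (5/2) < exp (-3X/8)` and absolute beyond.
-/

noncomputable section

namespace Vale.Agent.P237.All.Transport.Small.Large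

open Mid (Sg AF Par Spl Knot)

/-- The interval `[a, a + 2 h]` of `u` as a form in the first parameter. -/
def uAF (a h : ℕ) : AF := ⟨Sg.ofN (Nat.add a h), Sg.ofN h, ⟨0, 0⟩, 0⟩

/-- Passes on the constant value of a spline beyond `N`. -/
def flatEnd (P : Spl) (t : AF) (N : ℕ) (k : AF → Bool) : Bool :=
  P.kn.all (fun K => Nat.ble K.tau N) &&
  knC P.kn N fun a b A =>
    Nat.beq (Nat.add (Nat.add ((P.v1.c.smul 16777216).add b.c).norm.abs'
      ((P.v1.t.smul 16777216).add b.t).norm.abs') (Nat.add A.c.abs' A.t.abs')) 0 &&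
    (gafR (((P.v0.c.smul 562949953421312).add (P.v1.c.smul (Nat.mul 33554432 N))).add a.c)
      (((P.v0.t.smul 562949953421312).add (P.v1.t.smul (Nat.mul 33554432 N))).add a.t)
      562949953421312 t).force k

/-- The forms of a point beyond the last knot, with `S = 1 - u`. -/
structure FarV where
  u : AF
  Sv : AF
  R : AF
  vp : AF
  vm : AF
  /-- `kp / S` ahead. -/
  kpp : AF
  /-- `kp / S` behind. -/
  kpm : AF
  kw0 : AF
  kwp : AF
  kwm : AF
  /-- `L S` without its part in `X`. -/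
  A0 : AF
  /-- `-L S` per `X`. -/
  A1 : AF
  Cp : AF
  Cm : AF

/-- Passes the forms on; `zz` bounds `y θ`. -/
def withFarV (c : Cell) (e : Env) (N : ℕ) (u zz : AF) (k : FarV → Bool) : Bool :=
  flatEnd c.R e.t N fun R =>
  flatEnd c.Vp e.t N fun vp =>
  flatEnd c.Vm e.t N fun vm =>
  (one.sub u).force fun Sv =>
  (one.sub e.t).force fun ot =>
  (e.gc.mul e.i1).force fun kpp =>
  ((e.gc.sub (e.gcb.mul e.Kt2)).mul e.i1).force fun kpm =>
  ((e.e0.add ((e.t.mul e.i1).mul e.K0)).add (u.mul e.Ll)).force fun lr =>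
  ((lr.mul e.i2).add (e.gc.mul (Sv.mul e.i1))).force fun kw0 =>
  (kw0.add (e.cth.mul zz)).force fun kwp =>
  (kw0.sub (e.cth.mul (e.Kt2.mul (Sv.mul e.i1)))).force fun kwm =>
  ((((e.T1.mul e.i1).sub ((e.e0.mul (e.t.mul e.i1)).mul e.i2)).sub (e.K0.mul e.i2)).sub
    (ot.mul R)).force fun ts =>
  ((((e.Ll.mul e.i2).scale 2 1).mul Sv).add ts).force fun A0 =>
  (((e.e0.add (e.t.mul e.T1)).mul e.i1).add (ot.mul (e.Ll.mul e.i2))).force fun A1 =>
  ((u.mul e.X0c).mul e.i2).force fun cx =>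
  ((vp.scale 2 1).sub cx).force fun Cp =>
  ((vm.scale 2 1).sub cx).force fun Cm =>
  nn R && k ⟨u, Sv, R, vp, vm, kpp, kpm, kw0, kwp, kwm, A0, A1, Cp, Cm⟩

/-- An upper bound on the weight of the excess at both ends. -/
def kmAF (a b : AF) : AF := cst (Mid.nmax (posHi a) (posHi b))

/-- Whether `zk` is a bound on `-log (5 k)` at every `p` of the slice from `lo`. -/
def zkOK (c : Cell) (lo zk : ℕ) : Bool :=
  Nat.ble (Nat.mul (Nat.mul 25 (Nat.sub 16777216 lo)) (16777216 * 16777216))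
    (Nat.mul 16 (Nat.mul lo (Nat.mul zk zk))) || (Nat.blt 0 c.zk && Nat.ble c.zk zk)

/-- The absolute bound of the bracket times `τ S`, both sides, `u ≥ u₁`. -/
def withFarF (e : Env) (hi u1 : ℕ) (v : FarV) (k : AF → Bool) : Bool :=
  (cst (Nat.add (Nat.mul 4 hi) 1048576)).force fun sr =>
  (cst u1).force fun y1 =>
  withInv (y1.mul (one.add y1)) fun iy =>
  (v.Sv.mul iy).force fun thp =>
  withInv y1 fun iu =>
  ((e.Kt2.mul (v.Sv.mul e.i1)).mul iu).force fun thm =>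
  withInv (v.kpp.scale 2 1) fun ikp =>
  withInv (v.kpm.scale 2 1) fun ikm =>
  (kmAF v.kw0 v.kwp).force fun kp =>
  (kmAF v.kw0 v.kwm).force fun km =>
  ((e.t.mul v.A0).sub (v.u.mul v.A1)).force fun Lt =>
  (((v.u.mul (e.GB.mul v.Sv))).sub ((e.t.mul (v.Sv)).mul v.vp)).force fun qp0 =>
  (qp0.sub (((one.sub e.t).mul v.u).mul v.vp)).force fun Qp =>
  ((((v.u.mul (e.GB.mul v.Sv))).sub ((e.t.mul (v.Sv)).mul v.vm)).sub
    (((one.sub e.t).mul v.u).mul v.vm)).force fun Qm =>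
  (((((sr.scale 19 20).mul (((e.t.mul v.R).add kp).add ((cst (absHi v.Cp)).mul thp))).add
    (e.t.mul ((kp.mul kp).mul ikp))).add ((cst (posHi Lt)).mul thp)).add
      ((cst (posHi Qp)).mul (thp.mul thp))).force fun Fp =>
  ((((e.t.mul (((((e.t.mul v.R).mul e.eb).add (km.mul e.eb)).add ((km.mul km).mul ikm)).add
    ((cst (absHi v.Cm)).mul thm)))).add ((cst (posHi Lt.neg')).mul thm)).add
      ((cst (posHi Qm)).mul (thm.mul thm))).force fun Fm =>
  nn (one.sub e.eb) && k (Fp.add Fm)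

/-- Beyond `x₁` on a slice away from `τ = 0`. -/
def farOK (c : Cell) (tc hh x1 zk : ℕ) : Bool :=
  let lo := Nat.sub tc hh
  let hi := Nat.add tc hh
  let N := Nat.div (Nat.mul x1 x1) 16777216
  let u1 := Nat.mul 2 (Nat.div (Nat.div (Nat.mul N lo) 16777216) 2)
  Nat.blt 0 lo && Nat.blt u1 16777216 && Nat.ble (25 * 16777216) N && Nat.ble (Nat.mul 3 hi) 16777216 &&
  zkOK c lo zk &&
  withEnv c tc hh fun e =>
  (uAF u1 (Nat.div (Nat.sub 16777216 u1) 2)).force fun u =>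
  withFarV c e N u ((one.sub u).scale 1 2) fun v =>
  withFarF e hi u1 v fun F =>
  Mid.forceN (Nat.div (Nat.mul u1 u1) 16777216) fun w2 =>
  Mid.forceN (Nat.div (Nat.mul w2 u1) 16777216) fun w3 =>
  Mid.forceN (Nat.div (Nat.mul w2 w2) 16777216) fun w4 =>
  Mid.forceN (Nat.add (Nat.add u1 (Nat.div w2 2)) (Nat.add (Nat.div w3 3) (Nat.div w4 4))) fun ser =>
  Mid.forceN (Nat.div (Nat.mul ser (Nat.sub 16777216 (Nat.mul 3 hi))) (Nat.mul 2 hi)) fun z =>
  Mid.forceN (posHi ((F.mul (one.add (cst hi))).scale 5 1)) fun L =>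
  Nat.ble zk z &&
  Nat.ble (Nat.mul L (16777216 * 16777216 * 16777216 * 16777216 * 16777216))
    (Nat.mul (Nat.mul (Mid.expLo (Nat.sub z zk)) c.dl) (Nat.mul (Nat.mul lo lo) (Nat.mul lo lo)))

/-- The tail form next to `τ = 0`: `u ≤ 2 uh / 2 ^ 24`, `W = 21/10`, `X ≥ 144`. -/
def capZoneOK (c : Cell) (e : Env) (N kap uh : ℕ) : Bool :=
  (uAF 0 uh).force fun u =>
  withFarV c e N u (one.scale 1 4) fun v =>
  (one.scale 21 10).force fun W =>
  withInv W fun iW =>
  withRho W fun rho =>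
  (one.add e.eb).force fun Wm =>
  withInv Wm fun iWm =>
  withRho Wm fun rhom =>
  withInv v.Sv fun iS =>
  (cst kap).force fun kk =>
  withInv kk fun ik =>
  (e.t.mul v.R).force fun tM =>
  (v.kpp.mul v.Sv).force fun kp =>
  (v.kpm.mul v.Sv).force fun kpm =>
  (one.sub e.t).force fun ot =>
  (one.sub (e.t.scale 2 1)).force fun aS =>
  (aS.add ((e.t.scale 11 10).scale 2 1)).force fun alS =>
  ((ot.mul v.vp).sub (e.GB.mul v.Sv)).force fun B1 =>
  (((((v.u.scale 1 2).mul alS).mul v.R).sub (v.vp.mul v.Sv)).add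
    (((v.Cp.mul v.Cp).mul (v.Sv.mul ik)).scale 1 4)).force fun B0 =>
  (((((aS.mul v.u).mul ((one.scale 1 2).add (v.u.mul iS))).mul v.R).sub (v.vm.mul v.Sv)).add
    (((v.Cm.mul v.Cm).mul (v.Sv.mul ik)).scale 1 4)).force fun m0 =>
  ((e.GB.mul v.Sv).sub (ot.mul v.vm)).force fun m1 =>
  (((v.R.mul e.eL).add (e.i1.mul (cst (posHi (v.A0.add (aS.mul v.R)).neg')))).add
    (((((cst c.K).mul (e.i1.mul e.i1)).mul ((cst (posHi m1)).add (cst (posHi m0))))).scale 1 144)).force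
      fun c0 =>
  nn kp && nn kpm &&
    kapOK e kk kp v.kw0 iW rho tM (cst 0) (cst 0) && kapOK e kk kp v.kwp iW rho tM (cst 0) (cst 0) &&
    kapOK e kk kpm v.kw0 iWm rhom tM tM (cst 0) && kapOK e kk kpm v.kwm iWm rhom tM tM (cst 0) &&
    nn v.A1 && np ((v.A0.add (alS.mul v.R)).sub (v.A1.scale 144 1)) &&
    nn B1 && np (B0.sub (B1.scale 144 1)) &&
    Nat.ble (Nat.mul (Nat.mul 145 (posHi (c0.add ((e.i1.mul v.A1).scale 144 1)))) 16777216)
      (Nat.mul c.dl (Mid.expLo 1207664640))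

/-- Absolutely next to `τ = 0`: `fac k τ ^ (5/2) ≥ exp (-3X/8)`, `X ≥ 144`. -/
def crudeZoneOK (c : Cell) (e : Env) (N fac : ℕ) : Bool :=
  (uAF 0 8388608).force fun u =>
  withFarV c e N u (one.scale 1 4) fun v =>
  withInv (v.kpp.scale 2 1) fun ikp =>
  withInv (v.kpm.scale 2 1) fun ikm =>
  (kmAF v.kw0 v.kwp).force fun kp =>
  (kmAF v.kw0 v.kwm).force fun km =>
  ((e.i1.mul e.t).mul (cst c.K)).force fun Kt =>
  (Kt.scale 1 144).force fun thm =>
  ((one.sub e.t).mul v.vp).force fun b1 =>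
  ((e.GB.mul v.Sv).sub ((one.sub e.t).mul v.vm)).force fun m1 =>
  (((kp.add (v.R.scale 1 4096)).scale 19 1280).add
    ((((kp.mul kp).mul ikp).add (cst (posHi (v.A0.sub (v.A1.scale 144 1))))).scale 1 768)).force fun Fa =>
  (Fa.add ((cst (absHi v.Cp)).scale 19 240)).force fun Fp =>
  ((((((e.t.mul v.R).mul e.eb).add (km.mul e.eb)).add ((km.mul km).mul ikm)).add
    ((cst (absHi v.Cm)).mul thm)).add ((((cst (posHi v.A1)).mul Kt).add
      ((cst (posHi v.A0.neg')).mul (e.Kt2.mul e.i1))).add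
        ((((cst (posHi m1)).add (cst (posHi (v.vm.mul v.Sv).neg'))).mul (Kt.mul Kt)).scale 1 144))).force
          fun Fm =>
  nn (one.sub e.eb) && nn v.A1 && nn v.vp && nn (b1.sub (e.GB.mul v.Sv)) &&
    Nat.ble (Nat.mul (Nat.mul (Nat.mul 1740 fac) (posHi (Fp.add (Fm.scale 1 768)))) 16777216)
      (Nat.mul c.dl (Mid.expLo 301105152))

/-- Beyond `x₁ = 12` on a slice next to `τ = 0`. -/
def farBOK (c : Cell) (kap : ℕ) : Bool :=
  Nat.ble c.K 268435 &&
    withEnv c 2048 2048 fun e =>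
      capZoneOK c e (144 * 16777216) kap 699051 && crudeZoneOK c e (144 * 16777216) 1

end Vale.Agent.P237.All.Transport.Small.Large
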