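import Vale.Agent.P237.All.Small.Large.Coef
import Vale.Agent.P237.All.Small.Piece
import Vale.Agent.P237.All.Mid.Region

/-!
P237, every dimension, excess `k ≤ .0134`: the density with the potential below the scaled form, the
ridge, and its use with a multiplier on `1 ≤ w ≤ W` and on `w ≤ 1` either side of `y`.
-/

noncomputable section

open Real Set

namespace Vale.Agent.P237.All.Transport.Small.Large

open Mid (XP Pt)

/-- The density with the potential, at the test of the cell. -/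
def total (p : ℕ) (c : Co) (R R' v v' : ℝ → ℝ) (c2 lam y t r : ℝ) : ℝ :=
  density p 0 (c.G / ((p : ℝ) + 1)) (c.D / ((p : ℝ) + 1)) c.b (c.ell p c2) lam c2 y t r +
    (potFY p (c.A p R c2) (c.dA p R') (potW p v) (potdW p v') y t +
      potFT p (c.A p R c2) (potW p v) y t / r ^ p)

/-- The coefficient of `ψ`. -/
def coefL (p : ℕ) (c : Co) (R R' : ℝ → ℝ) (y : ℝ) : ℝ :=
  XP p y * c.L (tau p) (XP p y) (R (XP p y)) (R' (XP p y))

/-- The bound in the scaled variables, at the coefficient `Rσ` of `σ`. -/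
def scaled (p : ℕ) (c : Co) (R R' v v' : ℝ → ℝ) (c2 k qc P Rσ κ σ ψ y : ℝ) : ℝ :=
  semi y ^ (p + 1) * (majZero p (c.G / ((p : ℝ) + 1)) (c.D / ((p : ℝ) + 1)) c2 y +
    k * tau p ^ 3 * (P + quadF Rσ (coefL p c R R' y)
      (c.C (tau p) (XP p y) (v (XP p y))) κ (c.Q (tau p) (XP p y) (v (XP p y)) (v' (XP p y)) qc)
      k σ ψ))

/-- The conditions on the constants. -/
structure Co.Ok (c : Co) (p : ℕ) : Prop where
  hp : 2 ≤ p
  hb : 0 ≤ c.b
  hD : c.D ∈ Icc (0 : ℝ) (1 / 2)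
  hK : (c.G + c.D * c.b ^ 2) * ((p : ℝ) + 4) ≤ ((p : ℝ) + 1) * (c.b * c.gc)

variable {c : Co} {p : ℕ} {R R' v v' : ℝ → ℝ} {c2 lam k y t r σ ψ kp kw κ qc M μ W : ℝ}

theorem tau_pos (p : ℕ) : 0 < tau p := by unfold tau; positivity

theorem Co.Ok.g0 (h : c.Ok p) : 0 ≤ c.G / ((p : ℝ) + 1) :=
  div_nonneg (by unfold Co.G; linarith [h.hD.2]) (by positivity)

theorem Co.Ok.d0 (h : c.Ok p) : 0 ≤ c.D / ((p : ℝ) + 1) := div_nonneg h.hD.1 (by positivity)

theorem Co.Ok.hK2 (h : c.Ok p) : (c.G / ((p : ℝ) + 1) + c.D / ((p : ℝ) + 1) * c.b ^ 2) * ((p : ℝ) + 4) ≤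
    ((p : ℝ) + 1) * (c.b * majC c.b (c.D / ((p : ℝ) + 1))) := by
  have := div_le_div_of_nonneg_right h.hK (show (0 : ℝ) ≤ (p : ℝ) + 1 by positivity)
  refine (le_of_eq (by ring)).trans (this.trans (le_of_eq ?_))
  rw [majC, Co.gc]; ring

/-- The bracket of the majorant is the scaled form. -/
theorem bracket_eq (hp : 1 ≤ p) (hy : y ∈ Ioo (0 : ℝ) 1) (c : Co) (R R' v v' : ℝ → ℝ) (c2 qc κ : ℝ)
    {s θ : ℝ} (hs : s = k * tau p * σ) (hθ : θ = k * tau p * y * ψ) :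
    majLin p (c.G / ((p : ℝ) + 1)) (c.D / ((p : ℝ) + 1)) c.b (c.ell p c2) c2 (c.A p R c2 y)
        (c.dA p R' y - ((p : ℝ) + 1) * y / (1 - y ^ 2) * c.A p R c2 y) (potW p v y / y) y θ s -
        κ * tau p * s ^ 2 +
      ((c.G / ((p : ℝ) + 1) + c.D / ((p : ℝ) + 1) * c.b ^ 2) * ((p : ℝ) + 4) +
        (potdW p v' y / y - potW p v y / y ^ 2 - ((p : ℝ) + 1) * potW p v y / (1 - y ^ 2)) -
        c.b * majC c.b (c.D / ((p : ℝ) + 1)) * qc) * θ ^ 2 =
    k * tau p ^ 3 * quadF (R (XP p y)) (coefL p c R R' y)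
      (c.C (tau p) (XP p y) (v (XP p y))) κ (c.Q (tau p) (XP p y) (v (XP p y)) (v' (XP p y)) qc)
      k σ ψ := by
  have hy0 := hy.1.ne'
  rw [hs, hθ, quadF, coefL, ← le_eq hp hy c R R' c2, ← cross_eq hp hy c v, ← sq_eq hy c v v' qc,
    ← re_eq c p R c2 y]
  simp only [majLin, majRe, majLe, majCross, tau]
  field_simp
  ring

theorem unit_le {p : ℕ} {a x : ℝ} (h : a ≤ x * ((p : ℝ) + 2)) : a * tau p ≤ x := by
  rw [tau, mul_one_div, div_le_iff₀ (by positivity)]; exact h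

theorem le_unit {p : ℕ} {a x : ℝ} (h : x * ((p : ℝ) + 2) ≤ a) : x ≤ a * tau p := by
  rw [tau, mul_one_div, le_div_iff₀ (by positivity)]; exact h

/-- `excess / (s ^ 2 / w)` of the logarithm, at most. -/
def rhoW (w : ℝ) : ℝ := w / (w + 1) - 2 / 3 * (w * (w - 1) / (w + 1) ^ 3)

theorem twS_rho (p : ℕ) (w : ℝ) : twS p w = rhoW w + 1 / (2 * (p : ℝ)) := rfl

/-- The gap of the logarithm on `1 ≤ w ≤ W`. -/
theorem log_gap {w W : ℝ} (hw : 1 ≤ w) (hW : w ≤ W) :
    w - 1 - log w ≤ rhoW W * ((w - 1) ^ 2 / w) := by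
  have h1 := twS_mono 1 hw hW
  rw [twS_rho, twS_rho] at h1
  refine le_trans ?_ (mul_le_mul_of_nonneg_right (show rhoW w ≤ rhoW W by linarith)
    (div_nonneg (sq_nonneg _) (by linarith)))
  have e : rhoW w * ((w - 1) ^ 2 / w) =
      w - 1 - (2 * ((w - 1) / (w + 1)) + 2 / 3 * ((w - 1) / (w + 1)) ^ 3) := by
    have : w ≠ 0 := by linarith
    have : w + 1 ≠ 0 := by linarith
    rw [rhoW]; field_simp; ring
  linarith [logLo_cubic hw]

/-- The gap of the logarithm on `w ≤ 1`. -/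
theorem log_gap_low {w : ℝ} (hw : 0 < w) : w - 1 - log w ≤ (w - 1) ^ 2 / w := by
  have h := Real.one_sub_inv_le_log_of_pos hw
  have e : (w - 1) ^ 2 / w = w - 1 - (1 - w⁻¹) := by field_simp
  linarith

/-! ### The ridge -/

/-- `p log lam`, in units of `k τ`. -/
def lamC (p : ℕ) : ℝ := (p : ℝ) * ((p : ℝ) + 2) / ((p : ℝ) + 1) ^ 2

theorem lamC_eq (p : ℕ) : lamC p = (1 - 2 * tau p) * (1 / (1 - tau p)) * (1 / (1 - tau p)) := by
  rw [lamC, (tau_facts p (y := 0)).1, (tau_facts p (y := 0)).2.1]; field_simp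

theorem ridge_log (h : Pt p k y t r lam) :
    log (r ^ p)⁻¹ ≤ k * tau p * lamC p + (p : ℝ) / 2 * log ((1 - y ^ 2) / (1 - t ^ 2)) := by
  have hsy : 0 < 1 - y ^ 2 := by nlinarith [h.hy.1, h.hy.2]
  have hst : 0 < 1 - t ^ 2 := by nlinarith [h.ht.1, h.ht.2]
  have hl : 0 < lam := lt_of_lt_of_le one_pos h.hlam
  have h1 : log (semi t) ≤ log lam + log (semi y) + log r := by
    have hy' : 0 < semi y := semi_pos ⟨by linarith [h.hy.1], h.hy.2⟩
    have ht' : 0 < semi t := semi_pos ⟨by linarith [h.ht.1], h.ht.2⟩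
    rw [← Real.log_mul hl.ne' hy'.ne', ← Real.log_mul (mul_pos hl hy').ne' h.hr.ne']
    exact Real.log_le_log ht' h.ridge
  have h2 : ((p : ℝ) + 1) * log lam ≤ k / ((p : ℝ) + 1) := by
    have := Real.log_le_log (pow_pos hl _) h.hpow
    rw [Real.log_pow, Real.log_exp] at this
    push_cast at this; exact this
  have h3 : (p : ℝ) * log lam ≤ k * tau p * lamC p := by
    have := mul_le_mul_of_nonneg_left h2 (show (0 : ℝ) ≤ (p : ℝ) / ((p : ℝ) + 1) by positivity)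
    refine le_trans (le_of_eq ?_) (this.trans (le_of_eq ?_))
    · field_simp
    · rw [lamC, tau]; field_simp
  rw [semi, semi, Real.log_sqrt hst.le, Real.log_sqrt hsy.le] at h1
  rw [Real.log_inv, Real.log_pow, Real.log_div hsy.ne' hst.ne']
  have := mul_le_mul_of_nonneg_left h1 (Nat.cast_nonneg p)
  linarith

/-- The bound on the ridge in units of `k τ`: `a` the slope, `b` the curvature. -/
def ridgeB (p : ℕ) (a b k ψ : ℝ) : ℝ := lamC p + a * ψ + k * b * ψ ^ 2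

theorem ridge_ahead (h : Pt p k y t r lam) (hp : 1 ≤ p) (hk : 0 < k) (hθ : t - y = k * tau p * y * ψ)
    (hψ : 0 ≤ ψ) (hW : (r ^ p)⁻¹ ≤ W) (hW1 : 1 ≤ W) :
    log (r ^ p)⁻¹ ≤ k * tau p * ridgeB p
      (XP p y * ((1 - 2 * tau p + 2 * tau p * (W - 1)) / (1 - XP p y * tau p)))
      (XP p y * tau p / (1 - XP p y * tau p) * ((1 - 2 * tau p + 2 * tau p * (W - 1)) / 2)) k ψ := by
  have hp0 : (0 : ℝ) < p := Nat.cast_pos.2 (by omega)
  have hτ := tau_pos p
  obtain ⟨-, e2, -, eX⟩ := tau_facts p (y := y)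
  have hy0 := h.hy.1
  have hS : 0 < 1 - y ^ 2 := by nlinarith [h.hy.2]
  have hst : 0 < 1 - t ^ 2 := by nlinarith [h.ht.1, h.ht.2]
  have hyt : y ≤ t := by linarith [show 0 ≤ k * tau p * y * ψ by positivity]
  set u := (t ^ 2 - y ^ 2) / (1 - y ^ 2) with hu
  have hu0 : 0 ≤ u := div_nonneg (by nlinarith) hS.le
  have hu1 : u < 1 := by rw [hu, div_lt_one hS]; linarith
  set f := 1 + 2 * (W - 1) / p with hf
  have hf0 : 0 ≤ f := by
    have : 0 ≤ 2 * (W - 1) / (p : ℝ) := div_nonneg (by linarith) hp0.le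
    linarith
  have hr := ridge_log h
  have e0 : (1 - y ^ 2) / (1 - t ^ 2) = (1 - u)⁻¹ := by
    rw [hu, one_sub_div hS.ne', inv_div]; congr 1; ring
  rw [e0, Real.log_inv (1 - u)] at hr
  have key : min ((p : ℝ) / 2 * -log (1 - u)) (log W) ≤ (p : ℝ) / 2 * (u * f) := by
    have g0 : 0 < 1 - u := by linarith
    rcases le_or_gt (1 - u)⁻¹ f with hc | hc
    · refine (min_le_left _ _).trans (mul_le_mul_of_nonneg_left ?_ (by linarith))
      have := Real.one_sub_inv_le_log_of_pos g0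
      have e : (1 - u)⁻¹ - 1 = u * (1 - u)⁻¹ := by field_simp; ring
      nlinarith [mul_le_mul_of_nonneg_left hc hu0]
    · refine (min_le_right _ _).trans ?_
      have h1 : log W ≤ W - 1 := Real.log_le_sub_one_of_pos (by linarith)
      have h2 : (f - 1) ≤ u * f := by
        have := mul_lt_mul_of_pos_right hc g0
        rw [inv_mul_cancel₀ g0.ne'] at this
        nlinarith
      have h3 : W - 1 = (p : ℝ) / 2 * (f - 1) := by rw [hf]; field_simp; ring
      rw [h3] at h1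
      exact h1.trans (mul_le_mul_of_nonneg_left h2 (by linarith))
  have hl : log (r ^ p)⁻¹ ≤ k * tau p * lamC p + (p : ℝ) / 2 * (u * f) := by
    have hlam : 0 ≤ k * tau p * lamC p := by unfold lamC; positivity
    have hw : log (r ^ p)⁻¹ ≤ log W := Real.log_le_log (inv_pos.2 (pow_pos h.hr p)) hW
    rcases le_total ((p : ℝ) / 2 * -log (1 - u)) (log W) with hm | hm
    · rw [min_eq_left hm] at key; linarith
    · rw [min_eq_right hm] at key; linarith
  refine hl.trans (le_of_eq ?_)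
  have et : t = y + k * tau p * y * ψ := by linarith
  rw [ridgeB, eX, e2, hu, hf, et]
  simp only [tau, XP]
  field_simp
  ring

theorem ridge_behind (h : Pt p k y t r lam) (hk : 0 < k) (hθ : t - y = k * tau p * y * ψ)
    (hψ : ψ ≤ 0) :
    log (r ^ p)⁻¹ ≤ k * tau p * ridgeB p
      (XP p y * ((1 - 2 * tau p) / (1 - XP p y * tau p)))
      ((1 - 2 * tau p) * (XP p y * tau p / (1 - XP p y * tau p) * (1 / 2) +
        (XP p y * tau p / (1 - XP p y * tau p)) ^ 2)) k ψ := by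
  have hp0 : (0 : ℝ) ≤ p := Nat.cast_nonneg p
  have hτ := tau_pos p
  obtain ⟨-, e2, -, eX⟩ := tau_facts p (y := y)
  have hy0 := h.hy.1
  have hS : 0 < 1 - y ^ 2 := by nlinarith [h.hy.2]
  have hr := ridge_log h
  set a := y ^ 2 / (1 - y ^ 2) with ha
  have ha0 : 0 ≤ a := div_nonneg (sq_nonneg y) hS.le
  set d := k * tau p * ψ with hd
  have hd0 : d ≤ 0 := mul_nonpos_of_nonneg_of_nonpos (by positivity) hψ
  have et : t = y * (1 + d) := by rw [hd]; linarith
  have hd1 : -1 ≤ d := by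
    have h0 : 0 < y * (1 + d) := et ▸ h.ht.1
    nlinarith
  set w := a * (-(2 * d) - d ^ 2) with hw
  have hw0 : 0 ≤ w := mul_nonneg ha0 (by nlinarith)
  have e0 : (1 - y ^ 2) / (1 - t ^ 2) = (1 + w)⁻¹ := by
    rw [hw, ha, div_mul_eq_mul_div, one_add_div hS.ne', inv_div, et]; congr 1; ring
  rw [e0, Real.log_inv (1 + w)] at hr
  have h1 : w - w ^ 2 / 2 ≤ log (1 + w) := by
    refine le_trans ?_ (Real.le_log_one_add_of_nonneg hw0)
    rw [le_div_iff₀ (by linarith)]; nlinarith [pow_nonneg hw0 3]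
  have h2 : w ^ 2 ≤ a ^ 2 * (4 * d ^ 2) := by
    rw [hw, mul_pow]
    refine mul_le_mul_of_nonneg_left ?_ (sq_nonneg a)
    nlinarith [mul_nonneg (mul_nonneg (sq_nonneg d) (neg_nonneg.2 hd0)) (show 0 ≤ 4 + d by linarith)]
  have h3 : (p : ℝ) / 2 * -log (1 + w) ≤
      (p : ℝ) / 2 * (a * (2 * d + d ^ 2) + a ^ 2 * (2 * d ^ 2)) := by
    refine mul_le_mul_of_nonneg_left ?_ (by linarith)
    linarith [show a * (2 * d + d ^ 2) = -w by rw [hw]; ring]
  refine hr.trans ((add_le_add le_rfl h3).trans (le_of_eq ?_))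
  rw [ridgeB, eX, e2, ha, hd]
  simp only [tau, XP]
  field_simp
  ring

/-! ### The majorant with a multiplier -/

/-- What is left of `R σ` after `M` is put on the ridge. -/
theorem mult_ridge {ℓ B e : ℝ} (hkτ : 0 < k * tau p) (hM : 0 ≤ M) (hB : ℓ ≤ k * tau p * B)
    (hgap : k * tau p * σ - ℓ ≤ e) : k * tau p * (M * σ) ≤ k * tau p * (M * B) + M * e := by
  have := mul_le_mul_of_nonneg_left (show k * tau p * σ ≤ k * tau p * B + e by linarith) hM
  linarith

/-- The weight left for the curvature on `1 ≤ w ≤ W`. -/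
def numUp (p : ℕ) (kp kw W : ℝ) : ℝ := kp * (1 + 1 / ((p : ℝ) * W)) - kw * twS p W

/-- The weight left for the curvature on `w ≤ 1`. -/
def numLow (p : ℕ) (kp kw : ℝ) : ℝ :=
  kp * (1 + 1 / (p : ℝ)) - kw * (1 / 2 + 1 / (2 * (p : ℝ)))

variable (h : c.Ok p) (hpt : Pt p k y t r lam) (hk : 0 < k) (hs : (r ^ p)⁻¹ - 1 = k * tau p * σ)
  (hθ : t - y = k * tau p * y * ψ) (hkp : kp ≤ c.kp (tau p) (XP p y) (y * (t - y))) (hkp0 : 0 ≤ kp)
  (hkw : c.kw (tau p) (XP p y) (y * (t - y)) ≤ kw) (hkw0 : 0 ≤ kw)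

include h hpt hk hs hθ hkp hkp0 hkw hkw0 in
/-- The majorant on `1 ≤ w ≤ W`. -/
theorem point_high {B : ℝ} (hr1 : r ≤ 1) (hW : (r ^ p)⁻¹ ≤ W) (hB : log (r ^ p)⁻¹ ≤ k * tau p * B)
    (hM : 0 ≤ M) (hμ : 0 ≤ μ)
    (hκ0 : 0 ≤ κ)
    (hκW : κ * W ≤ numUp p kp kw W - tau p * (M + μ) * rhoW W + tau p * μ / (W - 1) * W)
    (hq : qc ≤ max 0 (1 - ((p : ℝ) + 1) / p * (W - 1))) :
    total p c R R' v v' c2 lam y t r ≤
      scaled p c R R' v v' c2 k qc ((M + μ) * B) (R (XP p y) - M) κ σ ψ y := by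
  have hy := hpt.hy
  have hp1 : 1 ≤ p := (show 1 ≤ 2 by norm_num).trans h.hp
  have hτ := tau_pos p
  have hkτ := mul_pos hk hτ
  have hp0 : (0 : ℝ) < p := Nat.cast_pos.2 hp1
  set w := (r ^ p)⁻¹ with hwd
  have hw : 1 ≤ w := (one_le_inv₀ (pow_pos hpt.hr p)).2 (pow_le_one₀ hpt.hr.le hr1)
  set n := numUp p kp kw W with hn
  have hnw : n ≤ numUp p kp kw w := by
    rw [hn, numUp, numUp]
    exact sub_le_sub (mul_le_mul_of_nonneg_left (add_le_add le_rfl (one_div_le_one_div_of_le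
      (by positivity) (mul_le_mul_of_nonneg_left hW hp0.le))) hkp0)
      (mul_le_mul_of_nonneg_left (twS_mono p hw hW) hkw0)
  set N := numUp p kp kw w * tau p with hN
  have hm :=
    upper_le (ell := c.ell p c2) (lam := lam) (c2 := c2) (A := c.A p R c2 y)
    (LA := c.dA p R' y - ((p : ℝ) + 1) * y / (1 - y ^ 2) * c.A p R c2 y) (U := potW p v y / y)
    (LU := potdW p v' y / y - potW p v y / y ^ 2 - ((p : ℝ) + 1) * potW p v y / (1 - y ^ 2))
    (κ := N / w) (qc := qc) hp1 ⟨by linarith [hy.1], hy.2.le⟩ hpt.hr hr1 h.g0 h.d0 h.hb (le_refl w)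
    (unit_le (hkp.trans (kp_eq c p y t).ge)) (mul_nonneg hkp0 hτ.le)
    (le_unit ((kw_eq hp1 c c2 y t).le.trans hkw)) (mul_nonneg hkw0 hτ.le)
    (le_of_eq (by rw [div_mul_cancel₀ _ (by linarith : w ≠ 0), hN, numUp]; ring))
    (hq.trans (max_le_max le_rfl (sub_le_sub_left (mul_le_mul_of_nonneg_left (sub_le_sub_right hW 1)
      (by positivity)) 1)))
  have hρ : 0 ≤ rhoW W := by
    have h1 : 1 ≤ W := hw.trans hW
    rw [rhoW, sub_nonneg, ← mul_div_assoc, div_le_div_iff₀ (by positivity) (by linarith)]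
    nlinarith [mul_nonneg (show 0 ≤ W by linarith) (sq_nonneg (W + 1))]
  set e := (w - 1) ^ 2 / w with he
  have he0 : 0 ≤ e := by positivity
  have hwe : (w - 1) ^ 2 = e * w := by rw [he, div_mul_cancel₀ _ (by linarith : w ≠ 0)]
  set z := tau p * μ / (W - 1) with hz
  have hW1 : 0 ≤ W - 1 := by linarith [hw.trans hW]
  have hz0 : 0 ≤ z := div_nonneg (mul_nonneg hτ.le hμ) hW1
  have hpen : κ * w + tau p * (M + μ) * rhoW W - z * W ≤ numUp p kp kw w := by
    have := mul_le_mul_of_nonneg_left hW hκ0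
    linarith
  rw [total, Mid.pot_eq hy hpt.hr]
  refine le_trans ?_ (le_of_eq (show semi y ^ (p + 1) *
    (majZero p (c.G / ((p : ℝ) + 1)) (c.D / ((p : ℝ) + 1)) c2 y + k * tau p ^ 3 *
      quadF (R (XP p y)) (coefL p c R R' y) (c.C (tau p) (XP p y) (v (XP p y))) κ
        (c.Q (tau p) (XP p y) (v (XP p y)) (v' (XP p y)) qc) k σ ψ +
      k * tau p ^ 3 * ((M + μ) * B - M * σ)) = _ by rw [scaled, quadF, quadF]; ring))
  rw [← bracket_eq hp1 hy c R R' v v' c2 qc κ hs hθ]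
  have hg1 := mult_ridge (σ := σ) (e := rhoW W * e) hkτ (add_nonneg hM hμ) hB
    (le_of_eq_of_le (by rw [hs]) (log_gap hw hW))
  have hg2 : z * W * e ≤ tau p * μ * (k * tau p * σ) := by
    rw [← hs]
    rcases eq_or_lt_of_le hw with h1 | h1
    · simp [he, ← h1]
    have h2 : 0 < W - 1 := by linarith
    have h3 : (w - 1) * W ≤ w * (W - 1) := by linarith
    rw [hz, he, show tau p * μ / (W - 1) * W * ((w - 1) ^ 2 / w) =
      tau p * μ * (w - 1) * ((w - 1) * W / (w * (W - 1))) by field_simp]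
    exact mul_le_of_le_one_right (mul_nonneg (mul_nonneg hτ.le hμ) (by linarith))
      ((div_le_one (mul_pos (by linarith) h2)).2 h3)
  have hfin : tau p * (κ * (w - 1) ^ 2) - tau p * (numUp p kp kw w * e) ≤
      k * tau p ^ 3 * ((M + μ) * B - M * σ) := by
    have a2 := mul_le_mul_of_nonneg_left (mul_le_mul_of_nonneg_right hpen he0) hτ.le
    have a3 := mul_le_mul_of_nonneg_left hg1 (sq_nonneg (tau p))
    have a4 := mul_le_mul_of_nonneg_left hg2 hτ.le
    rw [hwe]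
    linarith
  refine hm.trans (mul_le_mul_of_nonneg_left ?_ (pow_nonneg (Real.sqrt_nonneg _) _))
  have e' : N / w * (w - 1) ^ 2 = tau p * (numUp p kp kw w * e) := by
    rw [hN, he]; ring
  rw [e']
  linarith

include h hpt hk hs hθ hkp hkp0 hkw hkw0 in
/-- The majorant on `w ≤ 1`: `B` bounds the ridge, `M` is put on it at the weight `τ M`. -/
theorem point_low {B : ℝ} (hr1 : 1 ≤ r) (hq : qc ≤ 1) (hB : log (r ^ p)⁻¹ ≤ k * tau p * B)
    (hM : 0 ≤ M) (hκ : κ ≤ numLow p kp kw - tau p * M) (hn : tau p * M ≤ numLow p kp kw) :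
    total p c R R' v v' c2 lam y t r ≤
      scaled p c R R' v v' c2 k qc (M * B) (R (XP p y) - M) κ σ ψ y := by
  have hy := hpt.hy
  have hp1 : 1 ≤ p := (show 1 ≤ 2 by norm_num).trans h.hp
  have hτ := tau_pos p
  have hkτ := mul_pos hk hτ
  set w := (r ^ p)⁻¹ with hwd
  have hw : w ≤ 1 := inv_le_one_of_one_le₀ (one_le_pow₀ hr1)
  have hw0 : 0 < w := inv_pos.2 (pow_pos hpt.hr p)
  have hm := lower_core (ell := c.ell p c2) (lam := lam) (c2 := c2) (A := c.A p R c2 y)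
    (LA := c.dA p R' y - ((p : ℝ) + 1) * y / (1 - y ^ 2) * c.A p R c2 y) (U := potW p v y / y)
    (LU := potdW p v' y / y - potW p v y / y ^ 2 - ((p : ℝ) + 1) * potW p v y / (1 - y ^ 2))
    (qc := qc) (B := -(numLow p kp kw * tau p * ((w - 1) ^ 2 / w))) h.hp
    ⟨by linarith [hy.1], hy.2.le⟩ hr1 h.d0 h.hb h.hK2
    (unit_le (hkp.trans (kp_eq c p y t).ge)) (mul_nonneg hkp0 hτ.le)
    (le_unit ((kw_eq hp1 c c2 y t).le.trans hkw)) (mul_nonneg hkw0 hτ.le) hq
    (by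
      rw [neg_le_neg_iff]
      refine mul_le_mul_of_nonneg_right ?_ (by positivity)
      have hx := excessLow_le p h.hp (Real.sqrt_nonneg w) (Real.sqrt_le_one.2 hw)
      have := mul_le_mul_of_nonneg_left hx (mul_nonneg hkw0 hτ.le)
      rw [numLow]; linarith)
  rw [total, Mid.pot_eq hy hpt.hr]
  refine le_trans hm (le_trans (mul_le_mul_of_nonneg_left ?_ (pow_nonneg (Real.sqrt_nonneg _) _))
    (le_of_eq (show semi y ^ (p + 1) *
    (majZero p (c.G / ((p : ℝ) + 1)) (c.D / ((p : ℝ) + 1)) c2 y + k * tau p ^ 3 *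
      quadF (R (XP p y)) (coefL p c R R' y) (c.C (tau p) (XP p y) (v (XP p y))) κ
        (c.Q (tau p) (XP p y) (v (XP p y)) (v' (XP p y)) qc) k σ ψ +
      k * tau p ^ 3 * (M * B - M * σ)) = _ by rw [scaled, quadF, quadF]; ring)))
  rw [← bracket_eq hp1 hy c R R' v v' c2 qc κ hs hθ]
  have hg1 := mult_ridge (σ := σ) (e := (w - 1) ^ 2 / w) hkτ hM hB
    (le_of_eq_of_le (by rw [hs]) (log_gap_low hw0))
  have a3 := mul_le_mul_of_nonneg_left hg1 (sq_nonneg (tau p))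
  have he : (w - 1) ^ 2 ≤ (w - 1) ^ 2 / w := by
    rw [le_div_iff₀ hw0]; exact mul_le_of_le_one_right (sq_nonneg _) hw
  have a1 := mul_le_mul_of_nonneg_left he (mul_nonneg (sub_nonneg.2 hn) hτ.le)
  have a2 := mul_le_mul_of_nonneg_right hκ (mul_nonneg hτ.le (sq_nonneg (w - 1)))
  linarith

end Vale.Agent.P237.All.Transport.Small.Large
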