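import Vale.Agent.P237.All.Small.Piece

/-!
P237, every dimension, excess `k ≤ .0134`: the bounds on a quadratic in `ψ` between `0` and the band
that the checker offers, and the interpolation between two values of `k`.
-/

noncomputable section

open Real Set

namespace Vale.Agent.P237.All.Transport.Small.Large

variable {a0 b1 b2 P z A n Z : ℝ}

/-- The value of the quadratic. -/
def qv (a0 b1 b2 z : ℝ) : ℝ := a0 + b1 * z + b2 * z ^ 2

/-- `z` is between `0` and `P`, on either side. -/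
def Btw (P z : ℝ) : Prop := ∃ s ∈ Icc (0 : ℝ) 1, z = s * P

theorem btw_pos (hz : 0 ≤ z) (h : z ≤ P) : Btw P z := by
  rcases eq_or_lt_of_le (hz.trans h) with h0 | h0
  · exact ⟨0, left_mem_Icc.2 zero_le_one, by linarith⟩
  · exact ⟨z / P, ⟨div_nonneg hz h0.le, by rw [div_le_one h0]; exact h⟩, by field_simp⟩

theorem btw_neg (hz : z ≤ 0) (h : -P ≤ z) : Btw (-P) z := by
  obtain ⟨s, hs, e⟩ := btw_pos (P := P) (z := -z) (by linarith) (by linarith)
  exact ⟨s, hs, by linarith⟩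

/-- Both ends under a convex bound. -/
theorem quad_ends (h : Btw P z) (hA : b2 ≤ A) (hA0 : 0 ≤ A) (h0 : a0 ≤ Z) (h1 : qv a0 b1 A P ≤ Z) :
    qv a0 b1 b2 z ≤ Z := by
  obtain ⟨s, ⟨hs0, hs1⟩, rfl⟩ := h
  have e : qv a0 b1 b2 (s * P) = (1 - s) * a0 + s * qv a0 b1 A P - A * P ^ 2 * (s * (1 - s)) -
      (A - b2) * (s * P) ^ 2 := by unfold qv; ring
  have := mul_nonneg (mul_nonneg hA0 (sq_nonneg P)) (mul_nonneg hs0 (sub_nonneg.2 hs1))
  have := mul_nonneg (sub_nonneg.2 hA) (sq_nonneg (s * P))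
  have := mul_le_mul_of_nonneg_left h0 (sub_nonneg.2 hs1)
  have := mul_le_mul_of_nonneg_left h1 hs0
  linarith

/-- Increasing up to the outer end. -/
theorem quad_outer (h : Btw P z) (hg : 0 ≤ P * (b1 + b2 * P)) (hg2 : 0 ≤ P * (b1 + 2 * b2 * P))
    (h1 : qv a0 b1 b2 P ≤ Z) : qv a0 b1 b2 z ≤ Z := by
  obtain ⟨s, ⟨hs0, hs1⟩, rfl⟩ := h
  have e : qv a0 b1 b2 P - qv a0 b1 b2 (s * P) =
      (1 - s) * ((1 - s) * (P * (b1 + b2 * P)) + s * (P * (b1 + 2 * b2 * P))) := by unfold qv; ring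
  have := mul_nonneg (sub_nonneg.2 hs1)
    (add_nonneg (mul_nonneg (sub_nonneg.2 hs1) hg) (mul_nonneg hs0 hg2))
  linarith

/-- A chord with the loss of the concave part. -/
theorem quad_chord (h : Btw P z) (hn : -b2 ≤ n) (hn0 : 0 ≤ n) (h0 : a0 ≤ Z) (h1 : qv a0 b1 b2 P ≤ Z) :
    qv a0 b1 b2 z ≤ Z + n * P ^ 2 / 4 := by
  obtain ⟨s, ⟨hs0, hs1⟩, rfl⟩ := h
  have e : qv a0 b1 b2 (s * P) = (1 - s) * a0 + s * qv a0 b1 b2 P - b2 * P ^ 2 * (s * (1 - s)) := by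
    unfold qv; ring
  have q : s * (1 - s) ≤ 1 / 4 := by nlinarith [sq_nonneg (s - 1 / 2)]
  have hp := mul_le_mul_of_nonneg_left q (mul_nonneg hn0 (sq_nonneg P))
  have := mul_le_mul_of_nonneg_right hn (mul_nonneg (sq_nonneg P) (mul_nonneg hs0 (sub_nonneg.2 hs1)))
  have := mul_le_mul_of_nonneg_left h0 (sub_nonneg.2 hs1)
  have := mul_le_mul_of_nonneg_left h1 hs0
  linarith

/-- The vertex. -/
theorem quad_vertex (h2 : b2 < 0) (h : a0 + b1 ^ 2 / (-4 * b2) ≤ Z) : qv a0 b1 b2 z ≤ Z := by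
  refine le_trans ?_ h
  have e : a0 + b1 ^ 2 / (-4 * b2) - qv a0 b1 b2 z = (2 * b2 * z + b1) ^ 2 / (-4 * b2) := by
    have : b2 ≠ 0 := h2.ne
    unfold qv; field_simp; ring
  have : 0 ≤ (2 * b2 * z + b1) ^ 2 / (-4 * b2) := div_nonneg (sq_nonneg _) (by linarith)
  linarith

/-- What is affine in `k` is below the interpolated bound. -/
theorem interp_le {f : ℝ → ℝ} (u w : ℝ) (hf : ∀ k, f k = u + w * k) {ka kb k Za Zb : ℝ} (hab : ka < kb)
    (hk : k ∈ Icc ka kb) (ha : f ka ≤ Za) (hb : f kb ≤ Zb) :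
    f k ≤ ((kb - k) * Za + (k - ka) * Zb) / (kb - ka) := by
  rw [le_div_iff₀ (sub_pos.2 hab)]
  have := mul_le_mul_of_nonneg_left ha (sub_nonneg.2 hk.2)
  have := mul_le_mul_of_nonneg_left hb (sub_nonneg.2 hk.1)
  simp only [hf] at *
  linarith

end Vale.Agent.P237.All.Transport.Small.Large
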