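import Vale.Agent.P237.All.Small.Large.Point

/-!
P237, every dimension, excess `k ≤ .0134`: one side of `y`, the square in `σ` completed: a quadratic in
`ψ` whose coefficients are affine in `k`.
-/

noncomputable section

open Real Set

namespace Vale.Agent.P237.All.Transport.Small.Large

open Mid (XP Pt)

variable {c : Co} {p : ℕ} {R R' v v' : ℝ → ℝ} {c2 lam k y t r ψ kp kw κ qc ν μ W a be : ℝ}

/-- The weight of the deficit is affine in `z`, increasing for `1 ≤ b`. -/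
theorem kp_mono (hb : 1 ≤ c.b) (hD : 0 ≤ c.D) {X z0 z : ℝ} (hp : 0 ≤ 1 - tau p) (h : z0 ≤ z) :
    c.kp (tau p) X z0 ≤ c.kp (tau p) X z := by
  refine add_le_add le_rfl (mul_le_mul_of_nonneg_left h (div_nonneg (mul_nonneg ?_ (by linarith)) hp))
  unfold Co.gc; nlinarith

/-- The weight of the excess is affine in `z`. -/
theorem kw_ends {t X z0 z1 z kw : ℝ} (hz : z ∈ Icc z0 z1) (h0 : c.kw t X z0 ≤ kw)
    (h1 : c.kw t X z1 ≤ kw) : c.kw t X z ≤ kw := by
  unfold Co.kw at h0 h1 ⊢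
  rcases le_total 0 (c.cth t) with h | h
  · have := mul_le_mul_of_nonneg_left hz.2 h; linarith
  · have := mul_le_mul_of_nonpos_left hz.1 h; linarith

theorem quad_complete {R M k ν C κ L Q σ ψ : ℝ} (hk : 0 ≤ k) (hκ : 0 < κ) (hν : R - M = k * ν) :
    quadF (R - M) L C κ Q k σ ψ ≤ L * ψ + k * Q * ψ ^ 2 + k * ((ν + C * ψ) ^ 2 / (4 * κ)) := by
  have e : (ν + C * ψ) ^ 2 / (4 * κ) - (ν * σ + C * σ * ψ - κ * σ ^ 2) =
      (2 * κ * σ - (ν + C * ψ)) ^ 2 / (4 * κ) := by field_simp; ring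
  have := mul_nonneg hk (e ▸ (show 0 ≤ (2 * κ * σ - (ν + C * ψ)) ^ 2 / (4 * κ) by positivity))
  rw [quadF, hν]
  linarith

/-- One side: `M = R - k ν` and `μ` on the ridge `lamC + a ψ + k be ψ ^ 2`, and the part `cl` of the
cross term on the cap `k τ σ ≤ W - 1`. -/
theorem side_le (h : c.Ok p) (hpt : Pt p k y t r lam) (hk : 0 < k)
    (hθ : t - y = k * tau p * y * ψ) (hkp : kp ≤ c.kp (tau p) (XP p y) (y * (t - y))) (hkp0 : 0 ≤ kp)
    (hkw : c.kw (tau p) (XP p y) (y * (t - y)) ≤ kw) (hkw0 : 0 ≤ kw) (hκ : 0 < κ)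
    (hM : 0 ≤ R (XP p y) - k * ν) (hμ : 0 ≤ μ) (hμB : μ = 0 ∨ 0 ≤ ridgeB p a be k ψ)
    {cl : ℝ} (hcl : 0 ≤ cl) (hclψ : cl = 0 ∨ 0 ≤ ψ ∧ 1 ≤ W)
    (hhigh : r ≤ 1 → (r ^ p)⁻¹ ≤ W ∧ log (r ^ p)⁻¹ ≤ k * tau p * ridgeB p a be k ψ ∧
      κ * W ≤ numUp p kp kw W - tau p * (R (XP p y) - k * ν + μ) * rhoW W +
        tau p * μ / (W - 1) * W ∧
      qc ≤ max 0 (1 - ((p : ℝ) + 1) / p * (W - 1)))
    (hlow : 1 ≤ r → qc ≤ 1 ∧
      (log (r ^ p)⁻¹ ≤ k * tau p * ridgeB p a be k ψ ∧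
          κ ≤ numLow p kp kw - tau p * (R (XP p y) - k * ν) ∨
        0 ≤ ridgeB p a be k ψ ∧ κ ≤ numLow p kp kw)) :
    total p c R R' v v' c2 lam y t r ≤ semi y ^ (p + 1) *
      (majZero p (c.G / ((p : ℝ) + 1)) (c.D / ((p : ℝ) + 1)) c2 y + k * tau p ^ 3 *
        ((R (XP p y) - k * ν + μ) * ridgeB p a be k ψ + coefL p c R R' y * ψ +
          k * c.Q (tau p) (XP p y) (v (XP p y)) (v' (XP p y)) qc * ψ ^ 2 +
          k * ((ν + (c.C (tau p) (XP p y) (v (XP p y)) - cl) * ψ) ^ 2 / (4 * κ)) +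
          cl * ψ * ((W - 1) / tau p))) := by
  have hτ := tau_pos p
  have hkτ := mul_pos hk hτ
  obtain ⟨σ, hs⟩ : ∃ σ, (r ^ p)⁻¹ - 1 = k * tau p * σ :=
    ⟨((r ^ p)⁻¹ - 1) / (k * tau p), by field_simp⟩
  set X := XP p y
  set M := R X - k * ν with hMd
  set B := ridgeB p a be k ψ
  have fin : ∀ P, P ≤ (M + μ) * B →
      scaled p c R R' v v' c2 k qc P (R X - M) κ σ ψ y ≤ semi y ^ (p + 1) *
      (majZero p (c.G / ((p : ℝ) + 1)) (c.D / ((p : ℝ) + 1)) c2 y + k * tau p ^ 3 *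
        ((M + μ) * B + coefL p c R R' y * ψ + k * c.Q (tau p) X (v X) (v' X) qc * ψ ^ 2 +
          k * ((ν + (c.C (tau p) X (v X) - cl) * ψ) ^ 2 / (4 * κ)) +
          cl * ψ * ((W - 1) / tau p))) := fun P hP => by
    refine mul_le_mul_of_nonneg_left (add_le_add le_rfl (mul_le_mul_of_nonneg_left ?_ (by positivity)))
      (pow_nonneg (Real.sqrt_nonneg _) _)
    have := quad_complete (R := R X) (M := M) (L := coefL p c R R' y)
      (C := c.C (tau p) X (v X) - cl) (Q := c.Q (tau p) X (v X) (v' X) qc) (σ := σ) (ψ := ψ) hk.le hκ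
      (show R X - M = k * ν by rw [hMd]; ring)
    have hc : k * (cl * σ * ψ) ≤ cl * ψ * ((W - 1) / tau p) := by
      rcases hclψ with h0 | ⟨h0, h1⟩
      · rw [h0]; simp
      · refine le_trans (le_of_eq (show k * (cl * σ * ψ) = cl * ψ * (k * σ) by ring))
          (mul_le_mul_of_nonneg_left ?_ (mul_nonneg hcl h0))
        rw [le_div_iff₀ hτ]
        have : (r ^ p)⁻¹ ≤ W := by
          rcases le_total r 1 with hr | hr
          · exact (hhigh hr).1
          · exact (inv_le_one_of_one_le₀ (one_le_pow₀ hr)).trans h1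
        linarith
    simp only [quadF] at this ⊢
    linarith
  rcases le_total r 1 with hr | hr
  · obtain ⟨hW, hB, hκW, hq⟩ := hhigh hr
    exact (point_high h hpt hk hs hθ hkp hkp0 hkw hkw0 hr hW hB hM hμ hκ.le hκW hq).trans (fin _ le_rfl)
  obtain ⟨hq, hl⟩ := hlow hr
  rcases hl with ⟨hB, hκl⟩ | ⟨hB, hκl⟩
  · refine (point_low h hpt hk hs hθ hkp hkp0 hkw hkw0 hr hq hB hM hκl (by linarith)).trans (fin _ ?_)
    rcases hμB with h0 | h0
    · rw [h0, add_zero]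
    · exact mul_le_mul_of_nonneg_right (le_add_of_nonneg_right hμ) h0
  · have hw1 : (r ^ p)⁻¹ ≤ 1 := inv_le_one_of_one_le₀ (one_le_pow₀ hr)
    have h0 := point_low (v := v) (v' := v') (R := R) (R' := R') (c2 := c2) (B := 0) (M := 0)
      (κ := κ) h hpt hk hs hθ hkp hkp0 hkw hkw0 hr hq
      (by rw [mul_zero]; exact Real.log_nonpos (inv_nonneg.2 (pow_nonneg hpt.hr.le p)) hw1)
      le_rfl (by linarith) (by linarith)
    refine h0.trans (le_trans ?_ (fin ((M + μ) * B) le_rfl))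
    have hσ : σ ≤ 0 := by
      by_contra hc
      have := mul_pos hkτ (not_le.1 hc)
      linarith
    refine mul_le_mul_of_nonneg_left (add_le_add le_rfl (mul_le_mul_of_nonneg_left ?_ (by positivity)))
      (pow_nonneg (Real.sqrt_nonneg _) _)
    simp only [quadF]
    nlinarith [mul_nonpos_of_nonneg_of_nonpos hM hσ, mul_nonneg (add_nonneg hM hμ) hB]

end Vale.Agent.P237.All.Transport.Small.Large
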