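import Vale.Agent.P237.All.Small.Large.Check
import Vale.Agent.P237.All.Small.Large.Coef

/-!
P237, every dimension, excess `k ≤ .0134`: what the forms of the checker hold: the primitives, the
constants of a slice, the values on a box.
-/

noncomputable section

open Real Set

namespace Vale.Agent.P237.All.Transport.Small.Large

open Mid (Sg AF Par Spl Knot knClear rn U U_pos U_ne)

variable {S T : ℝ}

/-- The value of signed data. -/
def rv (x : Sg) : ℝ := x.v / U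

theorem cast_U : ((U : ℕ) : ℝ) = 16777216 := by norm_num [Mid.U]

theorem has_c (x : Sg) : (AF.const x).Has S T (rv x) := AF.has_const (div_mul_cancel₀ _ U_ne)

theorem has_cst (n : ℕ) : (cst n).Has S T (rn n) :=
  AF.has_const (by rw [Sg.ofN_v, rn, cast_U]; field_simp)

theorem has_one : one.Has S T 1 := AF.has_const (by rw [Sg.ofN_v, cast_U]; norm_num)

theorem has_cast {f : AF} {u v : ℝ} (h : f.Has S T u) (e : u = v) : f.Has S T v := e ▸ h

variable {f : AF} {u : ℝ} (hS : |S| ≤ 1) (hT : |T| ≤ 1)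

include hS hT

theorem has_ratio (hf : f.Has S T u) (n d : ℕ) (hd : 0 < d) :
    (f.scale n d).Has S T ((n : ℝ) / d * u) :=
  has_cast (hf.scale hS hT n hd) (mul_comm _ _)

theorem nn_le (h : nn f = true) (hf : f.Has S T u) : 0 ≤ u := by
  have h1 := (Sg.le_iff h).trans (hf.low_le hS hT)
  simp only [Sg.v, Nat.cast_zero, sub_zero] at h1
  exact nonneg_of_mul_nonneg_left h1 U_pos

theorem np_le (h : np f = true) (hf : f.Has S T u) : u ≤ 0 :=
  neg_nonneg.1 (nn_le hS hT h hf.neg)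

theorem ps_lt (h : ps f = true) (hf : f.Has S T u) : 0 < u := by
  have h0 : 0 < f.low.posPart := Nat.le_of_ble_eq_true h
  have h1 := hf.low_le hS hT
  rw [Sg.posPart_def] at h0
  have h2 : (0 : ℝ) < f.low.v := by
    rw [Sg.v, sub_pos]; exact_mod_cast (show f.low.neg < f.low.pos by omega)
  exact pos_of_mul_pos_left (h2.trans_le h1) U_pos.le

theorem withInv_sound {k : AF → Bool} (h : withInv f k = true) (hf : f.Has S T u) :
    0 < u ∧ ∃ i : AF, i.Has S T u⁻¹ ∧ k i = true := by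
  rw [withInv, Bool.and_eq_true, AF.force_eq] at h
  exact ⟨ps_lt hS hT h.1 hf, f.inv, hf.inv hS hT (Nat.le_of_ble_eq_true h.1), h.2⟩

theorem gaf_has {t : AF} {τ : ℝ} (P : Par) (ht : t.Has S T τ) : (gaf P t).Has S T (P.val τ) :=
  has_cast ((has_c P.c).add ((has_c P.t).mul ht hS hT))
    (by simp only [rv, Par.val]; ring)

omit hS hT

/-- The constants of a cell at `τ`. -/
def Cell.co (c : Cell) (τ : ℝ) : Co := ⟨rn c.b, c.D.val τ, c.e1.val τ⟩

/-- What the constants of a slice hold. -/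
structure EnvHas (c : Cell) (e : Env) (S T τ : ℝ) : Prop where
  t : e.t.Has S T τ
  i1 : e.i1.Has S T (1 / (1 - τ))
  i2 : e.i2.Has S T (1 / (1 - 2 * τ))
  ti2 : e.ti2.Has S T (τ / (1 - 2 * τ))
  G : e.G.Has S T (c.co τ).G
  gc : e.gc.Has S T (c.co τ).gc
  gcb : e.gcb.Has S T ((c.co τ).gc * ((c.co τ).b - 1) / (1 - τ))
  e0 : e.e0.Has S T (c.co τ).e0
  K0 : e.K0.Has S T (c.co τ).K0
  Ll : e.Ll.Has S T ((c.co τ).Ll τ)
  T1 : e.T1.Has S T (c.co τ).T1
  X0c : e.X0c.Has S T ((c.co τ).X0 τ)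
  cth : e.cth.Has S T ((c.co τ).cth τ)
  GB : e.GB.Has S T (((c.co τ).G + (c.co τ).b ^ 2 * (c.co τ).D) * (1 + 2 * τ) / (1 - τ))
  eL : e.eL.Has S T ((1 - 2 * τ) * (1 / (1 - τ)) * (1 / (1 - τ)))
  bgt : e.bgt.Has S T ((c.co τ).b * (c.co τ).gc * (τ / (1 - τ)))
  Eh : e.Eh.Has S T (τ / (1 - τ))
  Qm : e.Qm.Has S T (21027221 / 16777216 * (1 + τ / (1 - τ) / 3))
  eb : e.eb.Has S T (rn c.K * (τ / (1 - τ)))
  el : e.el.Has S T (1 + 2 * (rn c.K * (τ / (1 - τ)) * (τ / (1 - τ))))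
  Kt2 : e.Kt2.Has S T (rn c.K * τ ^ 2)
  Ki1 : e.Ki1.Has S T (rn c.K / (1 - τ))
  h0 : 0 ≤ τ
  h1 : 0 < 1 - τ
  h2 : 0 < 1 - 2 * τ

/-- `τ` of a slice. -/
def tauOf (tc hh : ℕ) (T : ℝ) : ℝ := ((tc : ℝ) + hh * T) / 16777216

theorem withEnv_sound {c : Cell} {tc hh : ℕ} {k : Env → Bool} (hS : |S| ≤ 1) (hT : |T| ≤ 1)
    (h : withEnv c tc hh k = true) : ∃ e : Env, EnvHas c e S T (tauOf tc hh T) ∧ k e = true := by
  simp only [withEnv, AF.force_eq, Bool.and_eq_true] at h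
  obtain ⟨hle, h⟩ := h
  set τ := tauOf tc hh T with hτ
  have ht : (AF.linT (Sg.ofN tc) (Sg.ofN hh)).Has S T τ :=
    AF.has_linT (by rw [hτ, tauOf, cast_U, Sg.ofN_v, Sg.ofN_v]; field_simp)
  obtain ⟨p1, i1, hi1, h⟩ := withInv_sound hS hT h (has_one.sub ht)
  obtain ⟨p2, i2, hi2, h⟩ := withInv_sound hS hT h ((has_one.sub ht).sub ht)
  have hb : (cst c.b).Has S T (c.co τ).b := has_cst _
  have hD : (gaf c.D _).Has S T (c.co τ).D := gaf_has hS hT c.D ht
  have he1 : (gaf c.e1 _).Has S T (c.co τ).e1 := gaf_has hS hT c.e1 ht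
  have half := has_ratio hS hT (has_one (S := S) (T := T)) 1 2 two_pos
  have hG := half.sub hD
  have hgc := has_ratio hS hT ((has_one.add hb).mul hD hS hT) 2 1 one_pos
  have hbm := hb.sub has_one
  have hK := has_cst (S := S) (T := T) c.K
  have hEh := ht.mul hi1 hS hT
  have heb := hK.mul hEh hS hT
  refine ⟨_, ?_, h⟩
  exact
    { t := ht
      i1 := has_cast hi1 (one_div _).symm
      i2 := has_cast hi2 (by rw [one_div]; congr 1; ring)
      ti2 := has_cast (ht.mul hi2 hS hT) (by rw [div_eq_mul_inv]; congr 2; ring)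
      G := has_cast hG (by simp only [Co.G]; norm_num)
      gc := has_cast hgc (by simp only [Co.gc]; push_cast; ring)
      gcb := has_cast ((hgc.mul hbm hS hT).mul hi1 hS hT) (by simp only [Co.gc]; push_cast; ring)
      e0 := has_cast (has_one.sub hgc) (by simp only [Co.e0, Co.gc]; push_cast; ring)
      K0 := has_cast ((he1.sub half).add hgc) (by simp only [Co.K0, Co.gc]; push_cast; ring)
      Ll := has_cast (hgc.add ((half.add (ht.mul (has_one.sub hgc) hS hT)).mul hi1 hS hT))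
        (by simp only [Co.Ll, Co.e0, Co.gc]; push_cast; ring)
      T1 := has_cast (((has_ratio hS hT hG 4 1 one_pos).sub
        (has_ratio hS hT (hb.mul hD hS hT) 2 1 one_pos)).add (has_ratio hS hT hD 2 1 one_pos))
        (by simp only [Co.T1, Co.G]; push_cast; ring)
      X0c := has_cast (((((has_ratio hS hT (hG.mul (has_one.add (has_ratio hS hT ht 2 1 one_pos)) hS hT) 2 1
        one_pos).add (hD.mul ((has_ratio hS hT (hb.mul (hbm.mul ht hS hT) hS hT) 2 1 one_pos).sub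
          (has_ratio hS hT hb 2 1 one_pos)) hS hT))).mul hi1 hS hT).sub (hgc.mul hbm hS hT))
        (by simp only [Co.X0, Co.G, Co.gc]; push_cast; ring)
      cth := has_cast (((((((has_ratio hS hT (hG.mul (has_one.add (has_ratio hS hT ht 2 1 one_pos)) hS hT) 2 1
        one_pos).add (hD.mul ((has_ratio hS hT (hb.mul (hbm.mul ht hS hT) hS hT) 2 1 one_pos).sub
          (has_ratio hS hT hb 2 1 one_pos)) hS hT))).mul hi1 hS hT).sub (hgc.mul hbm hS hT)).mul hi2 hS hT).add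
            ((hgc.mul hbm hS hT).mul hi1 hS hT))
        (by simp only [Co.cth, Co.X0, Co.G, Co.gc]; push_cast; ring)
      GB := has_cast (((hG.add ((hb.mul hb hS hT).mul hD hS hT)).mul
        (has_one.add (has_ratio hS hT ht 2 1 one_pos)) hS hT).mul hi1 hS hT)
        (by simp only [Co.G]; push_cast; ring)
      eL := has_cast (((has_one.sub (has_ratio hS hT ht 2 1 one_pos)).mul hi1 hS hT).mul hi1 hS hT)
        (by push_cast; ring)
      bgt := has_cast ((hb.mul hgc hS hT).mul hEh hS hT) (by simp only [Co.gc]; push_cast; ring)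
      Eh := has_cast hEh (by ring)
      Qm := has_cast ((has_cst 21027221).mul (has_one.add (has_ratio hS hT hEh 1 3 three_pos)) hS hT)
        (by simp only [rn]; push_cast; ring)
      eb := has_cast heb (by ring)
      el := has_cast (has_one.add (has_ratio hS hT (heb.mul hEh hS hT) 2 1 one_pos)) (by push_cast; ring)
      Kt2 := has_cast (hK.mul (ht.mul ht hS hT) hS hT) (by ring)
      Ki1 := has_cast (hK.mul hi1 hS hT) (by ring)
      h0 := by
        rw [hτ, tauOf]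
        have h1 : (hh : ℝ) ≤ tc := Nat.cast_le.2 (Nat.le_of_ble_eq_true hle)
        have h2 := mul_le_mul_of_nonneg_left (abs_le.1 hT).1 (Nat.cast_nonneg (α := ℝ) hh)
        exact div_nonneg (by linarith) (by norm_num)
      h1 := p1
      h2 := by linarith }

/-! ### A spline on a box -/

theorem par_abs_zero {x : Sg} (h : x.abs' = 0) : x.v = 0 :=
  abs_nonpos_iff.1 ((Sg.abs_le_abs' x).trans (by rw [h]; norm_num))

theorem knA_sound (X0 X1 : ℕ) (τ : ℝ) (k : Par → Par → Par → Bool) :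
    ∀ (l : List Knot) (a b c d e f g h i j m n : ℕ), knClear l X0 X1 = true →
      knA l X0 k a b c d e f g h i j m n = true →
      ∃ v' d' a' : Par, k v' d' a' = true ∧ ∀ X ∈ Icc (rn X0) (rn X1),
        Mid.knVal l τ X + (Par.val ⟨⟨a, b⟩, ⟨c, d⟩⟩ τ / (2 * 16777216 ^ 2) +
            Par.val ⟨⟨e, f⟩, ⟨g, h⟩⟩ τ / 16777216 * (X - rn X0) +
            Par.val ⟨⟨i, j⟩, ⟨m, n⟩⟩ τ * (X - rn X0) ^ 2 / 2) =
          v'.val τ / (2 * 16777216 ^ 2) + d'.val τ / 16777216 * (X - rn X0) +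
            a'.val τ * (X - rn X0) ^ 2 / 2 ∧
          Mid.knDer l τ X + (Par.val ⟨⟨e, f⟩, ⟨g, h⟩⟩ τ / 16777216 +
              Par.val ⟨⟨i, j⟩, ⟨m, n⟩⟩ τ * (X - rn X0)) =
            d'.val τ / 16777216 + a'.val τ * (X - rn X0)
  | [], a, b, c, d, e, f, g, h, i, j, m, n, _, hk =>
    ⟨_, _, _, hk, fun X _ => by simp only [Mid.knVal, Mid.knDer, Par.val, Sg.nm_v]; simp [Sg.v]⟩
  | K :: l, a, b, c, d, e, f, g, h, i, j, m, n, hc, hrec => by
    rw [knClear, Bool.and_eq_true, Bool.or_eq_true] at hc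
    obtain ⟨hk, hl⟩ := hc
    replace hrec : cond (Nat.ble K.tau X0)
        (Mid.forceN (Nat.sub X0 K.tau) fun u => knA l X0 k
          (Nat.add a (Nat.mul (Nat.mul u u) K.d.c.pos)) (Nat.add b (Nat.mul (Nat.mul u u) K.d.c.neg))
          (Nat.add c (Nat.mul (Nat.mul u u) K.d.t.pos)) (Nat.add d (Nat.mul (Nat.mul u u) K.d.t.neg))
          (Nat.add e (Nat.mul u K.d.c.pos)) (Nat.add f (Nat.mul u K.d.c.neg))
          (Nat.add g (Nat.mul u K.d.t.pos)) (Nat.add h (Nat.mul u K.d.t.neg))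
          (Nat.add i K.d.c.pos) (Nat.add j K.d.c.neg) (Nat.add m K.d.t.pos) (Nat.add n K.d.t.neg))
        (knA l X0 k a b c d e f g h i j m n) = true := hrec
    rcases hb : Nat.ble K.tau X0 with _ | _
    · rw [hb, cond_false] at hrec
      obtain ⟨v', d', a', hk', hX⟩ := knA_sound X0 X1 τ k l _ _ _ _ _ _ _ _ _ _ _ _ hl hrec
      have hk1 : X1 ≤ K.tau := Nat.le_of_ble_eq_true (hk.resolve_left (by simp [hb]))
      refine ⟨v', d', a', hk', fun X hx => ?_⟩
      have h0 : max 0 (X - (K.tau : ℝ) / U) = 0 := by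
        refine max_eq_left (sub_nonpos.2 (hx.2.trans ?_))
        rw [rn, cast_U]; exact div_le_div_of_nonneg_right (Nat.cast_le.2 hk1) (by norm_num)
      simpa [Mid.knVal, Mid.knDer, h0] using hX X hx
    · rw [hb, cond_true, Mid.forceN_eq] at hrec
      obtain ⟨v', d', a', hk', hX⟩ := knA_sound X0 X1 τ k l _ _ _ _ _ _ _ _ _ _ _ _ hl hrec
      have hk1 : K.tau ≤ X0 := Nat.le_of_ble_eq_true hb
      refine ⟨v', d', a', hk', fun X hx => ?_⟩
      have h0 : max 0 (X - (K.tau : ℝ) / U) = X - (K.tau : ℝ) / U := by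
        refine max_eq_right (sub_nonneg.2 (le_trans ?_ hx.1))
        rw [rn, cast_U]; exact div_le_div_of_nonneg_right (Nat.cast_le.2 hk1) (by norm_num)
      obtain ⟨h1, h2⟩ := hX X hx
      simp only [Mid.knVal, Mid.knDer]
      rw [h0, ← h1, ← h2]
      simp only [rn, cast_U, Par.val, Sg.v, Nat.mul_eq, Nat.add_eq, Nat.sub_eq, Nat.cast_mul, Nat.cast_add,
        Nat.cast_sub hk1]
      constructor <;> ring

theorem knC_sound (X0 X1 : ℕ) (τ : ℝ) (l : List Knot) {k : Par → Par → Par → Bool}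
    (hc : knClear l X0 X1 = true) (h : knC l X0 k = true) :
    ∃ v d a : Par, k v d a = true ∧ ∀ X ∈ Icc (rn X0) (rn X1),
      Mid.knVal l τ X = v.val τ / (2 * 16777216 ^ 2) + d.val τ / 16777216 * (X - rn X0) +
          a.val τ * (X - rn X0) ^ 2 / 2 ∧
        Mid.knDer l τ X = d.val τ / 16777216 + a.val τ * (X - rn X0) := by
  obtain ⟨v, d, a, hk, hX⟩ := knA_sound X0 X1 τ k l _ _ _ _ _ _ _ _ _ _ _ _ hc h
  exact ⟨v, d, a, hk, fun X hx => by simpa [Par.val, Sg.v] using hX X hx⟩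

theorem gafR_has {t : AF} {τ : ℝ} (hS : |S| ≤ 1) (hT : |T| ≤ 1) (ht : t.Has S T τ)
    (hτ : |τ| ≤ 1) (c s : Sg) {d : ℕ} (hd : 0 < d) :
    (gafR c s d t).Has S T (Par.val ⟨c, s⟩ τ / d) := by
  have h := gaf_has hS hT ⟨c.divN d, s.divN d⟩ ht
  have hd' : (0 : ℝ) < d := Nat.cast_pos.2 hd
  have hr : (⟨⟨0, 0⟩, ⟨0, 0⟩, ⟨0, 0⟩, 2⟩ : AF).Has S T
      (Par.val ⟨c, s⟩ τ / d - Par.val ⟨c.divN d, s.divN d⟩ τ) := by
    have a := Sg.divN_v c hd
    have b := (AF.abs_mul_le (Sg.divN_v s hd) hτ)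
    simp only [AF.Has, Par.val, cast_U, Sg.v, Nat.cast_zero, sub_zero, zero_mul, add_zero, Nat.cast_ofNat]
    simp only [Sg.v] at a b
    rw [abs_le]
    have a' := abs_le.1 a
    have b' := abs_le.1 b
    constructor <;>
      (refine le_of_mul_le_mul_left ?_ hd'; field_simp; linarith)
  exact has_cast (h.add hr) (by ring)

theorem withSpl_sound {t XA : AF} {τ X : ℝ} {X0 X1 : ℕ} {P : Spl} {k : AF → AF → Bool}
    (hS : |S| ≤ 1) (hT : |T| ≤ 1) (hτ : |τ| ≤ 1) (ht : t.Has S T τ) (hX : XA.Has S T X)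
    (hx : X ∈ Icc (rn X0) (rn X1)) (hc : knClear P.kn X0 X1 = true) (h : withSpl P t XA X0 k = true) :
    ∃ f d : AF, f.Has S T (P.val τ X) ∧ d.Has S T (P.der τ X) ∧ k f d = true := by
  rw [withSpl] at h
  obtain ⟨v, d, a, h, hk⟩ := knC_sound X0 X1 τ P.kn hc h
  obtain ⟨h1, h2⟩ := hk X hx
  have f0 := gafR_has hS hT ht hτ
    (((P.v0.c.smul 562949953421312).add (P.v1.c.smul (Nat.mul 33554432 X0))).add v.c)
    (((P.v0.t.smul 562949953421312).add (P.v1.t.smul (Nat.mul 33554432 X0))).add v.t)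
    (d := 562949953421312) (by norm_num)
  have f1 := gafR_has hS hT ht hτ ((P.v1.c.smul 16777216).add d.c) ((P.v1.t.smul 16777216).add d.t)
    (d := 16777216) (by norm_num)
  have hu := hX.sub (has_cst X0)
  simp only [AF.force_eq] at h
  rcases hb : Nat.beq (Nat.add a.c.abs' a.t.abs') 0 with _ | _
  · rw [hb, cond_false] at h
    have ha := gaf_has hS hT a ht
    refine ⟨_, _, has_cast ((f0.add (f1.mul hu hS hT)).add
      (has_ratio hS hT (ha.mul (hu.mul hu hS hT) hS hT) 1 2 two_pos)) ?_,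
      has_cast (f1.add (ha.mul hu hS hT)) ?_, h⟩
    · rw [Spl.val, h1]; simp only [Par.val, rn, cast_U, Sg.add_v, Sg.smul_v, Nat.mul_eq]; push_cast; ring
    · rw [Spl.der, h2]; simp only [Par.val, rn, cast_U, Sg.add_v, Sg.smul_v]; push_cast; ring
  · rw [hb, cond_true] at h
    rw [Nat.beq_eq, Nat.add_eq] at hb
    have za := par_abs_zero (show a.c.abs' = 0 by omega)
    have zt := par_abs_zero (show a.t.abs' = 0 by omega)
    refine ⟨_, _, has_cast (f0.add (f1.mul hu hS hT)) ?_, has_cast f1 ?_, h⟩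
    · rw [Spl.val, h1]; simp only [Par.val, rn, cast_U, Sg.add_v, Sg.smul_v, Nat.mul_eq, za, zt]; push_cast; ring
    · rw [Spl.der, h2]; simp only [Par.val, rn, cast_U, Sg.add_v, Sg.smul_v, za, zt]; push_cast; ring

/-! ### The values on a box -/

/-- What the values of a box hold. -/
structure ValsHas (c : Cell) (v : Vals) (S T τ xv : ℝ) : Prop where
  x : v.x.Has S T xv
  X : v.X.Has S T (xv ^ 2)
  Xt : v.Xt.Has S T (xv ^ 2 * τ)
  Sv : v.S.Has S T (1 - xv ^ 2 * τ)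
  iS : v.iS.Has S T (1 / (1 - xv ^ 2 * τ))
  R : v.R.Has S T (c.R.val τ (xv ^ 2))
  kp0 : v.kp0.Has S T ((c.co τ).kp τ (xv ^ 2) 0)
  kw0 : v.kw0.Has S T ((c.co τ).kw τ (xv ^ 2) 0)
  L : v.L.Has S T ((c.co τ).L τ (xv ^ 2) (c.R.val τ (xv ^ 2)) (c.R.der τ (xv ^ 2)))
  Cp : v.Cp.Has S T ((c.co τ).C τ (xv ^ 2) (c.Vp.val τ (xv ^ 2)))
  Cm : v.Cm.Has S T ((c.co τ).C τ (xv ^ 2) (c.Vm.val τ (xv ^ 2)))
  Qp : v.Qp.Has S T ((c.co τ).Q τ (xv ^ 2) (c.Vp.val τ (xv ^ 2)) (c.Vp.der τ (xv ^ 2)) 0)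
  Qm : v.Qm.Has S T ((c.co τ).Q τ (xv ^ 2) (c.Vm.val τ (xv ^ 2)) (c.Vm.der τ (xv ^ 2)) 0)
  a0 : v.a0.Has S T ((1 - 2 * τ) / (1 - xv ^ 2 * τ))
  hS : 0 < 1 - xv ^ 2 * τ

/-- The place in a box. -/
def xOf (xa xb : ℕ) (S : ℝ) : ℝ :=
  ((Nat.div (Nat.add xa xb) 2 : ℕ) + (Nat.div (Nat.sub xb xa) 2 : ℕ) * S : ℝ) / 16777216

theorem withVals_sound {c : Cell} {e : Env} {τ : ℝ} {xa xb : ℕ} {k : Vals → Bool} (hS : |S| ≤ 1)
    (hT : |T| ≤ 1) (he : EnvHas c e S T τ) {x : ℝ} (hx : x = xOf xa xb S)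
    (hx2 : x ∈ Icc (rn xa) (rn xb)) (h : withVals c e xa xb k = true) :
    ∃ v : Vals, ValsHas c v S T τ x ∧ k v = true := by
  simp only [withVals, AF.force_eq, Bool.and_eq_true] at h
  obtain ⟨⟨⟨⟨⟨-, -⟩, hcR⟩, hcp⟩, hcm⟩, h⟩ := h
  have hxA : (⟨Sg.ofN (Nat.div (Nat.add xa xb) 2), Sg.ofN (Nat.div (Nat.sub xb xa) 2), ⟨0, 0⟩, 0⟩ : AF).Has
      S T x := by
    simp only [AF.Has, Sg.ofN_v, Nat.cast_zero, abs_nonpos_iff, cast_U]
    rw [hx, xOf]; simp [Sg.v]
  have hX := hxA.mul hxA hS hT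
  have hXt := hX.mul he.t hS hT
  have hSv := has_one.sub hXt
  obtain ⟨hS0, iS, hiS, h⟩ := withInv_sound hS hT h hSv
  have hx0 : 0 ≤ x := (Mid.rn_nonneg xa).trans hx2.1
  have hXI : x * x ∈ Icc (rn (Nat.div (Nat.mul xa xa) 16777216)) (rn (Mid.cdiv (Nat.mul xb xb) 16777216)) := by
    constructor
    · refine le_trans (div_le_div_of_nonneg_right (Mid.cast_div_le _ _) (by norm_num)) ?_
      refine le_trans (le_of_eq ?_) (mul_le_mul hx2.1 hx2.1 (Mid.rn_nonneg _) hx0)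
      simp only [rn, Nat.mul_eq]; push_cast; ring
    · refine le_trans (mul_le_mul hx2.2 hx2.2 hx0 (Mid.rn_nonneg _)) ?_
      exact Mid.rn_mul_up xb xb
  have habs : |τ| ≤ 1 := abs_le.2 ⟨by linarith [he.h0], by linarith [he.h1]⟩
  obtain ⟨R, Rd, hR, hRd, h⟩ := withSpl_sound hS hT habs he.t hX hXI hcR h
  obtain ⟨vp, vpd, hvp, hvpd, h⟩ := withSpl_sound hS hT habs he.t hX hXI hcp h
  obtain ⟨vm, vmd, hvm, hvmd, h⟩ := withSpl_sound hS hT habs he.t hX hXI hcm h
  simp only [← pow_two] at hR hRd hvp hvpd hvm hvmd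
  have hot := has_one.sub he.t
  have hlr := (he.e0.add ((he.t.mul he.i1 hS hT).mul he.K0 hS hT)).add (hXt.mul he.Ll hS hT)
  have hkp := he.gc.mul (hSv.mul he.i1 hS hT) hS hT
  have hts0 := (((he.T1.mul he.i1 hS hT).sub ((he.e0.mul (he.t.mul he.i1 hS hT) hS hT).mul he.i2 hS hT)).sub
    (hX.mul ((he.e0.add (he.t.mul he.T1 hS hT)).mul he.i1 hS hT) hS hT)).sub (he.K0.mul he.i2 hS hT)
  have hts := hts0.sub (hot.mul (((hX.mul he.Ll hS hT).mul he.i2 hS hT).add hR) hS hT)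
  have hcx := (hXt.mul he.X0c hS hT).mul he.i2 hS hT
  have hq : ∀ {V Vd : AF} {a b : ℝ}, V.Has S T a → Vd.Has S T b →
      ((AF.mul _ ((Vd.scale 2 1).add e.GB)).sub (V.add ((AF.mul (one.sub e.t) (AF.mul _ V)).mul iS))).Has S T
        ((c.co τ).Q τ (x ^ 2) a b 0) := fun ha hb =>
    has_cast ((hX.mul ((has_ratio hS hT hb 2 1 one_pos).add he.GB) hS hT).sub
      (ha.add ((hot.mul (hX.mul ha hS hT) hS hT).mul hiS hS hT)))
      (by simp only [Co.Q]; push_cast; ring)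
  refine ⟨_, ?_, h⟩
  exact
    { x := hxA
      X := has_cast hX (pow_two x).symm
      Xt := has_cast hXt (by ring)
      Sv := has_cast hSv (by ring)
      iS := has_cast hiS (by rw [one_div, pow_two])
      R := hR
      kp0 := has_cast hkp (by simp only [Co.kp]; ring)
      kw0 := has_cast ((hlr.mul he.i2 hS hT).add hkp) (by simp only [Co.kw, Co.lr]; ring)
      L := has_cast (((has_ratio hS hT (he.Ll.mul he.i2 hS hT) 2 1 one_pos).add
        (has_ratio hS hT hRd 2 1 one_pos)).add (hts.mul hiS hS hT)) (by simp only [Co.L]; push_cast; ring)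
      Cp := has_cast ((has_ratio hS hT hvp 2 1 one_pos).sub hcx) (by simp only [Co.C]; push_cast; ring)
      Cm := has_cast ((has_ratio hS hT hvm 2 1 one_pos).sub hcx) (by simp only [Co.C]; push_cast; ring)
      Qp := hq hvp hvpd
      Qm := hq hvm hvmd
      a0 := has_cast ((has_one.sub (has_ratio hS hT he.t 2 1 one_pos)).mul hiS hS hT)
        (by push_cast; ring)
      hS := by rw [pow_two]; exact hS0 }

end Vale.Agent.P237.All.Transport.Small.Large
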