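import Vale.Agent.P237.All.Small.Large.Sound
import Vale.Agent.P237.All.Small.Large.Cap
import Vale.Agent.P237.All.Small.Large.Band
import Vale.Agent.P237.All.Small.Large.Point

/-!
P237, every dimension, excess `k ≤ .0134`: the elementary bounds, the caps, the half mass and the band
of the checker.
-/

noncomputable section

open Real Set

namespace Vale.Agent.P237.All.Transport.Small.Large

open Mid (Sg AF Pt XP epsP rn)
open Middle (mills2 mills2_pos)

variable {S T : ℝ}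

theorem has_zero : (cst 0).Has S T 0 := has_cast (has_cst 0) (by simp [rn])

theorem cast_25 : rn 262144 = 1 / 64 := by norm_num [rn]

theorem exp_two_mul_le {h : ℝ} (h0 : 0 ≤ h) (h1 : h < 1) : exp (2 * h) ≤ (1 + h) / (1 - h) := by
  have hs := sum_le_hasSum (Finset.range 1) (fun i _ => by positivity)
    (Real.hasSum_log_sub_log_of_abs_lt_one (x := h) (by rwa [abs_of_nonneg h0]))
  simp only [Finset.sum_range_one, Nat.cast_zero, mul_zero, zero_add, pow_one, div_one, mul_one] at hs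
  rw [← Real.le_log_iff_exp_le (div_pos (by linarith) (by linarith)),
    Real.log_div (by linarith) (by linarith)]
  exact hs

theorem sq5_sound {f : AF} {u : ℝ} {k : AF → Bool} (hS : |S| ≤ 1) (hT : |T| ≤ 1) (hf : f.Has S T u)
    (h : sq5 f k = true) : ∃ g : AF, g.Has S T (u ^ 32) ∧ k g = true := by
  simp only [sq5, AF.force_eq] at h
  have h2 := hf.mul hf hS hT
  have h4 := h2.mul h2 hS hT
  have h8 := h4.mul h4 hS hT
  have h16 := h8.mul h8 hS hT
  exact ⟨_, has_cast (h16.mul h16 hS hT) (by ring), h⟩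

theorem withExp_sound {z : AF} {u : ℝ} {k : AF → Bool} (hS : |S| ≤ 1) (hT : |T| ≤ 1)
    (hz : z.Has S T u) (hu : 0 ≤ u) (h : withExp z k = true) :
    ∃ E : AF, ∃ e : ℝ, E.Has S T e ∧ exp u ≤ e ∧ k E = true := by
  simp only [withExp, AF.force_eq, Bool.and_eq_true] at h
  obtain ⟨hp, h⟩ := h
  have hh := has_cast (hz.mul (has_cst 262144) hS hT) (show u * rn 262144 = u / 64 by rw [cast_25]; ring)
  have h0 : 0 ≤ u / 64 := by positivity
  have h1 := ps_lt hS hT hp (has_one.sub hh)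
  obtain ⟨n, hn, h⟩ := sq5_sound hS hT (has_one.add hh) h
  obtain ⟨d, hd, h⟩ := sq5_sound hS hT (has_one.sub hh) h
  obtain ⟨-, i, hi, h⟩ := withInv_sound hS hT h hd
  refine ⟨_, _, hn.mul hi hS hT, ?_, h⟩
  refine le_trans (le_of_eq ?_) ((pow_le_pow_left₀ (exp_pos _).le (exp_two_mul_le h0 (by linarith)) 32).trans
    (le_of_eq (by rw [div_pow, div_eq_mul_inv])))
  rw [← Real.exp_nat_mul]
  push_cast; ring_nf

theorem withPow_sound {a X v iS : AF} {av Xv vv : ℝ} {k : AF → Bool} (hS : |S| ≤ 1) (hT : |T| ≤ 1)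
    (ha : a.Has S T av) (hX : X.Has S T Xv) (hv : v.Has S T vv) (hi : iS.Has S T (1 / (1 - vv)))
    (ha0 : 0 ≤ av) (hX0 : 0 ≤ Xv) (hv0 : 0 ≤ vv) (hv1 : vv < 1) (h : withPow a X v iS k = true) :
    ∃ E : AF, ∃ e : ℝ, E.Has S T e ∧ exp (av * (Xv / 2 * (1 + vv / (2 * (1 - vv))))) ≤ e ∧
      k E = true := by
  rw [withPow] at h
  have := sub_pos.2 hv1
  refine withExp_sound hS hT (has_cast ((ha.mul (has_ratio hS hT hX 1 2 two_pos) hS hT).mul
    (has_one.add (has_ratio hS hT (hv.mul hi hS hT) 1 2 two_pos)) hS hT) ?_) (by positivity) h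
  push_cast
  rw [div_mul_eq_div_div_swap vv 2]
  ring

theorem has_num {n d : ℕ} (hS : |S| ≤ 1) (hT : |T| ≤ 1) (hd : 0 < d) :
    (one.scale n d).Has S T ((n : ℝ) / d) :=
  has_cast (has_ratio hS hT has_one n d hd) (mul_one _)

theorem withMills_sound {x : AF} {xv : ℝ} {k : AF → Bool} (hS : |S| ≤ 1) (hT : |T| ≤ 1)
    (hx : x.Has S T xv) (h : withMills x k = true) : ∃ m : AF, m.Has S T (mills2 xv) ∧ k m = true := by
  rw [withMills] at h
  obtain ⟨-, i, hi, h⟩ := withInv_sound hS hT h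
    (((hx.mul hx hS hT).add (has_ratio hS hT hx 11 3 three_pos)).add (has_num (d := 25) hS hT (by norm_num)))
  rw [AF.force_eq] at h
  refine ⟨_, has_cast (hx.add ((hx.add (has_num (d := 4) hS hT (by norm_num))).mul hi hS hT)) ?_, h⟩
  unfold mills2; push_cast; ring

theorem withRho_sound {W : AF} {w : ℝ} {k : AF → Bool} (hS : |S| ≤ 1) (hT : |T| ≤ 1)
    (hW : W.Has S T w) (h : withRho W k = true) : ∃ r : AF, r.Has S T (rhoW w) ∧ k r = true := by
  rw [withRho] at h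
  obtain ⟨-, i, hi, h⟩ := withInv_sound hS hT h (hW.add has_one)
  rw [AF.force_eq] at h
  refine ⟨_, has_cast ((hW.mul hi hS hT).sub (has_ratio hS hT
    ((hW.mul (hW.sub has_one) hS hT).mul (hi.mul (hi.mul hi hS hT) hS hT) hS hT) 2 3 three_pos)) ?_, h⟩
  unfold rhoW; push_cast
  rw [div_eq_mul_inv w, div_eq_mul_inv (w * (w - 1)), ← inv_pow]
  ring

theorem Qm_ge {τ : ℝ} {p : ℕ} (hτ : τ = tau p) :
    massQ p ≤ 21027221 / 16777216 * (1 + τ / (1 - τ) / 3) := by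
  have hε := eps_nonneg p
  have e : τ / (1 - τ) = epsP p := by
    rw [div_eq_iff (by rw [hτ, (tau_facts p (y := 0)).1]; positivity), hτ, eps_tau]
  rw [massQ, e]
  exact mul_le_mul_of_nonneg_right (by norm_num) (by linarith)

theorem eps_eq {τ : ℝ} {p : ℕ} (hτ : τ = tau p) : τ / (1 - τ) = epsP p := by
  rw [div_eq_iff (by rw [hτ, (tau_facts p (y := 0)).1]; positivity), hτ, eps_tau]

/-! ### The caps -/

theorem withCap_sound {c : Cell} {e : Env} {v : Vals} {τ x k : ℝ} {p : ℕ} {y t r lam : ℝ} {cap : CapK}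
    {kont : AF → AF → AF → Bool} (hS : |S| ≤ 1) (hT : |T| ≤ 1) (he : EnvHas c e S T τ)
    (hv : ValsHas c v S T τ x) (hτ : τ = tau p) (hx : x ^ 2 = XP p y) (hx0 : 0 ≤ x)
    (hpt : Pt p k y t r lam) (hp : 1 ≤ p) (hk : 0 ≤ k) (hkK : k ≤ rn c.K) (hK : rn c.K ≤ 1)
    (h : withCap e v cap kont = true) :
    ∃ W mX mW : AF, ∃ Wv c0 : ℝ, W.Has S T Wv ∧ 0 < c0 ∧ mX.Has S T (c0 * x ^ 2) ∧
      mW.Has S T (c0 * ((Wv - 1) / τ)) ∧ 1 ≤ Wv ∧ (r ^ p)⁻¹ ≤ Wv ∧ kont W mX mW = true := by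
  have hτ0 : 0 < τ := hτ ▸ tau_pos p
  have hε := eps_eq hτ
  have hel : 1 + 2 * (rn c.K * (τ / (1 - τ)) * (τ / (1 - τ))) = lamUp p (rn c.K) := by
    rw [hε, lamUp]; ring
  have hQ := Qm_ge hτ
  have hε0 := eps_nonneg p
  have hK0 := Mid.rn_nonneg c.K
  cases cap with
  | self =>
    rw [withCap] at h
    obtain ⟨E, ev, hE, hev, h⟩ := withPow_sound hS hT has_one hv.X hv.Xt hv.iS zero_le_one (sq_nonneg x)
      (by positivity) (by linarith [hv.hS]) h
    obtain ⟨m, hm, h⟩ := withMills_sound hS hT hv.x h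
    simp only [AF.force_eq] at h
    have hbr := (has_ratio hS hT he.Eh 2 1 one_pos).add
      (((he.el.mul he.Qm hS hT).mul hm hS hT).mul hE hS hT)
    have hev0 := (exp_pos _).le.trans hev
    have hm0 := mills2_pos hx0
    have hb0 : 0 ≤ ((2 : ℕ) : ℝ) / ((1 : ℕ) : ℝ) * (τ / (1 - τ)) +
        (1 + 2 * (rn c.K * (τ / (1 - τ)) * (τ / (1 - τ)))) *
          (21027221 / 16777216 * (1 + τ / (1 - τ) / 3)) * mills2 x * ev := by
      rw [hε]; positivity
    rw [one_mul] at hev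
    have hc := cap_self hpt hp hk hkK hK hx hx0 (e := ev) (by rw [← hx, ← hτ]; exact hev)
    refine ⟨_, _, _, _, 1, has_one.add (he.eb.mul hbr hS hT), one_pos, has_cast hv.X (by ring),
      has_cast (he.Ki1.mul hbr hS hT) (by field_simp; ring), le_add_of_nonneg_right (mul_nonneg
        (mul_nonneg hK0 (hε ▸ hε0)) hb0), hc.trans ?_, h⟩
    rw [hel, hε]
    have := mul_le_mul_of_nonneg_right (mul_le_mul_of_nonneg_right hQ (mills2_pos hx0).le)
      ((exp_pos _).le.trans hev)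
    rw [hε] at this
    have h2 := mul_le_mul_of_nonneg_left this
      (show (0 : ℝ) ≤ lamUp p (rn c.K) by unfold lamUp; positivity)
    have h3 := mul_le_mul_of_nonneg_left h2 (mul_nonneg hε0 hK0)
    push_cast
    linarith
  | shift th a =>
    rw [withCap] at h
    simp only [AF.force_eq, Bool.and_eq_true] at h
    obtain ⟨⟨⟨hth, hth1⟩, -⟩, h⟩ := h
    have hθ : 0 < rn th := div_pos (Nat.cast_pos.2 (Nat.le_of_ble_eq_true hth)) (by norm_num)
    have hθ1 : rn th ≤ 1 := Mid.rn_U ▸ Mid.rn_le (Nat.le_of_ble_eq_true hth1)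
    have hxu := (has_cst th).mul hv.x hS hT
    have hXu := hxu.mul hxu hS hT
    have hXut := hXu.mul he.t hS hT
    obtain ⟨hSu, iSu, hiSu, h⟩ := withInv_sound hS hT h (has_one.sub hXut)
    obtain ⟨E, ev, hE, hev, h⟩ :=
      withPow_sound hS hT (has_one.sub he.t) hXu hXut (has_cast hiSu (one_div _).symm) he.h1.le
        (mul_self_nonneg _) (mul_nonneg (mul_self_nonneg _) hτ0.le) (by linarith) h
    obtain ⟨hxu0, ixu, hixu, h⟩ := withInv_sound hS hT h hxu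
    obtain ⟨-, iden, hiden, h⟩ := withInv_sound hS hT h ((hXu.mul (has_one.sub he.t) hS hT).add
      (has_num (d := 1) hS hT one_pos))
    obtain ⟨ha0, ia, hia, h⟩ := withInv_sound hS hT h (has_cst a)
    obtain ⟨m, hm, h⟩ := withMills_sound hS hT hv.x h
    simp only [AF.force_eq, Bool.and_eq_true] at h
    have hx1 : 0 < x := pos_of_mul_pos_right hxu0 hθ.le
    have hsy2 := ((has_cst a).mul hv.iS hS hT).add hia
    have hF := (hm.mul hixu hS hT).mul ((hXu.add (has_num (n := 2) (d := 1) hS hT one_pos)).mul hiden hS hT)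
      hS hT
    have hW := (he.el.mul (has_ratio hS hT hsy2 1 2 two_pos) hS hT).mul
      ((hm.mul ((he.eb.mul he.Qm hS hT).mul hE hS hT) hS hT).add
        ((has_one.sub (has_ratio hS hT hXut 1 2 two_pos)).mul hF hS hT)) hS hT
    have hW0 := nn_le hS hT h.1 (hW.sub has_one)
    refine ⟨_, _, _, _, τ, hW, hτ0, has_cast hv.Xt (mul_comm _ _),
      has_cast (hW.sub has_one) (by field_simp), by linarith, ?_, h.2⟩
    have hev0 := (exp_pos _).le.trans hev
    have hS0 := hv.hS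
    have hy2 : 0 ≤ (rn a * (1 / (1 - x ^ 2 * τ)) + (rn a)⁻¹) := by positivity
    have hc := cap_shift hpt hp hk hkK hK (θ := rn th) (x := x) (e := ev)
      (sy := (rn a * (1 / (1 - x ^ 2 * τ)) + (rn a)⁻¹) / 2)
      (F := mills2 x * (rn th * x)⁻¹ * ((rn th * x * (rn th * x) + 2) *
        (rn th * x * (rn th * x) * (1 - τ) + 3)⁻¹)) hθ hθ1 hx hx1
      (by rw [← hτ]; refine le_trans (exp_le_exp.2 (le_of_eq ?_)) hev; ring)
      (by
        rw [← hx, ← hτ]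
        have := four_mul_le_sq_add (rn a * (1 / (1 - x ^ 2 * τ))) (rn a)⁻¹
        rw [mul_assoc, show rn a * (1 / (1 - x ^ 2 * τ)) * (rn a)⁻¹ = (1 - x ^ 2 * τ)⁻¹ by field_simp] at this
        have h4 := mul_le_mul_of_nonneg_right this hS0.le
        rw [mul_assoc, inv_mul_cancel₀ hS0.ne', mul_one] at h4
        linarith)
      (by linarith)
      (le_of_eq (by rw [← hτ, div_eq_mul_inv, div_eq_mul_inv]; ring))
    refine hc.trans (max_le (by linarith) ?_)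
    rw [← hel]
    have hm0 := mills2_pos hx0
    have := mul_le_mul_of_nonneg_left (mul_le_mul_of_nonneg_right (mul_le_mul_of_nonneg_left hQ
      (mul_nonneg hε0 hK0)) hev0) hm0.le
    have h2 := mul_le_mul_of_nonneg_left this (mul_nonneg
      (show (0 : ℝ) ≤ 1 + 2 * (rn c.K * (τ / (1 - τ)) * (τ / (1 - τ))) by rw [hε]; positivity)
      (show (0 : ℝ) ≤ (rn a * (1 / (1 - x ^ 2 * τ)) + (rn a)⁻¹) / 2 by linarith))
    rw [← hτ]
    simp only [hε] at h2 ⊢
    push_cast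
    linarith

/-! ### The half mass and the band -/

theorem withHb_sound {c : Cell} {e : Env} {v : Vals} {τ x y : ℝ} {p : ℕ} {hbk : HbK} {kont : AF → Bool}
    (hS : |S| ≤ 1) (hT : |T| ≤ 1) (he : EnvHas c e S T τ) (hv : ValsHas c v S T τ x) (hτ : τ = tau p)
    (hx : x ^ 2 = XP p y) (hx0 : 0 ≤ x) (hy : y ∈ Ioo (0 : ℝ) 1) (h : withHb e v hbk kont = true) :
    ∃ hb : AF, ∃ hbv : ℝ, hb.Has S T hbv ∧ mass p semi y ≤ hbv * (y * semi y ^ p) ∧ kont hb = true := by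
  obtain ⟨-, h2, -, hX⟩ := tau_facts p (y := y)
  have hu : y ^ 2 ≤ x ^ 2 * τ := by rw [hx, hτ, hX]
  have hu1 : x ^ 2 * τ < 1 := by linarith [hv.hS]
  have hexp : ∀ {ev : ℝ}, exp ((1 - 2 * τ) * (x ^ 2 / 2 * (1 + x ^ 2 * τ / (2 * (1 - x ^ 2 * τ))))) ≤ ev →
      exp ((p : ℝ) * y ^ 2 / 2 * (1 + x ^ 2 * τ / (2 * (1 - x ^ 2 * τ)))) ≤ ev := fun hev => by
    refine le_trans (exp_le_exp.2 (le_of_eq ?_)) hev
    rw [show (1 - 2 * τ) = (p : ℝ) * τ by rw [hτ, h2, tau]; ring,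
      show (p : ℝ) * y ^ 2 = (p : ℝ) * (x ^ 2 * τ) by rw [hx, hτ, hX]]
    ring
  have hot := has_one.sub (has_ratio hS hT he.t 2 1 one_pos)
  have hot0 : 0 ≤ 1 - ((2 : ℕ) : ℝ) / ((1 : ℕ) : ℝ) * τ := by push_cast; linarith [he.h2]
  have hXt0 : 0 ≤ x ^ 2 * τ := mul_nonneg (sq_nonneg x) (hτ ▸ (tau_pos p).le)
  cases hbk with
  | one =>
    rw [withHb] at h
    obtain ⟨E, ev, hE, hev, h⟩ := withPow_sound hS hT hot hv.X hv.Xt hv.iS hot0 (sq_nonneg x) hXt0
      (by linarith [hv.hS]) h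
    push_cast at hev
    rw [div_one] at hev
    exact ⟨E, ev, hE, mass_le_one p hy (semi_pow_inv p hy hu hu1 (hexp hev)), h⟩
  | tail =>
    rw [withHb] at h
    obtain ⟨E, ev, hE, hev, h⟩ := withPow_sound hS hT hot hv.X hv.Xt hv.iS hot0 (sq_nonneg x) hXt0
      (by linarith [hv.hS]) h
    push_cast at hev
    rw [div_one] at hev
    obtain ⟨hx1, ix, hix, h⟩ := withInv_sound hS hT h hv.x
    rw [AF.force_eq] at h
    have hg := ((hv.x.mul hv.x hS hT).add (has_ratio hS hT hv.x 11 3 three_pos)).add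
      (has_num (n := 133) (d := 25) hS hT (by norm_num))
    obtain ⟨-, img, himg, h⟩ := withInv_sound hS hT h
      (((hv.x.mul hg hS hT).add hv.x).add (has_num (n := 17) (d := 4) hS hT (by norm_num)))
    rw [AF.force_eq] at h
    refine ⟨_, _, ((he.Qm.mul hE hS hT).sub (hv.Sv.mul (hg.mul himg hS hT) hS hT)).mul hix hS hT,
      mass_le_tail p hy ((Mid.mass_scaled_le le_rfl (Mid.eps_le_one p)).trans (Qm_ge hτ))
        (semi_pow_inv p hy hu hu1 (hexp hev)) (point_sqrt p hy.1.le hx hx0).symm (le_of_eq ?_), h⟩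
    rw [inv_mul_cancel_right₀ hx1.ne', ← hX, ← hx, ← hτ]
    have hgp : 0 < x ^ 2 + 11 / 3 * x + 133 / 25 := by positivity
    simp only [Nat.cast_ofNat]
    unfold mills2
    field_simp
    ring

theorem bandOK_sound {c : Cell} {e : Env} {v : Vals} {τ x k y t r lam ψ : ℝ} {p : ℕ} {psi hb : AF}
    {psv hbv : ℝ} (hS : |S| ≤ 1) (hT : |T| ≤ 1) (he : EnvHas c e S T τ) (hv : ValsHas c v S T τ x)
    (hτ : τ = tau p) (hx : x ^ 2 = XP p y) (hpt : Pt p k y t r lam) (hp : 1 ≤ p) (hk : 0 < k)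
    (hkK : k ≤ rn c.K) (hK : rn c.K ≤ 1) (hθ : t - y = k * tau p * y * ψ)
    (hfwd : mass p semi t ≤ lam ^ p * mass p semi y) (hps : psi.Has S T psv) (hhb : hb.Has S T hbv)
    (hH : mass p semi y ≤ hbv * (y * semi y ^ p)) (h : bandOK c e v psi hb = true) :
    0 ≤ psv ∧ ψ ≤ psv := by
  simp only [bandOK, AF.force_eq, Bool.and_eq_true] at h
  obtain ⟨h0, h⟩ := h
  have hps0 := nn_le hS hT h0 hps
  have hot := has_one.sub he.t
  have hTp := hps.mul hot hS hT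
  have hkT := (has_cst c.K).mul hTp hS hT
  have hq := (hkT.mul ((has_num (n := 2) (d := 1) hS hT one_pos).add (hkT.mul he.Eh hS hT)) hS hT).mul
    (hv.X.mul (hot.mul hv.iS hS hT) hS hT) hS hT
  have hu := (he.Eh.mul he.Eh hS hT).mul hq hS hT
  obtain ⟨hu1, rec, hrec, h⟩ := withInv_sound hS hT h (has_one.sub hu)
  have hP := (has_ratio hS hT (has_one.sub he.Eh) 1 2 two_pos).mul
    (hq.mul (has_one.add (has_ratio hS hT (hu.mul hrec hS hT) 1 2 two_pos)) hS hT) hS hT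
  have hε := eps_eq hτ
  have hε0 := eps_nonneg p
  have hPn : 0 ≤ ((1 : ℕ) : ℝ) / ((2 : ℕ) : ℝ) * (1 - τ / (1 - τ)) *
      (rn c.K * (psv * (1 - τ)) * (((2 : ℕ) : ℝ) / ((1 : ℕ) : ℝ) + rn c.K * (psv * (1 - τ)) * (τ / (1 - τ))) *
        (x ^ 2 * ((1 - τ) * (1 / (1 - x ^ 2 * τ)))) * (1 + ((1 : ℕ) : ℝ) / ((2 : ℕ) : ℝ) *
        (τ / (1 - τ) * (τ / (1 - τ)) * (rn c.K * (psv * (1 - τ)) * (((2 : ℕ) : ℝ) / ((1 : ℕ) : ℝ) +
          rn c.K * (psv * (1 - τ)) * (τ / (1 - τ))) * (x ^ 2 * ((1 - τ) * (1 / (1 - x ^ 2 * τ))))) *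
          (1 - τ / (1 - τ) * (τ / (1 - τ)) * (rn c.K * (psv * (1 - τ)) * (((2 : ℕ) : ℝ) / ((1 : ℕ) : ℝ) +
          rn c.K * (psv * (1 - τ)) * (τ / (1 - τ))) * (x ^ 2 * ((1 - τ) * (1 / (1 - x ^ 2 * τ))))))⁻¹))) := by
    have := Mid.rn_nonneg c.K
    have := he.h1
    have := hv.hS
    rw [hε] at hu1 ⊢
    have := sub_nonneg.2 (Mid.eps_le_one p)
    positivity
  obtain ⟨E, ev, hE, hev, h⟩ := withExp_sound hS hT (he.Eh.mul hP hS hT)
    (mul_nonneg (hε ▸ hε0) hPn) h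
  have hlt := ps_lt hS hT h (hTp.sub (hhb.mul hE hS hT))
  refine ⟨hps0, ?_⟩
  have hε := eps_eq hτ
  have hot0 : 0 < 1 - τ := he.h1
  have hε0 := eps_nonneg p
  set q := rn c.K * (psv * (1 - τ)) * (((2 : ℕ) : ℝ) / ((1 : ℕ) : ℝ) + rn c.K * (psv * (1 - τ)) * (τ / (1 - τ))) *
    (x ^ 2 * ((1 - τ) * (1 / (1 - x ^ 2 * τ)))) with hqd
  have hq0 : 0 ≤ q := by
    have := Mid.rn_nonneg c.K
    have := hv.hS
    rw [hqd, hε]; positivity
  have hu0 : 0 ≤ τ / (1 - τ) * (τ / (1 - τ)) * q := by rw [hε]; positivity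
  have hMA : Mid.MA (epsP p) (XP p y) = (1 - τ) * (1 / (1 - x ^ 2 * τ)) := by
    have := hv.hS.ne'
    have := he.h1.ne'
    rw [Mid.MA, ← hε, ← hx]
    field_simp
    ring
  have hph := Mid.phi_le (p := p) hpt.hy (v := rn c.K * ((1 - tau p) * psv)) (q := q)
    (u := τ / (1 - τ) * (τ / (1 - τ)) * q) (rec := (1 - τ / (1 - τ) * (τ / (1 - τ)) * q)⁻¹)
    (by rw [hqd, hMA, hx, ← hτ, ← hε]; push_cast; ring) (by rw [hε]; ring) (by linarith)
    ((one_le_inv₀ hu1).2 (by linarith)) (by rw [inv_mul_cancel₀ hu1.ne'])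
  refine psi_ahead (e := ev) hpt hp hk (hkK.trans hK) hkK hθ hfwd hH hps0 ?_ hPn
    (by rw [← hε]; exact hev) (by rw [← hτ]; linarith)
  refine ⟨hph.1, hph.2.1, hph.2.2.trans (le_of_eq ?_)⟩
  rw [← hε]; push_cast; ring

end Vale.Agent.P237.All.Transport.Small.Large
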