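import Vale.Agent.P237.All.Small.Large.SoundCore
import Vale.Agent.P237.All.Small.Large.Budget
import Vale.Agent.P237.All.Mid.Weight

/-!
P237, every dimension, excess `k ≤ .0134`: the integral test of a slice bounds the integral of the
interpolation of the nodes against the weight, with the reservoir.
-/

noncomputable section

open Real Set MeasureTheory intervalIntegral

namespace Vale.Agent.P237.All.Transport.Small.Large

open Mid (Sg AF rn)

variable {lo hi : ℕ} {t u s : ℝ} {kk : Bool}

/-- The interpolation along the chain of nodes. -/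
def chainP (kk : Bool) (u : ℝ) : Node → List Node → ℝ → ℝ
  | a, [] => fun _ => a.val kk u
  | a, b :: l => fun x =>
    if x ≤ rn b.x then ((rn b.x - x) * a.val kk u + (x - rn a.x) * b.val kk u) / (rn b.x - rn a.x)
    else chainP kk u b l x

theorem chainUp_lt {a b : Node} {l : List Node} (h : chainUp a (b :: l) = true) :
    rn a.x < rn b.x ∧ chainUp b l = true := by
  rw [chainUp, Bool.and_eq_true] at h
  refine ⟨?_, h.2⟩
  exact div_lt_div_of_pos_right (Nat.cast_lt.2 (Nat.le_of_ble_eq_true h.1)) (by norm_num)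

theorem chainP_start : ∀ {a : Node} {l : List Node}, chainUp a l = true →
    chainP kk u a l (rn a.x) = a.val kk u
  | a, [], _ => rfl
  | a, b :: l, h => by
    obtain ⟨h1, -⟩ := chainUp_lt h
    have := (sub_pos.2 h1).ne'
    simp only [chainP, if_pos h1.le]
    field_simp
    ring

theorem chainP_continuous : ∀ {a : Node} {l : List Node}, chainUp a l = true →
    Continuous (chainP kk u a l)
  | a, [], _ => continuous_const
  | a, b :: l, h => by
    obtain ⟨h1, h2⟩ := chainUp_lt h
    refine Continuous.if_le (by fun_prop) (chainP_continuous h2) continuous_id continuous_const fun x hx => ?_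
    subst hx
    have := (sub_pos.2 h1).ne'
    rw [chainP_start h2]
    field_simp
    ring

theorem Node.val_nonneg (a : Node) (hu : u ∈ Icc (0 : ℝ) 1) : 0 ≤ a.val kk u :=
  add_nonneg (mul_nonneg (sub_nonneg.2 hu.2) (Mid.rn_nonneg _)) (mul_nonneg hu.1 (Mid.rn_nonneg _))

theorem chainP_nonneg (hu : u ∈ Icc (0 : ℝ) 1) : ∀ {a : Node} {l : List Node}, chainUp a l = true →
    ∀ x, rn a.x ≤ x → 0 ≤ chainP kk u a l x
  | a, [], _, _, _ => a.val_nonneg hu
  | a, b :: l, h, x, hx => by
    obtain ⟨h1, h2⟩ := chainUp_lt h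
    simp only [chainP]
    split_ifs with hb
    · exact div_nonneg (add_nonneg (mul_nonneg (sub_nonneg.2 hb) (a.val_nonneg hu))
        (mul_nonneg (sub_nonneg.2 hx) (b.val_nonneg hu))) (sub_nonneg.2 h1.le)
    · exact chainP_nonneg hu h2 x (not_le.1 hb).le

theorem sqDn_ge : ∀ n r : ℕ, 16777216 ≤ r → 16777216 ≤ Mid.sqDn n r
  | 0, _, h => h
  | n + 1, r, h => by
    rw [Mid.sqDn, Mid.forceN_eq]
    refine sqDn_ge n _ ?_
    rw [Mid.nat_div_def, Nat.le_div_iff_mul_le (by norm_num)]
    exact Nat.mul_le_mul h h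

theorem expLo_ge (v : ℕ) : 16777216 ≤ Mid.expLo v := by
  rw [Mid.expLo, Mid.forceN_eq]
  exact sqDn_ge 12 _ (le_add_right (Nat.le_add_right _ _))

theorem weightUp_sound {x : ℕ} (hlo : rn lo ≤ t) (hhi : t ≤ rn hi) (ht1 : rn hi ≤ 1) :
    exp (-qB t (rn x)) ≤ rn (weightUp lo hi x) := by
  have hhi1 : hi ≤ 16777216 := by
    rw [rn, div_le_one (by norm_num)] at ht1; exact_mod_cast ht1
  simp only [weightUp, Mid.forceN_eq]
  set X := Nat.div (Nat.mul x x) 16777216 with hXd
  set z := Nat.div (Nat.mul (Nat.sub 16777216 hi) (Nat.add (Nat.div X 2)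
    (Nat.div (Nat.mul (Nat.mul X X) lo) (4 * 16777216 * 16777216)))) 16777216
  have hX : rn X ≤ rn x ^ 2 := by
    refine le_trans (div_le_div_of_nonneg_right (Mid.cast_div_le _ _) (by norm_num)) (le_of_eq ?_)
    simp only [rn, Nat.mul_eq]; push_cast; ring
  have hz : rn z ≤ qB t (rn x) := by
    refine le_trans (div_le_div_of_nonneg_right (Mid.cast_div_le _ _) (by norm_num)) ?_
    have a1 := Mid.cast_div_le X 2
    have a2 := Mid.cast_div_le (Nat.mul (Nat.mul X X) lo) (4 * 16777216 * 16777216)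
    simp only [Nat.mul_eq, Nat.add_eq, Nat.sub_eq, Nat.cast_mul, Nat.cast_add, Nat.cast_ofNat,
      Nat.cast_sub hhi1] at a1 a2 ⊢
    rw [qB]
    have h1 : (rn x ^ 2) ^ 2 = rn x ^ 4 := by ring
    have hX2 := pow_le_pow_left₀ (Mid.rn_nonneg X) hX 2
    have hsum : ((Nat.div X 2 : ℕ) : ℝ) / 16777216 +
        ((Nat.div (X * X * lo) (4 * 16777216 * 16777216) : ℕ) : ℝ) / 16777216 ≤
        rn x ^ 2 / 2 + t * rn x ^ 4 / 4 := by
      refine add_le_add ((div_le_div_of_nonneg_right a1 (by norm_num)).trans ?_)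
        ((div_le_div_of_nonneg_right a2 (by norm_num)).trans ?_)
      · rw [div_right_comm]
        exact div_le_div_of_nonneg_right hX (by norm_num)
      · have h3 := mul_le_mul hlo hX2 (sq_nonneg _) ((Mid.rn_nonneg lo).trans hlo)
        rw [← h1]
        refine le_trans (le_of_eq ?_) (div_le_div_of_nonneg_right h3 (by norm_num : (0 : ℝ) ≤ 4))
        simp only [rn]; ring
    have hh : ((16777216 : ℝ) - hi) / 16777216 ≤ 1 - t := by
      rw [sub_div, div_self (by norm_num)]
      simp only [rn] at hhi; linarith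
    have h4 := mul_le_mul hh hsum (add_nonneg (by positivity) (by positivity))
      (by linarith [hhi.trans ht1])
    refine le_trans (le_of_eq ?_) h4
    ring
  have hp : (0 : ℝ) < rn (Mid.expLo z) :=
    div_pos (Nat.cast_pos.2 (Nat.lt_of_lt_of_le (by norm_num) (expLo_ge z))) (by norm_num)
  refine (exp_le_exp.2 (neg_le_neg hz)).trans ?_
  rw [Real.exp_neg]
  refine le_trans (inv_anti₀ hp (Mid.expLo_sound z)) (le_trans (le_of_eq ?_)
    (Mid.rn_cdiv _ (Nat.lt_of_lt_of_le (by norm_num) (expLo_ge z))))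
  simp only [rn, inv_div]; push_cast; ring

/-- The weight at `x`, and zero beyond `√(p + 2)`. -/
theorem weight_all (p : ℕ) {x : ℝ} (hx : 0 ≤ x) :
    semi (x / √((p : ℝ) + 2)) ^ (p + 1) ≤ exp (-qB (tau p) x) := by
  rcases le_total x (√((p : ℝ) + 2)) with h | h
  · exact weight_le hx h
  · have hs : 0 < √((p : ℝ) + 2) := Real.sqrt_pos.2 (by positivity)
    have h1 : 1 ≤ (x / √((p : ℝ) + 2)) ^ 2 := one_le_pow₀ ((one_le_div hs).2 h)
    rw [semi, Real.sqrt_eq_zero_of_nonpos (by linarith), zero_pow (Nat.succ_ne_zero p)]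
    exact (exp_pos _).le

/-- Six times the integral, at one place of the slice. -/
def sum6R (lo hi : ℕ) (kk : Bool) (u : ℝ) (a : Node) (l : List Node) : ℝ :=
  (1 - u) * ((sum6 lo hi kk false a l : ℕ) : ℝ) + u * ((sum6 lo hi kk true a l : ℕ) : ℝ)

theorem sum6R_nonneg (hu : u ∈ Icc (0 : ℝ) 1) (a : Node) (l : List Node) : 0 ≤ sum6R lo hi kk u a l :=
  add_nonneg (mul_nonneg (sub_nonneg.2 hu.2) (Nat.cast_nonneg _)) (mul_nonneg hu.1 (Nat.cast_nonneg _))

theorem int_chain {p : ℕ} (hu : u ∈ Icc (0 : ℝ) 1) (hlo : rn lo ≤ tau p) (hhi : tau p ≤ rn hi)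
    (hhi4 : rn hi ≤ 1 / 4) : ∀ {a : Node} {l : List Node}, chainUp a l = true → endZero a l = true →
      ∀ M, rn a.x ≤ M →
        ∫ x in rn a.x..M, semi (x / √((p : ℝ) + 2)) ^ (p + 1) * chainP kk u a l x ≤
          sum6R lo hi kk u a l / (6 * 16777216 ^ 3)
  | a, [], _, he, M, hM => by
    have h0 : a.val kk u = 0 := by
      simp only [endZero, Nat.beq_eq, Nat.add_eq, Nat.add_eq_zero] at he
      obtain ⟨⟨h1, h2⟩, h3, h4⟩ := he
      cases kk <;> simp [Node.val, Node.get, h1, h2, h3, h4, rn]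
    simp [chainP, h0, sum6R, sum6]
  | a, b :: l, hup, he, M, hM => by
    obtain ⟨h1, h2⟩ := chainUp_lt hup
    rw [endZero] at he
    set w := fun x : ℝ => semi (x / √((p : ℝ) + 2)) ^ (p + 1) with hwd
    have hwc : Continuous w := (semi_continuous.comp (continuous_id.div_const _)).pow _
    have hPc : Continuous (chainP kk u a (b :: l)) := chainP_continuous hup
    have ha0 := Mid.rn_nonneg a.x
    have hw0 : ∀ x : ℝ, 0 ≤ w x := fun x => pow_nonneg (Real.sqrt_nonneg _) _
    set h : ℝ := ((Nat.sub b.x a.x : ℕ) : ℝ) with hhd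
    have hab : a.x ≤ b.x := (Nat.le_of_ble_eq_true (show Nat.blt a.x b.x = true by
      rw [chainUp, Bool.and_eq_true] at hup; exact hup.1)).trans' (Nat.le_succ _)
    have hh : h = (rn b.x - rn a.x) * 16777216 := by
      rw [hhd, Nat.sub_eq, Nat.cast_sub hab]; simp only [rn]; ring
    have hQn : ∀ x ∈ Icc (rn a.x) (rn b.x), chainP kk u a (b :: l) x =
        ((rn b.x - x) * a.val kk u + (x - rn a.x) * b.val kk u) / (rn b.x - rn a.x) :=
      fun x hx => by simp only [chainP, if_pos hx.2]
    obtain ⟨cv, hcv0, hcv1, hcvle⟩ : ∃ cv : ℝ, 0 ≤ cv ∧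
        (1 ≤ cv ∨ 1 ≤ (1 - 2 * tau p) * rn a.x ^ 2) ∧ ∀ e : Bool,
          cv * (h ^ 3 * ((a.get kk e : ℝ) + b.get kk e) / (4 * 16777216)) ≤
            ((cond (convexAt hi a.x) 0
              (Mid.cdiv (Nat.mul (Nat.mul (Nat.mul (Nat.sub b.x a.x) (Nat.mul (Nat.sub b.x a.x) (Nat.sub b.x a.x)))
                (Nat.add (a.get kk e) (b.get kk e))) (Nat.add 16777216 (Nat.mul 3 hi)))
                (4 * 16777216 * 16777216)) : ℕ) : ℝ) := by
      cases hc : convexAt hi a.x with
      | true =>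
        refine ⟨0, le_rfl, Or.inr ?_, fun e => by simp⟩
        rw [convexAt] at hc
        have h0 := Nat.cast_le (α := ℝ).2 (Nat.le_of_ble_eq_true hc)
        simp only [Nat.mul_eq, Nat.cast_mul, Nat.cast_ofNat, Nat.sub_eq] at h0
        have hh4 : 4 * hi ≤ 16777216 := by
          rw [rn, div_le_iff₀ (by norm_num)] at hhi4
          have : (4 * hi : ℝ) ≤ 16777216 := by linarith
          exact_mod_cast this
        rw [Nat.cast_sub hh4, Nat.cast_mul] at h0
        push_cast at h0
        have h5 : (1 : ℝ) ≤ (1 - 4 * rn hi) * rn a.x ^ 2 := by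
          simp only [rn]
          field_simp
          linarith
        refine h5.trans (mul_le_mul_of_nonneg_right ?_ (sq_nonneg _))
        linarith [tau_pos p]
      | false =>
        refine ⟨1 + 3 * rn hi, by linarith [Mid.rn_nonneg hi], Or.inl (by linarith [Mid.rn_nonneg hi]),
          fun e => ?_⟩
        rw [cond_false]
        have hU3 : ∀ A B : ℕ, ((Nat.add A (Nat.mul 3 B) : ℕ) : ℝ) = (A : ℝ) + 3 * (B : ℝ) :=
          fun A B => by simp
        have hge : ∀ A D : ℕ, 0 < D → (A : ℝ) / D ≤ ((Mid.cdiv A D : ℕ) : ℝ) :=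
          fun A D hD => Mid.cdiv_ge A hD
        refine le_trans (le_of_eq ?_) (hge _ _ (by norm_num))
        rw [Nat.mul_eq (x := Nat.mul _ _), Nat.cast_mul, hU3]
        simp only [Nat.mul_eq, Nat.add_eq, Nat.cast_mul, Nat.cast_add, Nat.cast_ofNat, rn, ← hhd]
        ring
    have hWa := weightUp_sound (x := a.x) hlo hhi (hhi4.trans (by norm_num))
    have hWb := weightUp_sound (x := b.x) hlo hhi (hhi4.trans (by norm_num))
    have hwle : ∀ x ∈ Icc (rn a.x) (rn b.x), w x ≤ exp (-qB (tau p) x) :=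
      fun x hx => weight_all p (ha0.trans hx.1)
    have hpiece := piece_int (tau_pos p).le (hhi.trans hhi4) ha0 h1 hcv0 hcv1 hWa hWb (a.val_nonneg hu)
      (b.val_nonneg hu) hPc hwc hQn hwle
    have hstep : ∀ e : Bool,
        h * ((a.get kk e : ℝ) * (2 * weightUp lo hi a.x + weightUp lo hi b.x) +
            (b.get kk e : ℝ) * (weightUp lo hi a.x + 2 * weightUp lo hi b.x)) +
          cv * (h ^ 3 * ((a.get kk e : ℝ) + b.get kk e) / (4 * 16777216)) +
            ((sum6 lo hi kk e b l : ℕ) : ℝ) ≤ ((sum6 lo hi kk e a (b :: l) : ℕ) : ℝ) := fun e => by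
      simp only [sum6, Mid.forceN_eq, Nat.add_eq, Nat.mul_eq, Nat.cast_add, Nat.cast_mul, Nat.cast_ofNat, hhd]
      have := hcvle e
      simp only [Nat.add_eq, Nat.mul_eq] at this
      linarith
    have hint : ∀ p q : ℝ, IntervalIntegrable (fun x => w x * chainP kk u a (b :: l) x) volume p q :=
      fun _ _ => (hwc.mul hPc).intervalIntegrable _ _
    have hnn : ∀ x, rn a.x ≤ x → 0 ≤ w x * chainP kk u a (b :: l) x :=
      fun x hx => mul_nonneg (hw0 x) (chainP_nonneg hu hup x hx)
    have key : (∫ x in rn a.x..rn b.x, w x * chainP kk u a (b :: l) x) +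
        sum6R lo hi kk u b l / (6 * 16777216 ^ 3) ≤ sum6R lo hi kk u a (b :: l) / (6 * 16777216 ^ 3) := by
      refine (add_le_add hpiece le_rfl).trans ?_
      rw [le_div_iff₀ (by norm_num)]
      have f0 := mul_le_mul_of_nonneg_left (hstep false) (sub_nonneg.2 hu.2)
      have f1 := mul_le_mul_of_nonneg_left (hstep true) hu.1
      rw [hh] at f0 f1
      simp only [sum6R, Node.val, rn] at f0 f1 ⊢
      refine le_trans (le_of_eq ?_) (add_le_add f0 f1)
      ring
    rcases le_or_gt M (rn b.x) with hMb | hMb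
    · refine le_trans ?_ ((le_add_of_nonneg_right (div_nonneg (sum6R_nonneg hu b l) (by norm_num))).trans key)
      rw [← intervalIntegral.integral_add_adjacent_intervals (hint (rn a.x) M) (hint M (rn b.x))]
      exact le_add_of_nonneg_right (intervalIntegral.integral_nonneg hMb fun x hx => hnn x (hM.trans hx.1))
    · refine le_trans ?_ key
      rw [← intervalIntegral.integral_add_adjacent_intervals (hint (rn a.x) (rn b.x)) (hint (rn b.x) M)]
      refine add_le_add le_rfl (le_trans (le_of_eq ?_) (int_chain hu hlo hhi hhi4 h2 he M hMb.le))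
      refine intervalIntegral.integral_congr_ae (Filter.Eventually.of_forall fun x hx => ?_)
      rw [uIoc_of_le hMb.le] at hx
      simp only [hwd, chainP, if_neg (not_le.2 hx.1)]

/-- The reservoir. -/
theorem dl_int (p : ℕ) {dl : ℝ} (hdl : 0 ≤ dl) :
    √((p : ℝ) + 2) * ∫ y in (0 : ℝ)..1, dl / (1 + ((p : ℝ) + 2) * y ^ 2) ≤ dl * (π / 2) := by
  have hsq : √((p : ℝ) + 2) ^ 2 = (p : ℝ) + 2 := Real.sq_sqrt (by positivity)
  have e : ∀ y : ℝ, dl / (1 + ((p : ℝ) + 2) * y ^ 2) = dl * (1 + (√((p : ℝ) + 2) * y) ^ 2)⁻¹ := fun y => by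
    rw [mul_pow, hsq, div_eq_mul_inv]
  have hint := intervalIntegral.mul_integral_comp_mul_left (a := 0) (b := 1)
    (f := fun x : ℝ => (1 + x ^ 2)⁻¹) (√((p : ℝ) + 2))
  rw [intervalIntegral.integral_congr fun y _ => e y, intervalIntegral.integral_const_mul,
    mul_left_comm, hint, mul_zero, mul_one, integral_inv_one_add_sq, Real.arctan_zero, sub_zero]
  exact mul_le_mul_of_nonneg_left (Real.arctan_lt_pi_div_two _).le hdl

/-- The bound of a slice at the fraction `s` of the greatest excess. -/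
def chainK (u s : ℝ) (a : Node) (l : List Node) (x : ℝ) : ℝ :=
  (1 - s) * chainP false u a l x + s * chainP true u a l x

/-- The function of `Bounded`. -/
def piFun (p : ℕ) (dl u s : ℝ) (a : Node) (l : List Node) (y : ℝ) : ℝ :=
  semi y ^ (p + 1) * chainK u s a l (√((p : ℝ) + 2) * y) + dl / (1 + ((p : ℝ) + 2) * y ^ 2)

theorem piFun_continuous {p : ℕ} {dl : ℝ} {a : Node} {l : List Node} (h : chainUp a l = true) :
    Continuous (piFun p dl u s a l) := by
  have := chainP_continuous (kk := false) (u := u) h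
  have := chainP_continuous (kk := true) (u := u) h
  have := semi_continuous
  unfold piFun chainK
  refine Continuous.add (by fun_prop) (Continuous.div continuous_const (by fun_prop) fun y => ?_)
  positivity

theorem budgetOK_sound {c : Cell} {e : Env} {T : ℝ} {tc hh : ℕ} {n : Node} {l : List Node} {p : ℕ}
    (hT : |T| ≤ 1) (hp : 29 ≤ p) (hhh : hh ≤ tc) (hτ : tauOf tc hh T = tau p) (hhi : tc + hh ≤ 1677722)
    (hs : s ∈ Icc (0 : ℝ) 1) (hb : budgetOK c tc hh n l = true) (he : EnvHas c e (-1) T (tauOf tc hh T))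
    (hG : 0 ≤ (c.co (tau p)).G) :
    ∫ y in (0 : ℝ)..1, piFun p (rn c.dl) ((1 + T) / 2) s n l y <
      2 * (c.co (tau p)).G * (((p : ℝ) + 2) / ((p : ℝ) + 1)) ^ 2 * mass (p + 1) semi 1 := by
  have hS : |(-1 : ℝ)| ≤ 1 := by norm_num
  obtain ⟨e', he', hb⟩ := withEnv_sound (S := -1) (T := T) hS hT (by rw [← budgetOK]; exact hb)
  simp only [AF.force_eq, Mid.forceN_eq, Bool.and_eq_true] at hb
  obtain ⟨⟨⟨⟨⟨⟨hx0, hup⟩, hz⟩, h00⟩, h01⟩, h10⟩, h11⟩ := hb
  have hu : (1 + T) / 2 ∈ Icc (0 : ℝ) 1 := unit_mem hT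
  set u := (1 + T) / 2 with hud
  have hgf := (((has_cst 42053632).mul (he'.G.mul (he'.i1.mul he'.i1 hS hT) hS hT) hS hT).mul
    (has_one.sub (has_ratio hS hT he'.t 1 2 two_pos)) hS hT)
  set g := (((cst 42053632).mul (e'.G.mul (e'.i1.mul e'.i1))).mul (one.sub (e'.t.scale 1 2))) with hgd
  have hlo := AF.Has.lo_le (f := g) (a := 0) (b := u) (by
    rw [show 2 * u - 1 = T by rw [hud]; ring, show (2 : ℝ) * 0 - 1 = -1 by norm_num]
    exact hgf)
  simp only [Mid.interp, sub_zero, one_mul, zero_mul, add_zero] at hlo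
  -- the place of the slice
  have hτr : rn (Nat.sub tc hh) ≤ tau p ∧ tau p ≤ rn (Nat.add tc hh) := by
    rw [← hτ, tauOf, Nat.sub_eq, Nat.add_eq, rn, rn, Nat.cast_sub hhh, Nat.cast_add]
    obtain ⟨h1, h2⟩ := abs_le.1 hT
    have h3 := mul_le_mul_of_nonneg_left h1 (Nat.cast_nonneg (α := ℝ) hh)
    have h4 := mul_le_mul_of_nonneg_left h2 (Nat.cast_nonneg (α := ℝ) hh)
    constructor <;> refine div_le_div_of_nonneg_right ?_ (by norm_num) <;> linarith
  have hhi4 : rn (Nat.add tc hh) ≤ 1 / 4 := by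
    rw [Nat.add_eq, rn, div_le_iff₀ (by norm_num)]
    have : ((tc + hh : ℕ) : ℝ) ≤ 1677722 := by exact_mod_cast hhi
    linarith
  have hx0' : rn n.x = 0 := by rw [Nat.eq_of_beq_eq_true hx0]; simp [rn]
  set sA := √((p : ℝ) + 2) with hsA
  have hsA0 : 0 < sA := Real.sqrt_pos.2 (by positivity)
  -- the two sums
  have hP : ∀ kk : Bool, sA * ∫ y in (0 : ℝ)..1, semi y ^ (p + 1) * chainP kk u n l (sA * y) ≤
      sum6R (Nat.sub tc hh) (Nat.add tc hh) kk u n l / (6 * 16777216 ^ 3) := fun kk => by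
    have e := int_scale p (fun y => semi y ^ (p + 1) * chainP kk u n l (sA * y)) 0 sA
    rw [zero_div, div_self hsA0.ne'] at e
    rw [e]
    have e2 : ∀ x : ℝ, sA * (x / sA) = x := fun x => mul_div_cancel₀ x hsA0.ne'
    have e3 : (∫ x in (0 : ℝ)..sA, semi (x / sA) ^ (p + 1) * chainP kk u n l (sA * (x / sA))) =
        ∫ x in (0 : ℝ)..sA, semi (x / sA) ^ (p + 1) * chainP kk u n l x :=
      intervalIntegral.integral_congr fun x _ => by rw [e2]
    rw [e3]
    have := int_chain (kk := kk) hu hτr.1 hτr.2 hhi4 hup hz sA (hx0' ▸ hsA0.le)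
    rwa [hx0'] at this
  have hdl := dl_int p (Mid.rn_nonneg c.dl)
  have hpi : π / 2 ≤ rn 26353590 := by
    have := Real.pi_lt_d20
    simp only [rn]; push_cast; linarith
  -- the test
  have hsum : ∀ kk : Bool, sum6R (Nat.sub tc hh) (Nat.add tc hh) kk u n l +
      6 * 16777216 * ((c.dl : ℝ) * 26353590) < 6 * 16777216 * 16777216 * ((1 - u) * (g.lo false false).v +
        u * (g.lo false true).v) := fun kk => by
    have key : ∀ e : Bool, sumOK c.dl (Nat.sub tc hh) (Nat.add tc hh) g kk e n l = true →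
        ((sum6 (Nat.sub tc hh) (Nat.add tc hh) kk e n l : ℕ) : ℝ) + 6 * 16777216 * ((c.dl : ℝ) * 26353590) <
          6 * 16777216 * 16777216 * (g.lo false e).v := fun e he => by
      rw [sumOK] at he
      have h0 := Nat.cast_lt (α := ℝ).2 (Nat.le_of_ble_eq_true he)
      simp only [Nat.mul_eq, Nat.add_eq, Nat.cast_add, Nat.cast_mul, Nat.cast_ofNat] at h0
      refine h0.trans_le (le_of_eq ?_)
      have hpos : 0 < (g.lo false e).posPart := by
        rcases Nat.eq_zero_or_pos (g.lo false e).posPart with hz0 | hz0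
        · rw [hz0, Nat.cast_zero, mul_zero] at h0
          exact absurd h0 (not_lt.2 (by positivity))
        · exact hz0
      rw [Sg.posPart_def] at hpos ⊢
      rw [Sg.v_split, Nat.sub_eq_zero_of_le (show (g.lo false e).neg ≤ (g.lo false e).pos by omega),
        Nat.cast_zero, sub_zero]
    have hf : sumOK c.dl (Nat.sub tc hh) (Nat.add tc hh) g kk false n l = true := by
      cases kk
      · exact h00
      · exact h10
    have ht : sumOK c.dl (Nat.sub tc hh) (Nat.add tc hh) g kk true n l = true := by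
      cases kk
      · exact h01
      · exact h11
    have k0 := key false hf
    have k1 := key true ht
    simp only [sum6R]
    rcases eq_or_lt_of_le hu.1 with h0 | h0
    · rw [← h0]; linarith
    · have := mul_lt_mul_of_pos_left k1 h0
      have := mul_le_mul_of_nonneg_left k0.le (sub_nonneg.2 hu.2)
      linarith
  -- the left side, scaled
  have hc0 := chainP_continuous (kk := false) (u := u) hup
  have hc1 := chainP_continuous (kk := true) (u := u) hup
  have hsc := semi_continuous
  have i0 : IntervalIntegrable (fun y => semi y ^ (p + 1) * chainP false u n l (sA * y)) volume 0 1 :=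
    (by fun_prop : Continuous _).intervalIntegrable _ _
  have i1 : IntervalIntegrable (fun y => semi y ^ (p + 1) * chainP true u n l (sA * y)) volume 0 1 :=
    (by fun_prop : Continuous _).intervalIntegrable _ _
  have i2 : IntervalIntegrable (fun y => rn c.dl / (1 + ((p : ℝ) + 2) * y ^ 2)) volume 0 1 :=
    (Continuous.div continuous_const (by fun_prop) fun y => by positivity).intervalIntegrable _ _
  have e0 : ∫ y in (0 : ℝ)..1, piFun p (rn c.dl) u s n l y =
      (1 - s) * (∫ y in (0 : ℝ)..1, semi y ^ (p + 1) * chainP false u n l (sA * y)) +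
        s * (∫ y in (0 : ℝ)..1, semi y ^ (p + 1) * chainP true u n l (sA * y)) +
        ∫ y in (0 : ℝ)..1, rn c.dl / (1 + ((p : ℝ) + 2) * y ^ 2) := by
    rw [← intervalIntegral.integral_const_mul, ← intervalIntegral.integral_const_mul,
      ← intervalIntegral.integral_add (i0.const_mul _) (i1.const_mul _),
      ← intervalIntegral.integral_add ((i0.const_mul _).add (i1.const_mul _)) i2]
    refine intervalIntegral.integral_congr fun y _ => ?_
    simp only [piFun, chainK, ← hsA]; ring
  have hL : sA * ∫ y in (0 : ℝ)..1, piFun p (rn c.dl) u s n l y <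
      ((1 - u) * (g.lo false false).v + u * (g.lo false true).v) / 16777216 := by
    rw [e0, mul_add, mul_add]
    have a0 := mul_le_mul_of_nonneg_left (hP false) (sub_nonneg.2 hs.2)
    have a1 := mul_le_mul_of_nonneg_left (hP true) hs.1
    have a2 := hdl.trans (mul_le_mul_of_nonneg_left hpi (Mid.rn_nonneg c.dl))
    rw [show rn c.dl * rn 26353590 = (c.dl : ℝ) * 26353590 / (16777216 * 16777216) by
      simp only [rn]; push_cast; ring] at a2
    have b0 := hsum false
    have b1 := hsum true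
    rcases eq_or_lt_of_le hs.1 with h0 | h0
    · rw [← h0] at a0 a1 ⊢
      have := mul_lt_mul_of_pos_left b0 (show (0 : ℝ) < 1 / (6 * 16777216 ^ 3) by norm_num)
      linarith
    · have := mul_lt_mul_of_pos_left b1 (mul_pos h0 (show (0 : ℝ) < 1 / (6 * 16777216 ^ 3) by norm_num))
      have := mul_le_mul_of_nonneg_left b0.le
        (mul_nonneg (sub_nonneg.2 hs.2) (show (0 : ℝ) ≤ 1 / (6 * 16777216 ^ 3) by norm_num))
      linarith
  have hm := mass_budget hp
  have hg1 : ((1 - u) * (g.lo false false).v + u * (g.lo false true).v) / 16777216 ≤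
      2 * (c.co (tau p)).G * (((p : ℝ) + 2) / ((p : ℝ) + 1)) ^ 2 * (sA * mass (p + 1) semi 1) := by
    refine le_trans ((div_le_iff₀ (by norm_num)).2 (hlo.trans (le_of_eq (by rw [cast_U])))) ?_
    refine le_trans ?_ (mul_le_mul_of_nonneg_left hm (by positivity))
    rw [hτ]
    have e1 : 1 / (1 - tau p) = ((p : ℝ) + 2) / ((p : ℝ) + 1) := by
      rw [(tau_facts p (y := 0)).1, one_div_div]
    rw [e1]
    push_cast
    have h2 : 0 ≤ (c.co (tau p)).G * (((p : ℝ) + 2) / ((p : ℝ) + 1)) ^ 2 * (1 - tau p / 2) := by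
      have : 0 ≤ 1 - tau p / 2 := by
        have := hτr.2.trans hhi4
        linarith
      positivity
    have h3 : rn 42053632 ≤ 2 * (12533 / 10000) := by norm_num [rn]
    have := mul_le_mul_of_nonneg_right h3 h2
    linarith
  refine lt_of_mul_lt_mul_left (hL.trans_le (hg1.trans (le_of_eq ?_))) hsA0.le
  ring

end Vale.Agent.P237.All.Transport.Small.Large
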