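import Vale.Agent.P237.All.Small.Large.SoundAux
import Vale.Agent.P237.All.Small.Large.Quad
import Vale.Agent.P237.All.Small.Large.Side

/-!
P237, every dimension, excess `k ≤ .0134`: what both sides of a box share: the nodes, the multiplier,
the curvature, the quadratic at the two ends of `k`.
-/

noncomputable section

open Real Set

namespace Vale.Agent.P237.All.Transport.Small.Large

open Mid (Sg AF rn U U_pos interp interp_mono)

variable {S T : ℝ}

theorem nmin_le (a b : ℕ) : Mid.nmin a b ≤ a ∧ Mid.nmin a b ≤ b := by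
  rcases h : Nat.ble a b with _ | _
  · have : ¬ a ≤ b := fun hab => by rw [← Nat.ble_eq, h] at hab; exact Bool.noConfusion hab
    simp only [Mid.nmin, h, cond_false]; omega
  · have := Nat.le_of_ble_eq_true h
    simp only [Mid.nmin, h, cond_true]; omega

/-- The value of a node at an end of `k`, at the place `u` of `[0, 1]` in the slice. -/
def Node.val (n : Node) (kk : Bool) (u : ℝ) : ℝ :=
  (1 - u) * rn (n.get kk false) + u * rn (n.get kk true)

/-- The bound of a segment at an end of `k`. -/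
def segVal (n0 n1 : Node) (kk : Bool) (a u : ℝ) : ℝ := (1 - a) * n0.val kk u + a * n1.val kk u

/-- The bound of a segment at the fraction `s` of the greatest excess. -/
def segPi (n0 n1 : Node) (a u s : ℝ) : ℝ :=
  (1 - s) * segVal n0 n1 false a u + s * segVal n0 n1 true a u

theorem unit_mem (h : |S| ≤ 1) : (1 + S) / 2 ∈ Icc (0 : ℝ) 1 := by
  obtain ⟨a, b⟩ := abs_le.1 h
  constructor <;> linarith

theorem use_le (n : Node) (whole kk : Bool) {w u : ℝ} (hw : w ∈ Icc (0 : ℝ) 1) (hu : u ∈ Icc (0 : ℝ) 1)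
    (hwh : whole = true → u = w) :
    (1 - w) * rn (n.use whole kk false) + w * rn (n.use whole kk true) ≤ n.val kk u := by
  cases whole with
  | true => rw [hwh rfl]; rfl
  | false =>
    simp only [Node.use, cond_false, Node.val]
    set f := rn (n.get kk false)
    set t := rn (n.get kk true)
    have h1 : rn (Mid.nmin (n.get kk false) (n.get kk true)) ≤ f := Mid.rn_le (nmin_le _ _).1
    have h2 : rn (Mid.nmin (n.get kk false) (n.get kk true)) ≤ t := Mid.rn_le (nmin_le _ _).2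
    have := mul_le_mul_of_nonneg_left h1 (sub_nonneg.2 hu.2)
    have := mul_le_mul_of_nonneg_left h2 hu.1
    linarith

theorem below_sound {n0 n1 : Node} {whole kk : Bool} {f g : AF} {fv gv u : ℝ} (hS : |S| ≤ 1)
    (hT : |T| ≤ 1) (hf : f.Has S T fv) (hg : g.Has S T gv) (hu : u ∈ Icc (0 : ℝ) 1)
    (hwh : whole = true → u = (1 + T) / 2) (h : below n0 n1 whole kk f g = true) :
    fv + gv ≤ segVal n0 n1 kk ((1 + S) / 2) u := by
  simp only [below, Bool.and_eq_true] at h
  obtain ⟨⟨⟨h00, h10⟩, h01⟩, h11⟩ := h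
  have eS : S = 2 * ((1 + S) / 2) - 1 := by ring
  have eT : T = 2 * ((1 + T) / 2) - 1 := by ring
  have ha := unit_mem hS
  have hw := unit_mem hT
  set a := (1 + S) / 2 with had
  set w := (1 + T) / 2 with hwd
  rw [eS, eT] at hf hg
  have h1 := add_le_add hf.le_hi hg.le_hi
  rw [← Mid.interp_add] at h1
  have h2 := h1.trans (interp_mono ha hw
    (G := fun i j => (((if i then n1 else n0).use whole kk j : ℕ) : ℝ)) fun i j => by
      have key : ∀ {i j : Bool} {N : ℕ}, Sg.le ((f.hi i j).add (g.hi i j)) (Sg.ofN N) = true →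
          (f.hi i j).v + (g.hi i j).v ≤ (N : ℝ) := fun h => by
        have := Sg.le_iff h
        rwa [Sg.add_v, Sg.ofN_v] at this
      cases i <;> cases j <;> simp only [Bool.false_eq_true, if_false, if_true]
      · exact key h00
      · exact key h01
      · exact key h10
      · exact key h11)
  have e : interp a w (fun i j => (((if i then n1 else n0).use whole kk j : ℕ) : ℝ)) =
      ((1 - a) * ((1 - w) * rn (n0.use whole kk false) + w * rn (n0.use whole kk true)) +
        a * ((1 - w) * rn (n1.use whole kk false) + w * rn (n1.use whole kk true))) * U := by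
    simp only [interp, Bool.false_eq_true, if_false, if_true, rn, cast_U]; ring
  rw [e, ← add_mul] at h2
  refine (le_of_mul_le_mul_right h2 U_pos).trans (add_le_add ?_ ?_)
  · exact mul_le_mul_of_nonneg_left (use_le n0 whole kk hw hu hwh) (sub_nonneg.2 ha.2)
  · exact mul_le_mul_of_nonneg_left (use_le n1 whole kk hw hu hwh) ha.1

/-- The value of the multiplier. -/
def nuVal (nc nd : Sg) (S : ℝ) : ℝ := (nc.v + nd.v * S) / U

theorem has_nu (nc nd : Sg) : (nuAF nc nd).Has S T (nuVal nc nd S) := by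
  simp [AF.Has, nuAF, nuVal, Sg.v, div_mul_cancel₀ _ Mid.U_ne]

theorem mult_bound (nc nd : Sg) {R K k : ℝ} (hS : |S| ≤ 1) (hk : 0 ≤ k) (hkK : k ≤ K) (hR : 0 ≤ R)
    (hRK : 0 ≤ R - K * nuVal nc nd S) :
    0 ≤ R - k * nuVal nc nd S ∧
      R - k * nuVal nc nd S ≤ R + K * rn (Nat.sub (Nat.add nd.abs' nc.negPart) nc.posPart) := by
  set ν := nuVal nc nd S with hν
  have h1 : -ν ≤ rn (Nat.sub (Nat.add nd.abs' nc.negPart) nc.posPart) := by
    rw [hν, nuVal, rn, cast_U, ← neg_div]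
    refine div_le_div_of_nonneg_right (le_trans ?_ (Mid.cast_sub_ge _ _)) (by norm_num)
    have a := abs_le.1 ((AF.abs_mul_le (Sg.abs_le_abs' nd) hS).trans (le_of_eq (mul_one _)))
    rw [Sg.v_split nc, Nat.add_eq, Nat.cast_add, Sg.negPart_def, Sg.posPart_def]
    linarith
  refine ⟨?_, ?_⟩
  · rcases le_total ν 0 with h | h
    · linarith [mul_nonpos_of_nonneg_of_nonpos hk h]
    · linarith [mul_le_mul_of_nonneg_right hkK h]
  · have := mul_le_mul_of_nonneg_left h1 hk
    have := mul_le_mul_of_nonneg_right hkK (Mid.rn_nonneg (Nat.sub (Nat.add nd.abs' nc.negPart) nc.posPart))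
    linarith

/-- The part of the deficit that is kept. -/
theorem qc_facts {f : AF} {q : ℝ} (hS : |S| ≤ 1) (hT : |T| ≤ 1) (hf : f.Has S T q) (hq : q ≤ 1) :
    rn f.low.posPart ≤ max 0 q ∧ rn f.low.posPart ≤ 1 := by
  have h : rn f.low.posPart ≤ max 0 q := by
    have hl := hf.low_le hS hT
    rw [Sg.v_split] at hl
    rw [rn, Sg.posPart_def]
    rcases le_total f.low.pos f.low.neg with h | h
    · rw [Nat.sub_eq_zero_of_le h]; simp
    · rw [Nat.sub_eq_zero_of_le h, Nat.cast_zero, sub_zero] at hl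
      refine le_max_of_le_right ((div_le_iff₀ (by norm_num)).2 ?_)
      rwa [cast_U] at hl
  exact ⟨h, h.trans (max_le zero_le_one hq)⟩

theorem rhoW_nonneg {W : ℝ} (hW : 1 ≤ W) : 0 ≤ rhoW W := by
  rw [rhoW, sub_nonneg, ← mul_div_assoc, div_le_div_iff₀ (by positivity) (by linarith)]
  nlinarith [mul_nonneg (show 0 ≤ W by linarith) (sq_nonneg (W + 1))]

/-- The curvature of a slice at `p`, from the forms of the checker. -/
theorem kapOK_sound {c : Cell} {e : Env} {kap kp kw iW rho tM tl add : AF}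
    {kv kpv kwv W tMv tlv a1 : ℝ} {τ : ℝ} {p : ℕ} (hS : |S| ≤ 1) (hT : |T| ≤ 1)
    (he : EnvHas c e S T τ) (hτ : τ = tau p) (hp : 1 ≤ p) (hkap : kap.Has S T kv)
    (hkp : kp.Has S T kpv) (hkw : kw.Has S T kwv) (hW : 0 < W) (hiW : iW.Has S T W⁻¹)
    (hrho : rho.Has S T (rhoW W)) (htM : tM.Has S T tMv) (htl : tl.Has S T tlv)
    (h1 : add.Has S T a1)
    (h : kapOK e kap kp kw iW rho tM tl add = true) :
    0 ≤ kwv ∧ kv * W ≤ numUp p kpv kwv W - tMv * rhoW W + a1 ∧
      kv ≤ numLow p kpv kwv - tlv := by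
  simp only [kapOK, AF.force_eq, Bool.and_eq_true] at h
  obtain ⟨hw, hl, hu⟩ := h
  have hh := has_ratio hS hT he.ti2 1 2 two_pos
  have hnum := (hkp.mul (has_one.add (he.ti2.mul hiW hS hT)) hS hT).sub (hkw.mul (hrho.add hh) hS hT)
  have hnl := (hkp.mul (has_one.add he.ti2) hS hT).sub
    (hkw.mul ((has_ratio hS hT has_one 1 2 two_pos).add hh) hS hT)
  have hp0 : (0 : ℝ) < p := Nat.cast_pos.2 hp
  have e1 : τ / (1 - 2 * τ) = 1 / (p : ℝ) := by
    rw [hτ, (tau_facts p (y := 0)).2.1, tau]; field_simp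
  have a := nn_le hS hT hl ((hnl.sub htl).sub hkap)
  have b := nn_le hS hT hu ((((hnum.sub (htM.mul hrho hS hT)).add h1).mul hiW hS hT).sub hkap)
  rw [sub_nonneg] at a b
  rw [← div_eq_mul_inv, le_div_iff₀ hW] at b
  simp only [e1] at a b
  push_cast at a b
  refine ⟨nn_le hS hT hw hkw, b.trans (le_of_eq ?_), a.trans (le_of_eq ?_)⟩
  · simp only [numUp, twS_rho]; field_simp
  · simp only [numLow]; field_simp

/-- The data of the quadratic at the two ends of `k`. -/
structure Ends (r : Cor) (S T M0 MK al base ik : ℝ) : Prop where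
  M0 : r.M0.Has S T M0
  MK : r.MK.Has S T MK
  ik : r.ik.Has S T ik
  al : r.al.Has S T al
  base : r.base.Has S T base

/-- The bracket is affine in `k`. -/
theorem bracket_split {R ν L al eL base C ik X ψ k K s : ℝ} (hs : k = s * K) :
    (R - k * ν) * eL + (R - k * ν) * (X * al) * ψ + X * L * ψ + k * base * ψ ^ 2 +
        k * ((ν + C * ψ) ^ 2 * ik / 4) =
      (1 - s) * (R * eL + (L + al * R) * (X * ψ)) +
        s * qv ((R - K * ν) * eL + (1 : ℕ) / (4 : ℕ) * (K * (ν * ν * ik)))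
          (X * (L + al * (R - K * ν)) + (1 : ℕ) / (2 : ℕ) * (K * ν * (C * ik)))
          (K * (base + (1 : ℕ) / (4 : ℕ) * (C * C * ik))) ψ := by
  subst hs; simp only [qv]; push_cast; ring

theorem end0_sound {c : Cell} {e : Env} {v : Vals} {r : Cor} {n0 n1 : Node} {whole : Bool} {XP : AF}
    {τ x M0 MK al base ik XPv z u : ℝ} (hS : |S| ≤ 1) (hT : |T| ≤ 1) (he : EnvHas c e S T τ)
    (hv : ValsHas c v S T τ x) (hr : Ends r S T M0 MK al base ik) (hXP : XP.Has S T XPv)
    (hu : u ∈ Icc (0 : ℝ) 1) (hwh : whole = true → u = (1 + T) / 2) (hz : Btw XPv z)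
    (h : end0OK e v r n0 n1 whole XP = true) :
    M0 * ((1 - 2 * τ) * (1 / (1 - τ)) * (1 / (1 - τ))) +
        ((c.co τ).L τ (x ^ 2) (c.R.val τ (x ^ 2)) (c.R.der τ (x ^ 2)) + al * M0) * z ≤
      segVal n0 n1 false ((1 + S) / 2) u := by
  simp only [end0OK, AF.force_eq, Bool.and_eq_true] at h
  obtain ⟨hA, hB⟩ := h
  have ha := hr.M0.mul he.eL hS hT
  have ha1 := hv.L.add (hr.al.mul hr.M0 hS hT)
  have a := below_sound hS hT ha has_zero hu hwh hA
  have b := below_sound hS hT (ha.add (ha1.mul hXP hS hT)) has_zero hu hwh hB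
  rw [add_zero] at a b
  obtain ⟨w, ⟨hw0, hw1⟩, rfl⟩ := hz
  have := mul_le_mul_of_nonneg_left a (sub_nonneg.2 hw1)
  have := mul_le_mul_of_nonneg_left b hw0
  linarith

theorem withEndK_sound {c : Cell} {e : Env} {v : Vals} {r : Cor} {C nu : AF} {kont : AF → AF → AF → Bool}
    {τ x M0 MK al base ik Cv ν : ℝ} (hS : |S| ≤ 1) (hT : |T| ≤ 1) (he : EnvHas c e S T τ)
    (hv : ValsHas c v S T τ x) (hr : Ends r S T M0 MK al base ik) (hC : C.Has S T Cv)
    (hnu : nu.Has S T ν) (h : withEndK c e v r C nu kont = true) :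
    ∃ a b1 b2 : AF, kont a b1 b2 = true ∧
      a.Has S T (MK * ((1 - 2 * τ) * (1 / (1 - τ)) * (1 / (1 - τ))) +
        (1 : ℕ) / (4 : ℕ) * (rn c.K * (ν * ν * ik))) ∧
      b1.Has S T (x ^ 2 * ((c.co τ).L τ (x ^ 2) (c.R.val τ (x ^ 2)) (c.R.der τ (x ^ 2)) + al * MK) +
        (1 : ℕ) / (2 : ℕ) * (rn c.K * ν * (Cv * ik))) ∧
      b2.Has S T (rn c.K * (base + (1 : ℕ) / (4 : ℕ) * (Cv * Cv * ik))) := by
  simp only [withEndK, AF.force_eq] at h
  have hK := has_cst (S := S) (T := T) c.K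
  exact ⟨_, _, _, h,
    (hr.MK.mul he.eL hS hT).add (has_ratio hS hT (hK.mul ((hnu.mul hnu hS hT).mul hr.ik hS hT) hS hT) 1 4
      (by norm_num)),
    (hv.X.mul (hv.L.add (hr.al.mul hr.MK hS hT)) hS hT).add
      (has_ratio hS hT ((hK.mul hnu hS hT).mul (hC.mul hr.ik hS hT) hS hT) 1 2 two_pos),
    hK.mul (hr.base.add (has_ratio hS hT ((hC.mul hC hS hT).mul hr.ik hS hT) 1 4 (by norm_num))) hS hT⟩

theorem chordOK_sound {n0 n1 : Node} {whole : Bool} {a b1 b2 P : AF} {av b1v b2v Pv z u : ℝ}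
    (hS : |S| ≤ 1) (hT : |T| ≤ 1) (ha : a.Has S T av) (hb1 : b1.Has S T b1v) (hb2 : b2.Has S T b2v)
    (hP : P.Has S T Pv) (hu : u ∈ Icc (0 : ℝ) 1) (hwh : whole = true → u = (1 + T) / 2)
    (hz : Btw Pv z) (h : chordOK n0 n1 whole a b1 b2 P = true) :
    qv av b1v b2v z ≤ segVal n0 n1 true ((1 + S) / 2) u := by
  simp only [chordOK, AF.force_eq, Bool.and_eq_true] at h
  obtain ⟨hA, hB⟩ := h
  have hP2 := hP.mul hP hS hT
  have hn : -b2v ≤ rn b2.low.negPart := by
    have hl := hb2.low_le hS hT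
    rw [Sg.v_split] at hl
    rw [rn, Sg.negPart_def, le_div_iff₀ (by norm_num)]
    rw [cast_U] at hl
    linarith [Nat.cast_nonneg (α := ℝ) (b2.low.pos - b2.low.neg)]
  have hbm := has_ratio hS hT (hP2.mul (has_cst b2.low.negPart) hS hT) 1 4 (by norm_num)
  have a1 := below_sound hS hT ha hbm hu hwh hA
  have a2 := below_sound hS hT ((ha.add (hb1.mul hP hS hT)).add (hb2.mul hP2 hS hT)) hbm hu hwh hB
  push_cast at a1 a2
  have := quad_chord (a0 := av) (b1 := b1v)
    (Z := segVal n0 n1 true ((1 + S) / 2) u - rn b2.low.negPart * Pv ^ 2 / 4) hz hn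
    (Mid.rn_nonneg _) (by linarith) (by rw [qv, pow_two Pv]; linarith)
  linarith

theorem vertexOK_sound {n0 n1 : Node} {whole : Bool} {a b1 b2 : AF} {av b1v b2v z u : ℝ}
    (hS : |S| ≤ 1) (hT : |T| ≤ 1) (ha : a.Has S T av) (hb1 : b1.Has S T b1v) (hb2 : b2.Has S T b2v)
    (hu : u ∈ Icc (0 : ℝ) 1) (hwh : whole = true → u = (1 + T) / 2)
    (h : vertexOK n0 n1 whole a b1 b2 = true) : qv av b1v b2v z ≤ segVal n0 n1 true ((1 + S) / 2) u := by
  rw [vertexOK] at h
  obtain ⟨h0, i, hi, h⟩ := withInv_sound hS hT h (has_ratio hS hT hb2.neg 4 1 one_pos)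
  have hb := below_sound hS hT (ha.add ((hb1.mul hb1 hS hT).mul hi hS hT)) has_zero hu hwh h
  push_cast at h0 hb
  refine quad_vertex (by linarith) (le_trans (le_of_eq ?_) hb)
  rw [div_eq_mul_inv]; ring

end Vale.Agent.P237.All.Transport.Small.Large
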