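import Vale.Agent.P237.All.Small.Large.SoundPlus
import Vale.Agent.P237.All.Mid.Weight

/-!
P237, every dimension, excess `k ≤ .0134`: the crude box: the bracket absolutely, against the reservoir
through `k ≥ exp (-5/4 √(p + 1)) / 5`.
-/

noncomputable section

open Real Set

namespace Vale.Agent.P237.All.Transport.Small.Large

open Mid (Sg AF Pt XP epsP rn)

/-- The bracket of the majorant, absolutely, in units of `τ`; `th` bounds `|t - y| / y`. -/
theorem crude_point {c : Co} {p : ℕ} {R R' v v' : ℝ → ℝ} {c2 lam k y t r kp km W th Ls Ca Qb : ℝ}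
    (h : c.Ok p) (hpt : Pt p k y t r lam) (hk : 0 < k) (hW : (r ^ p)⁻¹ ≤ W) (hW1 : 1 ≤ W)
    (hR : 0 ≤ R (XP p y)) (hkp : kp ≤ c.kp (tau p) (XP p y) (y * (t - y))) (hkp0 : 0 < kp)
    (hkw : c.kw (tau p) (XP p y) (y * (t - y)) ≤ km) (hkm : 0 ≤ km) (hth : |t - y| ≤ th * y)
    (hLs : c.L (tau p) (XP p y) (R (XP p y)) (R' (XP p y)) * (t - y) ≤ Ls * |t - y|) (hLs0 : 0 ≤ Ls)
    (hCa : |c.C (tau p) (XP p y) (v (XP p y))| ≤ Ca)
    (hQ : c.Q (tau p) (XP p y) (v (XP p y)) (v' (XP p y)) 0 ≤ Qb) (hQb : 0 ≤ Qb) :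
    total p c R R' v v' c2 lam y t r ≤ semi y ^ (p + 1) *
      (majZero p (c.G / ((p : ℝ) + 1)) (c.D / ((p : ℝ) + 1)) c2 y + tau p *
        (tau p * R (XP p y) * (W - 1) + max (km * (W - 1)) (km ^ 2 / (2 * kp)) +
          Ca * th * max 1 (W - 1) + Ls * (XP p y * tau p * th) + Qb * th ^ 2)) := by
  have hy := hpt.hy
  have hr := hpt.hr
  have hp1 : 1 ≤ p := (show 1 ≤ 2 by norm_num).trans h.hp
  have hτ := tau_pos p
  have hp0 : (0 : ℝ) < p := Nat.cast_pos.2 hp1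
  obtain ⟨σ, hs⟩ : ∃ σ, (r ^ p)⁻¹ - 1 = k * tau p * σ :=
    ⟨((r ^ p)⁻¹ - 1) / (k * tau p), by field_simp⟩
  obtain ⟨ψ, hθ⟩ : ∃ ψ, t - y = k * tau p * y * ψ :=
    ⟨(t - y) / (k * tau p * y), by field_simp [hy.1.ne']⟩
  rw [total, Mid.pot_eq hy hr]
  have hd := density_quad p hp1 (c.G / ((p : ℝ) + 1)) (c.D / ((p : ℝ) + 1)) c.b (c.ell p c2) lam c2
    (c.A p R c2 y) (c.dA p R' y - ((p : ℝ) + 1) * y / (1 - y ^ 2) * c.A p R c2 y) (potW p v y / y)
    (potdW p v' y / y - potW p v y / y ^ 2 - ((p : ℝ) + 1) * potW p v y / (1 - y ^ 2)) (t := t)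
    ⟨by linarith [hy.1], hy.2.le⟩ hr
  refine le_trans (le_of_eq ?_) ((le_of_eq hd).trans
    (mul_le_mul_of_nonneg_left ?_ (pow_nonneg (Real.sqrt_nonneg _) _)))
  · ring_nf
  have hb := bracket_eq hp1 hy c R R' v v' c2 0 0 hs hθ
  simp only [quadF, coefL] at hb
  set R0 := R (XP p y)
  set L0 := c.L (tau p) (XP p y) R0 (R' (XP p y))
  set C0 := c.C (tau p) (XP p y) (v (XP p y))
  set Q0 := c.Q (tau p) (XP p y) (v (XP p y)) (v' (XP p y)) 0
  set K2 := (c.G / ((p : ℝ) + 1) + c.D / ((p : ℝ) + 1) * c.b ^ 2) * ((p : ℝ) + 4) with hK2d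
  set Kp := majKp c.b (c.D / ((p : ℝ) + 1)) y (t - y)
  set Kw := majKw p (c.G / ((p : ℝ) + 1)) (c.D / ((p : ℝ) + 1)) c.b (c.ell p c2) c2 y (t - y)
  set bc := c.b * majC c.b (c.D / ((p : ℝ) + 1))
  have hKp : kp * tau p ≤ Kp := unit_le (hkp.trans (kp_eq c p y t).ge)
  have hKw : Kw ≤ km * tau p := le_unit ((kw_eq hp1 c c2 y t).le.trans hkw)
  have hbc : 0 ≤ bc := mul_nonneg h.hb (by
    have := h.d0; have := h.hb; unfold majC; positivity)
  have hK20 : 0 ≤ K2 := by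
    have := h.g0; have := h.d0; rw [hK2d]; positivity
  -- the coefficient of `θ ^ 2`
  have hr2 : r * K2 - bc * r ^ (p + 1) ≤ K2 := by
    rcases le_total r 1 with h1 | h1
    · have a := mul_le_of_le_one_left hK20 h1
      have := mul_nonneg hbc (pow_nonneg hr.le (p + 1))
      linarith
    · have a := one_add_mul_le_pow (a := r - 1) (by linarith) (p + 1)
      rw [add_sub_cancel] at a
      push_cast at a
      have a1 := mul_le_mul_of_nonneg_left a hbc
      have a2 := mul_le_mul_of_nonneg_left h.hK2 (show 0 ≤ r - 1 by linarith)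
      linarith
  -- the weights
  have hpen : -(Kp * (((r ^ p)⁻¹ - 1) ^ 2 / (r ^ p)⁻¹ + (r - 1) * (r ^ p - 1))) +
      Kw * ((r ^ p)⁻¹ - 1 + p * (r - 1)) ≤ tau p * max (km * (W - 1)) (km ^ 2 / (2 * kp)) := by
    rw [← pow_mul_id p hr]
    have hE := excess_nonneg p hr
    set E := (r ^ p)⁻¹ - 1 + (p : ℝ) * (r - 1) with hEd
    have hP : 0 ≤ r ^ (p + 1) - 1 - ((p : ℝ) + 1) * (r - 1) := by
      have := one_add_mul_le_pow (a := r - 1) (by linarith) (p + 1)
      rw [add_sub_cancel] at this; push_cast at this; linarith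
    set P := r ^ (p + 1) - 1 - ((p : ℝ) + 1) * (r - 1) with hPd
    have a1 : kp * tau p * P ≤ Kp * (P + E) :=
      mul_le_mul hKp (by linarith) hP ((mul_nonneg hkp0.le hτ.le).trans hKp)
    have a2 := mul_le_mul_of_nonneg_right hKw hE
    rcases le_total r 1 with h1 | h1
    · have : E ≤ W - 1 := by
        have := mul_nonpos_of_nonneg_of_nonpos hp0.le (show r - 1 ≤ 0 by linarith)
        linarith
      have := mul_le_mul_of_nonneg_left (this) (mul_nonneg hτ.le hkm)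
      have := mul_le_mul_of_nonneg_left (le_max_left (km * (W - 1)) (km ^ 2 / (2 * kp))) hτ.le
      have := mul_nonneg (mul_nonneg hkp0.le hτ.le) hP
      linarith
    · have hv : (r ^ p)⁻¹ ≤ 1 := inv_le_one_of_one_le₀ (one_le_pow₀ h1)
      have b1 := pow_ge_quadratic (p + 1) (show 0 ≤ r - 1 by linarith)
      rw [add_sub_cancel] at b1
      push_cast at b1
      have b2 : ((p : ℝ) * (r - 1)) ^ 2 / 2 ≤ P := by
        have := mul_nonneg hp0.le (sq_nonneg (r - 1))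
        rw [hPd]
        nlinarith only [b1, this]
      have b3 : km * ((p : ℝ) * (r - 1)) - kp * (((p : ℝ) * (r - 1)) ^ 2 / 2) ≤ km ^ 2 / (2 * kp) := by
        rw [le_div_iff₀ (by positivity)]
        nlinarith only [sq_nonneg (km - kp * ((p : ℝ) * (r - 1)))]
      have := mul_le_mul_of_nonneg_left b2 (mul_nonneg hkp0.le hτ.le)
      have := mul_le_mul_of_nonneg_left (show E ≤ (p : ℝ) * (r - 1) by linarith) (mul_nonneg hτ.le hkm)
      have := mul_le_mul_of_nonneg_left b3 hτ.le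
      have := mul_le_mul_of_nonneg_left (le_max_right (km * (W - 1)) (km ^ 2 / (2 * kp))) hτ.le
      linarith
  -- the linear part
  have hs1 : |(r ^ p)⁻¹ - 1| ≤ max 1 (W - 1) := by
    rw [abs_le]
    have := inv_pos.2 (pow_pos hr p)
    constructor <;> linarith [le_max_left (1 : ℝ) (W - 1), le_max_right (1 : ℝ) (W - 1)]
  set s := (r ^ p)⁻¹ - 1 with hsd
  have hy0 := hy.1
  have hth0 : 0 ≤ th := nonneg_of_mul_nonneg_left ((abs_nonneg _).trans hth) hy0
  have hq : |(t - y) / y| ≤ th := by rw [abs_div, abs_of_pos hy0, div_le_iff₀ hy0]; exact hth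
  have l1 : tau p * R0 * s ≤ tau p * R0 * (W - 1) :=
    mul_le_mul_of_nonneg_left (by linarith) (mul_nonneg hτ.le hR)
  have l2 : C0 * ((t - y) / y) * s ≤ Ca * th * max 1 (W - 1) := by
    refine (le_abs_self _).trans ?_
    rw [abs_mul, abs_mul]
    exact mul_le_mul (mul_le_mul hCa hq (abs_nonneg _) ((abs_nonneg _).trans hCa)) hs1 (abs_nonneg _)
      (mul_nonneg ((abs_nonneg _).trans hCa) hth0)
  have hX : 0 ≤ XP p y * tau p := by rw [(tau_facts p (y := y)).2.2.2]; positivity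
  have l3 : XP p y * tau p * L0 * ((t - y) / y) ≤ Ls * (XP p y * tau p * th) := by
    have a1 : L0 * ((t - y) / y) ≤ Ls * th := by
      rw [← mul_div_assoc, div_le_iff₀ hy0, mul_assoc]
      exact hLs.trans (mul_le_mul_of_nonneg_left hth hLs0)
    calc XP p y * tau p * L0 * ((t - y) / y) = XP p y * tau p * (L0 * ((t - y) / y)) := by ring
      _ ≤ XP p y * tau p * (Ls * th) := mul_le_mul_of_nonneg_left a1 hX
      _ = _ := by ring
  have l4 : Q0 * ((t - y) / y) ^ 2 ≤ Qb * th ^ 2 :=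
    mul_le_mul hQ (by rw [← sq_abs ((t - y) / y)]; exact pow_le_pow_left₀ (abs_nonneg _) hq 2)
      (sq_nonneg _) hQb
  have e1 : k * tau p ^ 3 * (R0 * σ + XP p y * L0 * ψ + k * (Q0 * ψ ^ 2) + k * (C0 * σ * ψ)) =
      tau p * (tau p * R0 * s + XP p y * tau p * L0 * ((t - y) / y) + Q0 * ((t - y) / y) ^ 2 +
        C0 * ((t - y) / y) * s) := by
    rw [hs, hθ]; field_simp
  have h2 := mul_le_mul_of_nonneg_right hr2 (sq_nonneg (t - y))
  have h3 := mul_le_mul_of_nonneg_left (add_le_add (add_le_add (add_le_add l1 l3) l4) l2) hτ.le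
  linarith

variable {c : Cell} {e : Env} {v : Vals} {S T τ x k : ℝ} {p : ℕ} {y t r lam : ℝ}

theorem le_posHi {f : AF} {u : ℝ} (hS : |S| ≤ 1) (hT : |T| ≤ 1) (hf : f.Has S T u) : u ≤ rn (posHi f) := by
  have hl := hf.neg.low_le hS hT
  rw [Sg.v_split] at hl
  rw [rn, posHi, Sg.negPart_def, le_div_iff₀ (by norm_num)]
  rw [cast_U] at hl
  linarith [Nat.cast_nonneg (α := ℝ) (f.neg'.low.pos - f.neg'.low.neg)]

theorem abs_le_absHi {f : AF} {u : ℝ} (hS : |S| ≤ 1) (hT : |T| ≤ 1) (hf : f.Has S T u) :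
    |u| ≤ rn (absHi f) := by
  have h1 := le_posHi hS hT hf
  have h2 : -u ≤ rn f.low.negPart := by
    have hl := hf.low_le hS hT
    rw [Sg.v_split] at hl
    rw [rn, Sg.negPart_def, le_div_iff₀ (by norm_num)]
    rw [cast_U] at hl
    linarith [Nat.cast_nonneg (α := ℝ) (f.low.pos - f.low.neg)]
  have a := h1.trans (Mid.rn_le (Mid.le_nmax_left _ f.low.negPart))
  have b := h2.trans (Mid.rn_le (Mid.le_nmax_right f.neg'.low.negPart _))
  exact abs_le.2 ⟨by rw [absHi]; linarith, a⟩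

theorem withCrude_sound {W kp kw1 th Ls C Q : AF} {kont : AF → Bool} {Wv kpv kw1v thv Lsv Cv Qv Rv kw0v : ℝ}
    (hS : |S| ≤ 1) (hT : |T| ≤ 1) (he : EnvHas c e S T τ) (hv : ValsHas c v S T τ x)
    (hR : c.R.val τ (x ^ 2) = Rv) (hk0 : (c.co τ).kw τ (x ^ 2) 0 = kw0v)
    (hW : W.Has S T Wv) (hW1 : 1 ≤ Wv) (hkp : kp.Has S T kpv) (hkw1 : kw1.Has S T kw1v)
    (hth : th.Has S T thv) (hth0 : 0 ≤ thv) (hLs : Ls.Has S T Lsv) (hC : C.Has S T Cv) (hQ : Q.Has S T Qv)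
    (hτ0 : 0 ≤ τ) (hR0 : 0 ≤ Rv)
    (h : withCrude e v W kp kw1 th Ls C Q kont = true) :
    0 < kpv ∧ ∃ (f : AF) (fv km : ℝ), f.Has S T fv ∧ kont f = true ∧ kw0v ≤ km ∧ kw1v ≤ km ∧ 0 ≤ km ∧
      τ * Rv * (Wv - 1) + max (km * (Wv - 1)) (km ^ 2 / (2 * kpv)) + rn (absHi C) * thv * max 1 (Wv - 1) +
        rn (posHi Ls) * (x ^ 2 * τ * thv) + rn (posHi Q) * thv ^ 2 ≤ fv := by
  simp only [withCrude, AF.force_eq, Bool.and_eq_true] at h
  obtain ⟨-, h⟩ := h
  obtain ⟨hkp2, ik, hik, h⟩ := withInv_sound hS hT h (has_ratio hS hT hkp 2 1 one_pos)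
  push_cast at hkp2
  have hkp0 : 0 < kpv := by linarith
  set km := rn (Mid.nmax (posHi v.kw0) (posHi kw1)) with hkmd
  set wm := rn (posHi (W.sub one)) with hwmd
  have hwm : Wv - 1 ≤ wm := le_posHi hS hT (hW.sub has_one)
  have hkm := has_cst (S := S) (T := T) (Mid.nmax (posHi v.kw0) (posHi kw1))
  have hwmf := has_cst (S := S) (T := T) (posHi (W.sub one))
  have hp1 := hkm.mul hwmf hS hT
  have hp2 := (hkm.mul hkm hS hT).mul hik hS hT
  refine ⟨hkp0, _, _, km, ((((he.t.mul hv.R hS hT).mul hwmf hS hT).add (has_cst _)).add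
      (((has_cst _).mul hth hS hT).mul (has_cst _) hS hT)).add ((has_cst _).mul (hv.Xt.mul hth hS hT) hS hT)
    |>.add ((has_cst _).mul (hth.mul hth hS hT) hS hT), h, ?_, ?_, Mid.rn_nonneg _, ?_⟩
  · rw [← hk0]; exact (le_posHi hS hT hv.kw0).trans (Mid.rn_le (Mid.le_nmax_left _ _))
  · exact (le_posHi hS hT hkw1).trans (Mid.rn_le (Mid.le_nmax_right _ _))
  rw [hR]
  have hkm0 : 0 ≤ km := Mid.rn_nonneg _
  refine add_le_add (add_le_add (add_le_add (add_le_add ?_ ?_) ?_) le_rfl) (le_of_eq (by rw [pow_two]))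
  · exact mul_le_mul_of_nonneg_left hwm (mul_nonneg hτ0 hR0)
  · refine max_le ?_ ?_
    · exact (mul_le_mul_of_nonneg_left hwm hkm0).trans ((le_posHi hS hT hp1).trans
        (Mid.rn_le (Mid.le_nmax_left _ _)))
    · refine le_trans (le_of_eq ?_) ((le_posHi hS hT hp2).trans (Mid.rn_le (Mid.le_nmax_right _ _)))
      push_cast; rw [div_one, pow_two, div_eq_mul_inv]
  · refine mul_le_mul_of_nonneg_left (max_le ?_ ?_) (mul_nonneg (Mid.rn_nonneg _) hth0)
    · exact Mid.rn_U ▸ Mid.rn_le (Mid.le_nmax_left _ _)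
    · exact hwm.trans (Mid.rn_le (Mid.le_nmax_right _ _))

/-- `semi y ^ (p + 1)` from seven terms of the logarithm. -/
theorem semi_pow_le7 (p : ℕ) (hy : y ∈ Ioo (0 : ℝ) 1) :
    semi y ^ (p + 1) ≤ exp (-(((p : ℝ) + 1) / 2 *
      (y ^ 2 + (y ^ 2) ^ 2 / 2 + (y ^ 2) ^ 3 / 3 + (y ^ 2) ^ 4 / 4 + (y ^ 2) ^ 5 / 5 + (y ^ 2) ^ 6 / 6 +
        (y ^ 2) ^ 7 / 7))) := by
  have hu1 : y ^ 2 < 1 := by nlinarith [hy.1, hy.2]
  have hS : 0 < 1 - y ^ 2 := by linarith
  have hl := sum_le_hasSum (Finset.range 7) (fun i _ => by positivity)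
    (Real.hasSum_pow_div_log_of_abs_lt_one (x := y ^ 2) (by rwa [abs_of_nonneg (sq_nonneg y)]))
  simp only [Finset.sum_range_succ, Finset.sum_range_zero, Nat.cast_zero, Nat.cast_one, zero_add] at hl
  push_cast at hl
  refine (Real.log_le_iff_le_exp (pow_pos (semi_pos ⟨by linarith [hy.1], hy.2⟩) _)).1 ?_
  rw [Real.log_pow, semi, Real.log_sqrt hS.le]
  have := mul_le_mul_of_nonneg_left hl (show (0 : ℝ) ≤ ((p : ℝ) + 1) / 2 by positivity)
  push_cast
  linarith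

theorem crudeOK_sound (B : InBox c e v S T τ x k p y t r lam) {cap : CapK} {tl zm iy zk : ℕ}
    (htl : rn tl ≤ τ) (hkl : exp (-(5 / 4 * √((p : ℝ) + 1))) / 5 ≤ k)
    (hzc : 0 < c.zk → exp (-rn c.zk) / 5 ≤ k) (h : crudeOK c e v cap tl zm iy zk = true) (c2 : ℝ) :
    (t ≤ y → total p (c.co τ) (c.R.val τ) (c.R.der τ) (c.Vm.val τ) (c.Vm.der τ) c2 lam y t r ≤
      semi y ^ (p + 1) * majZero p ((c.co τ).G / ((p : ℝ) + 1)) ((c.co τ).D / ((p : ℝ) + 1)) c2 y +
        k * tau p ^ 3 * (rn c.dl / (1 + x ^ 2))) ∧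
    (y ≤ t → total p (c.co τ) (c.R.val τ) (c.R.der τ) (c.Vp.val τ) (c.Vp.der τ) c2 lam y t r ≤
      semi y ^ (p + 1) * majZero p ((c.co τ).G / ((p : ℝ) + 1)) ((c.co τ).D / ((p : ℝ) + 1)) c2 y +
        k * tau p ^ 3 * (rn c.dl / (1 + x ^ 2))) := by
  have hS := B.hS
  have hT := B.hT
  have he := B.env
  have hv := B.vals
  have hp1 : 1 ≤ p := by linarith [B.hp]
  have hk := B.hk
  have hτ0 := B.τ0
  have hot : 0 < 1 - τ := he.h1
  have hy := B.pt.hy
  have ht := B.pt.ht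
  have hx2 : 0 < x ^ 2 := pow_pos B.x1 2
  have hε := eps_eq B.hτ
  have hε0 := eps_nonneg p
  have hXy : x ^ 2 * τ = y ^ 2 := by rw [B.hx, B.hτ, (tau_facts p (y := y)).2.2.2]
  have hSx := hv.hS
  simp only [crudeOK, AF.force_eq, Bool.and_eq_true, Mid.forceN_eq] at h
  obtain ⟨⟨⟨⟨hR, hzk⟩, hzm⟩, hiy⟩, h⟩ := h
  have hR0 := nn_le hS hT hR hv.R
  obtain ⟨Wf, mX, mW, W, c0, hWf, -, -, -, hW1, hwW, h⟩ :=
    withCap_sound hS hT he hv B.hτ B.hx B.hx0 B.pt hp1 hk.le B.hkK B.hK h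
  have hzp := has_cast (hv.kw0.add (he.cth.mul (has_cst zm) hS hT))
    (v := (c.co τ).kw τ (x ^ 2) (rn zm)) (by simp only [Co.kw]; ring)
  obtain ⟨hkp0, fp, fpv, kmp, hfp, h, hkm0, hkm1, hkm2, hfpb⟩ :=
    withCrude_sound hS hT he hv rfl rfl hWf hW1 hv.kp0 hzp (has_cst iy) (Mid.rn_nonneg _) hv.L hv.Cp hv.Qp
      hτ0.le hR0 h
  have hZl := he.Kt2.mul (hv.Sv.mul he.i1 hS hT) hS hT
  obtain ⟨-, iXt, hiXt, h⟩ := withInv_sound hS hT h hv.Xt
  set Zl := rn c.K * τ ^ 2 * ((1 - x ^ 2 * τ) * (1 / (1 - τ))) with hZld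
  have hkpm := has_cast (hv.kp0.sub (he.gcb.mul hZl hS hT)) (v := (c.co τ).kp τ (x ^ 2) (-Zl))
    (by simp only [Co.kp, hZld]; ring)
  have hkwm := has_cast (hv.kw0.sub (he.cth.mul hZl hS hT)) (v := (c.co τ).kw τ (x ^ 2) (-Zl))
    (by simp only [Co.kw, hZld]; ring)
  have hZl0 : 0 ≤ Zl := by have := Mid.rn_nonneg c.K; rw [hZld]; positivity
  have hWm1 : 1 ≤ 1 + rn c.K * (τ / (1 - τ)) :=
    le_add_of_nonneg_right (by rw [hε]; exact mul_nonneg (Mid.rn_nonneg _) hε0)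
  obtain ⟨hkq0, fm, fmv, kmm, hfm, h, hkn0, hkn1, hkn2, hfmb⟩ :=
    withCrude_sound hS hT he hv rfl rfl (has_one.add he.eb) hWm1 hkpm hkwm (hZl.mul hiXt hS hT)
      (mul_nonneg hZl0 (inv_nonneg.2 (by positivity))) hv.L.neg hv.Cm hv.Qm hτ0.le hR0 h
  simp only [Bool.and_eq_true] at h
  obtain ⟨hz1, hz2⟩ := h
  -- the reservoir
  set F := rn (Mid.nmax (posHi fp) (posHi fm)) with hFd
  have hFp : fpv ≤ F := (le_posHi hS hT hfp).trans (Mid.rn_le (Mid.le_nmax_left _ _))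
  have hFm : fmv ≤ F := (le_posHi hS hT hfm).trans (Mid.rn_le (Mid.le_nmax_right _ _))
  set Lc := posHi ((cst (Mid.nmax (posHi fp) (posHi fm))).mul (one.add v.X))
  have hL : F * (1 + x ^ 2) ≤ rn Lc :=
    le_posHi hS hT ((has_cst _).mul (has_one.add hv.X) hS hT)
  have hy4 := hv.Xt.mul hv.Xt hS hT
  have hzf := (has_ratio hS hT ((has_one.sub he.t).mul hv.X hS hT) 1 2 two_pos).mul
    ((((has_one.add (has_ratio hS hT hv.Xt 1 2 two_pos)).add (has_ratio hS hT hy4 1 3 three_pos)).add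
      (has_ratio hS hT (hy4.mul hv.Xt hS hT) 1 4 (by norm_num))).add
      ((hy4.mul hy4 hS hT).mul (((has_ratio hS hT has_one 1 5 (by norm_num)).add
        (has_ratio hS hT hv.Xt 1 6 (by norm_num))).add (has_ratio hS hT hy4 1 7 (by norm_num))) hS hT)) hS hT
  set zf := (((one.sub e.t).mul v.X).scale 1 2).mul
    ((((one.add (v.Xt.scale 1 2)).add ((v.Xt.mul v.Xt).scale 1 3)).add (((v.Xt.mul v.Xt).mul v.Xt).scale 1 4)).add
      (((v.Xt.mul v.Xt).mul (v.Xt.mul v.Xt)).mul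
        (((one.scale 1 5).add (v.Xt.scale 1 6)).add ((v.Xt.mul v.Xt).scale 1 7))))
  have hzk1 : zk ≤ zf.low.posPart := (Nat.le_of_ble_eq_true hz1).trans' (Nat.le_succ _)
  have hzrn : rn (zf.low.posPart - zk) + rn zk ≤ ((p : ℝ) + 1) / 2 *
      (y ^ 2 + (y ^ 2) ^ 2 / 2 + (y ^ 2) ^ 3 / 3 + (y ^ 2) ^ 4 / 4 + (y ^ 2) ^ 5 / 5 + (y ^ 2) ^ 6 / 6 +
        (y ^ 2) ^ 7 / 7) := by
    rw [← Mid.rn_add, Nat.sub_add_cancel hzk1]
    have hl := hzf.low_le hS hT
    have hpos : 0 < zf.low.posPart := lt_of_le_of_lt (Nat.zero_le _) (Nat.le_of_ble_eq_true hz1)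
    rw [Sg.posPart_def] at hpos ⊢
    rw [Sg.v_split, Nat.sub_eq_zero_of_le (show zf.low.neg ≤ zf.low.pos by omega), Nat.cast_zero,
      sub_zero, cast_U, ← div_le_iff₀ (by norm_num)] at hl
    refine hl.trans (le_of_eq ?_)
    have e : (1 - τ) * x ^ 2 = ((p : ℝ) + 1) * y ^ 2 := by
      rw [B.hx, B.hτ, (tau_facts p (y := y)).1, XP]; field_simp
    rw [e, hXy]; push_cast; ring
  have hsp : semi y ^ (p + 1) ≤ exp (-rn (zf.low.posPart - zk)) * exp (-rn zk) := by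
    refine (semi_pow_le7 p hy).trans ?_
    rw [← Real.exp_add]
    exact exp_le_exp.2 (by linarith)
  have hzk2 : exp (-rn zk) ≤ 5 * k := by
    rw [Bool.or_eq_true, Bool.and_eq_true] at hzk
    obtain hzk | ⟨hc0, hcz⟩ := hzk
    swap
    · have := hzc (Nat.le_of_ble_eq_true hc0)
      have := exp_le_exp.2 (neg_le_neg (Mid.rn_le (Nat.le_of_ble_eq_true hcz)))
      linarith
    refine le_trans (exp_le_exp.2 ?_) (show exp (-(5 / 4 * √((p : ℝ) + 1))) ≤ 5 * k by linarith)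
    have h0 := Nat.cast_le (α := ℝ).2 (Nat.le_of_ble_eq_true hzk)
    simp only [Nat.mul_eq, Nat.cast_mul, Nat.cast_ofNat, Nat.sub_eq] at h0
    have h1 := Mid.cast_sub_ge 16777216 tl
    push_cast at h1
    have htl0 : 0 < (tl : ℝ) := by
      rcases (Nat.cast_nonneg (α := ℝ) tl).eq_or_lt with h2 | h2
      · rw [← h2] at h0 h1
        linarith
      · exact h2
    have h3 : (p : ℝ) + 1 ≤ (16777216 - (tl : ℝ)) / tl := by
      rw [le_div_iff₀ htl0]
      rw [B.hτ, tau, rn, div_le_div_iff₀ (by norm_num) (by positivity)] at htl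
      linarith
    rw [neg_le_neg_iff]
    have h4 : (5 / 4 * √((p : ℝ) + 1)) ^ 2 ≤ (rn zk) ^ 2 := by
      rw [mul_pow, Real.sq_sqrt (by positivity)]
      simp only [rn, div_pow]
      rw [le_div_iff₀ htl0] at h3
      rw [le_div_iff₀ (by norm_num)]
      refine le_of_mul_le_mul_right ?_ htl0
      have h5 := mul_le_mul_of_nonneg_left h3 (show (0 : ℝ) ≤ 25 * (16777216 * 16777216) by norm_num)
      have h6 := mul_le_mul_of_nonneg_left h1 (show (0 : ℝ) ≤ 25 * (16777216 * 16777216) by norm_num)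
      linarith
    exact (pow_le_pow_iff_left₀ (by positivity) (Mid.rn_nonneg _) two_ne_zero).1 h4
  have hexp : 5 * rn Lc * exp (-rn (zf.low.posPart - zk)) ≤ τ ^ 2 * rn c.dl := by
    have h0 := Nat.cast_le (α := ℝ).2 (Nat.le_of_ble_eq_true hz2)
    simp only [Nat.mul_eq, Nat.cast_mul, Nat.cast_ofNat, Nat.sub_eq] at h0
    have h1 := Mid.expLo_sound (zf.low.posPart - zk)
    rw [Real.exp_neg, mul_inv_le_iff₀ (exp_pos _)]
    refine le_trans ?_ (mul_le_mul_of_nonneg_left h1 (mul_nonneg (sq_nonneg τ) (Mid.rn_nonneg _)))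
    refine le_trans ?_ (mul_le_mul_of_nonneg_right (mul_le_mul_of_nonneg_right
      (pow_le_pow_left₀ (Mid.rn_nonneg tl) htl 2) (Mid.rn_nonneg _)) (Mid.rn_nonneg _))
    simp only [rn]
    field_simp
    linarith
  have fin : ∀ {V : ℝ}, 0 ≤ V → V ≤ F → semi y ^ (p + 1) * (tau p * V) ≤
      k * tau p ^ 3 * (rn c.dl / (1 + x ^ 2)) := fun {V} hV0 hV => by
    rw [← mul_div_assoc, le_div_iff₀ (by positivity)]
    have hτp := tau_pos p
    calc semi y ^ (p + 1) * (tau p * V) * (1 + x ^ 2)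
        ≤ exp (-rn (zf.low.posPart - zk)) * exp (-rn zk) * (tau p * (F * (1 + x ^ 2))) := by
          rw [mul_assoc, mul_assoc (tau p)]
          exact mul_le_mul hsp (mul_le_mul_of_nonneg_left (mul_le_mul_of_nonneg_right hV (by positivity)) hτp.le)
            (by positivity) (by positivity)
      _ ≤ exp (-rn (zf.low.posPart - zk)) * (5 * k) * (tau p * rn Lc) :=
          mul_le_mul (mul_le_mul_of_nonneg_left hzk2 (exp_pos _).le) (mul_le_mul_of_nonneg_left hL hτp.le)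
            (mul_nonneg hτp.le (mul_nonneg (hV0.trans hV) (by positivity))) (by positivity)
      _ = k * tau p * (5 * rn Lc * exp (-rn (zf.low.posPart - zk))) := by ring
      _ ≤ k * tau p * (τ ^ 2 * rn c.dl) := mul_le_mul_of_nonneg_left hexp (by positivity)
      _ = k * tau p ^ 3 * rn c.dl := by rw [B.hτ]; ring
  have hX0 : 0 ≤ x ^ 2 * τ := by positivity
  refine ⟨fun hty => ?_, fun hyt => ?_⟩
  · -- `t ≤ y`
    set ψ := (t - y) / (k * tau p * y) with hψd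
    have hkτy : 0 < k * tau p * y := mul_pos (mul_pos hk (tau_pos p)) hy.1
    have hθ : t - y = k * tau p * y * ψ := by rw [hψd, mul_div_cancel₀ _ hkτy.ne']
    have hψ0 : ψ ≤ 0 := div_nonpos_of_nonpos_of_nonneg (by linarith) hkτy.le
    have hA := psi_behind B.pt B.hp hk (B.hkK.trans B.hK) hθ (x0 := 0) (den := x ^ 2) le_rfl
      (by rw [zero_pow two_ne_zero, ← B.hx]; positivity) hx2
      (by rw [← B.hx]; simp) (by rw [← B.hx, ← B.hτ])
    have hXψ : -((1 - x ^ 2 * τ) * (1 / (1 - τ))) ≤ x ^ 2 * ψ := by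
      refine le_trans (le_of_eq ?_) (mul_le_mul_of_nonneg_left hA hx2.le)
      rw [mul_neg, mul_div_cancel₀ _ hx2.ne', ← div_eq_mul_one_div]
    have e1 : y * (t - y) = k * τ ^ 2 * (x ^ 2 * ψ) := by
      rw [hθ, ← B.hτ]; linear_combination -(k * τ * ψ) * hXy
    have hneg := mul_nonpos_of_nonneg_of_nonpos hx2.le hψ0
    have hz : -Zl ≤ y * (t - y) := by
      rw [e1, hZld, neg_le]
      have := mul_le_mul (mul_le_mul_of_nonneg_right B.hkK (sq_nonneg τ))
        (show -(x ^ 2 * ψ) ≤ (1 - x ^ 2 * τ) * (1 / (1 - τ)) by linarith) (neg_nonneg.2 hneg)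
        (mul_nonneg (Mid.rn_nonneg _) (sq_nonneg τ))
      linarith
    have hzmem : y * (t - y) ∈ Icc (-Zl) 0 := ⟨hz, mul_nonpos_of_nonneg_of_nonpos hy.1.le (by linarith)⟩
    have hth : |t - y| ≤ Zl * (x ^ 2 * τ)⁻¹ * y := by
      have hy0 := hy.1.ne'
      rw [abs_of_nonpos (by linarith), hXy, show Zl * (y ^ 2)⁻¹ * y = Zl / y by field_simp,
        le_div_iff₀ hy.1]
      linarith
    have hwWm : (r ^ p)⁻¹ ≤ 1 + rn c.K * (τ / (1 - τ)) := by
      have hsy := semi_pos (t := y) ⟨by linarith [hy.1], hy.2⟩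
      have h1 : semi y ≤ semi t := by
        rw [semi, semi]
        exact Real.sqrt_le_sqrt (by linarith [pow_le_pow_left₀ ht.1.le hty 2])
      have h2 : 1 ≤ lam * r := by
        refine le_of_mul_le_mul_right ?_ hsy
        have := B.pt.ridge
        linarith
      have hr := B.pt.hr
      have h3 : (r ^ p)⁻¹ ≤ lam ^ p := by
        rw [inv_le_iff_one_le_mul₀ (pow_pos hr p), ← mul_pow]; exact one_le_pow₀ h2
      have := lam_pow_le B.pt hp1 hk.le (B.hkK.trans B.hK)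
      have := mul_le_mul_of_nonneg_right B.hkK hε0
      rw [hε]
      linarith
    have hkp' := kp_mono (p := p) (X := x ^ 2) B.hb B.hok.hD.1 (by rw [← B.hτ]; exact hot.le) hz
    have hc := crude_point (R := c.R.val τ) (R' := c.R.der τ) (v := c.Vm.val τ) (v' := c.Vm.der τ)
      (c2 := c2) (km := kmm) (W := 1 + rn c.K * (τ / (1 - τ))) (th := Zl * (x ^ 2 * τ)⁻¹)
      (Ls := rn (posHi v.L.neg')) (Ca := rn (absHi v.Cm)) (Qb := rn (posHi v.Qm))
      (kp := (c.co τ).kp τ (x ^ 2) (-Zl)) B.hok B.pt hk hwWm hWm1 (by rw [← B.hx]; exact hR0)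
      (by rw [← B.hτ] at hkp' ⊢; rw [← B.hx]; exact hkp') hkq0
      (by rw [← B.hτ, ← B.hx]; exact kw_ends hzmem hkn1 hkn0) hkn2 hth
      (by
        rw [← B.hτ, ← B.hx, abs_of_nonpos (by linarith : t - y ≤ 0)]
        have := mul_le_mul_of_nonneg_right (le_posHi hS hT hv.L.neg) (show 0 ≤ -(t - y) by linarith)
        linarith)
      (Mid.rn_nonneg _) (by rw [← B.hτ, ← B.hx]; exact abs_le_absHi hS hT hv.Cm)
      (by rw [← B.hτ, ← B.hx]; exact le_posHi hS hT hv.Qm) (Mid.rn_nonneg _)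
    refine hc.trans ?_
    rw [mul_add]
    refine add_le_add le_rfl (le_trans ?_ (fin ?_ hFm))
    · simp only [← B.hτ, ← B.hx]
      exact mul_le_mul_of_nonneg_left (mul_le_mul_of_nonneg_left hfmb hτ0.le)
        (pow_nonneg (Real.sqrt_nonneg _) _)
    · refine le_trans ?_ hfmb
      have := Mid.rn_nonneg (posHi v.L.neg')
      have := Mid.rn_nonneg (absHi v.Cm)
      have := Mid.rn_nonneg (posHi v.Qm)
      have := mul_nonneg hZl0 (inv_nonneg.2 hX0)
      have := le_max_of_le_left (c := kmm ^ 2 / (2 * (c.co τ).kp τ (x ^ 2) (-Zl)))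
        (mul_nonneg hkn2 (show 0 ≤ 1 + rn c.K * (τ / (1 - τ)) - 1 by linarith))
      have : 0 ≤ 1 + rn c.K * (τ / (1 - τ)) - 1 := by linarith
      positivity
  · -- `y ≤ t`
    have hzle : y * (t - y) ≤ rn zm := by
      refine tail_z hS hT hv hXy hy ht ?_
      rw [hzm, Bool.true_or]
    have hzmem : y * (t - y) ∈ Icc 0 (rn zm) := ⟨mul_nonneg hy.1.le (by linarith), hzle⟩
    have hth : |t - y| ≤ rn iy * y := by
      rw [abs_of_nonneg (by linarith)]
      have h1 := nn_le hS hT hiy ((((has_cst (Nat.add iy 16777216)).mul (has_cst (Nat.add iy 16777216))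
        hS hT).mul hv.Xt hS hT).sub has_one)
      rw [Nat.add_eq, Mid.rn_add, Mid.rn_U, hXy] at h1
      have : 1 ≤ (rn iy + 1) * y := (pow_le_pow_iff_left₀ zero_le_one
        (mul_nonneg (by linarith [Mid.rn_nonneg iy]) hy.1.le) two_ne_zero).1 (by
        rw [one_pow, mul_pow]; linarith)
      linarith [ht.2]
    have hkp' := kp_mono (p := p) (X := x ^ 2) B.hb B.hok.hD.1 (by rw [← B.hτ]; exact hot.le) hzmem.1
    have hc := crude_point (R := c.R.val τ) (R' := c.R.der τ) (v := c.Vp.val τ) (v' := c.Vp.der τ)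
      (c2 := c2) (km := kmp) (W := W) (th := rn iy) (Ls := rn (posHi v.L)) (Ca := rn (absHi v.Cp))
      (Qb := rn (posHi v.Qp)) (kp := (c.co τ).kp τ (x ^ 2) 0) B.hok B.pt hk hwW hW1
      (by rw [← B.hx]; exact hR0) (by rw [← B.hτ] at hkp' ⊢; rw [← B.hx]; exact hkp') hkp0
      (by rw [← B.hτ, ← B.hx]; exact kw_ends hzmem hkm0 hkm1) hkm2 hth
      (by
        rw [← B.hτ, ← B.hx, abs_of_nonneg (by linarith : 0 ≤ t - y)]
        exact mul_le_mul_of_nonneg_right (le_posHi hS hT hv.L) (by linarith))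
      (Mid.rn_nonneg _) (by rw [← B.hτ, ← B.hx]; exact abs_le_absHi hS hT hv.Cp)
      (by rw [← B.hτ, ← B.hx]; exact le_posHi hS hT hv.Qp) (Mid.rn_nonneg _)
    refine hc.trans ?_
    rw [mul_add]
    refine add_le_add le_rfl (le_trans ?_ (fin ?_ hFp))
    · simp only [← B.hτ, ← B.hx]
      exact mul_le_mul_of_nonneg_left (mul_le_mul_of_nonneg_left hfpb hτ0.le)
        (pow_nonneg (Real.sqrt_nonneg _) _)
    · refine le_trans ?_ hfpb
      have := Mid.rn_nonneg (posHi v.L)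
      have := Mid.rn_nonneg (absHi v.Cp)
      have := Mid.rn_nonneg (posHi v.Qp)
      have := Mid.rn_nonneg iy
      have := le_max_of_le_left (c := kmp ^ 2 / (2 * (c.co τ).kp τ (x ^ 2) 0))
        (mul_nonneg hkm2 (show 0 ≤ W - 1 by linarith))
      have : 0 ≤ W - 1 := by linarith
      positivity

end Vale.Agent.P237.All.Transport.Small.Large
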