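import Vale.Agent.P237.All.Small.Large.SoundCrude
import Vale.Agent.P237.All.Small.Large.FarCheck
import Vale.Agent.P237.All.Mid.Tail

/-!
P237, every dimension, excess `k ≤ .0134`: what the forms beyond the last knot hold, and the absolute
bound beyond the last segment of a slice away from `τ = 0`.
-/

noncomputable section

open Real Set

namespace Vale.Agent.P237.All.Transport.Small.Large

open Mid (Sg AF Pt Knot Spl XP epsP rn knClear)

variable {S T : ℝ}

theorem knClear_of_all : ∀ {l : List Knot} {N M : ℕ}, (l.all fun K => Nat.ble K.tau N) = true →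
    knClear l N M = true
  | [], _, _, _ => rfl
  | K :: l, N, M, h => by
    rw [List.all_cons, Bool.and_eq_true] at h
    rw [knClear, h.1, Bool.true_or, Bool.true_and]
    exact knClear_of_all h.2

/-- The sums that `knA` passes on do not depend on what follows. -/
theorem knA_val : ∀ (l : List Knot) (N : ℕ) (a b c d e f g h i j m n : ℕ), ∃ v d' a' : Mid.Par,
    ∀ k : Mid.Par → Mid.Par → Mid.Par → Bool, knA l N k a b c d e f g h i j m n = k v d' a'
  | [], N, a, b, c, d, e, f, g, h, i, j, m, n => ⟨_, _, _, fun k => rfl⟩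
  | K :: l, N, a, b, c, d, e, f, g, h, i, j, m, n => by
    rcases hb : Nat.ble K.tau N with _ | _
    · obtain ⟨v, d', a', hk⟩ := knA_val l N a b c d e f g h i j m n
      refine ⟨v, d', a', fun k => ?_⟩
      rw [← hk k]
      show cond (Nat.ble K.tau N) _ _ = _
      rw [hb]; rfl
    · obtain ⟨v, d', a', hk⟩ := knA_val l N
        (Nat.add a (Nat.mul (Nat.mul (Nat.sub N K.tau) (Nat.sub N K.tau)) K.d.c.pos))
        (Nat.add b (Nat.mul (Nat.mul (Nat.sub N K.tau) (Nat.sub N K.tau)) K.d.c.neg))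
        (Nat.add c (Nat.mul (Nat.mul (Nat.sub N K.tau) (Nat.sub N K.tau)) K.d.t.pos))
        (Nat.add d (Nat.mul (Nat.mul (Nat.sub N K.tau) (Nat.sub N K.tau)) K.d.t.neg))
        (Nat.add e (Nat.mul (Nat.sub N K.tau) K.d.c.pos)) (Nat.add f (Nat.mul (Nat.sub N K.tau) K.d.c.neg))
        (Nat.add g (Nat.mul (Nat.sub N K.tau) K.d.t.pos)) (Nat.add h (Nat.mul (Nat.sub N K.tau) K.d.t.neg))
        (Nat.add i K.d.c.pos) (Nat.add j K.d.c.neg) (Nat.add m K.d.t.pos) (Nat.add n K.d.t.neg)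
      refine ⟨v, d', a', fun k => ?_⟩
      rw [← hk k]
      show cond (Nat.ble K.tau N) _ _ = _
      rw [hb, cond_true, Mid.forceN_eq]
      rfl

/-- The sums that `knC` passes on do not depend on what follows. -/
theorem knC_val (l : List Knot) (N : ℕ) : ∃ v d a : Mid.Par,
    ∀ k : Mid.Par → Mid.Par → Mid.Par → Bool, knC l N k = k v d a :=
  knA_val l N _ _ _ _ _ _ _ _ _ _ _ _

theorem flatEnd_sound {P : Spl} {t : AF} {τ : ℝ} {N : ℕ} {k : AF → Bool} (hS : |S| ≤ 1) (hT : |T| ≤ 1)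
    (hτ : |τ| ≤ 1) (ht : t.Has S T τ) (h : flatEnd P t N k = true) :
    ∃ f : AF, ∃ v : ℝ, f.Has S T v ∧ k f = true ∧
      ∀ X, rn N ≤ X → P.val τ X = v ∧ P.der τ X = 0 := by
  simp only [flatEnd, Bool.and_eq_true] at h
  obtain ⟨hall, h⟩ := h
  obtain ⟨v, d, a, hval⟩ := knC_val P.kn N
  rw [hval] at h
  have hk := h
  simp only [Bool.and_eq_true, AF.force_eq, Nat.beq_eq, Nat.add_eq] at hk
  obtain ⟨hz, hk⟩ := hk
  have z1 := par_abs_zero (show ((P.v1.c.smul 16777216).add d.c).norm.abs' = 0 by omega)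
  have z2 := par_abs_zero (show ((P.v1.t.smul 16777216).add d.t).norm.abs' = 0 by omega)
  have z3 := par_abs_zero (show a.c.abs' = 0 by omega)
  have z4 := par_abs_zero (show a.t.abs' = 0 by omega)
  simp only [Sg.norm_v, Sg.add_v, Sg.smul_v, Nat.cast_ofNat] at z1 z2
  refine ⟨_, _, gafR_has hS hT ht hτ _ _ (by norm_num), hk, fun X hX => ?_⟩
  -- the same lists of knots are active on every interval to the right
  set M := ⌈X * 16777216⌉₊ with hMd
  have hM : X ≤ rn M := by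
    rw [rn, le_div_iff₀ (by norm_num)]; exact Nat.le_ceil _
  obtain ⟨v', d', a', hk', hx⟩ := knC_sound N M τ P.kn (knClear_of_all hall)
    (k := fun a1 b1 A1 => @decide (a1 = v ∧ b1 = d ∧ A1 = a) (Classical.dec _))
    (by classical rw [hval]; exact @decide_eq_true _ (Classical.dec _) ⟨rfl, rfl, rfl⟩)
  obtain ⟨h1, h2⟩ := hx X ⟨hX, hM⟩
  obtain ⟨rfl, rfl, rfl⟩ := @of_decide_eq_true _ (Classical.dec _) hk'
  constructor
  · rw [Spl.val, h1]
    simp only [Mid.Par.val, rn, cast_U, Sg.add_v, Sg.smul_v, Nat.mul_eq, z3, z4]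
    push_cast
    linear_combination (norm := ring_nf) ((X - (N : ℝ) / 16777216) / 16777216 ^ 2) * z1 +
      ((X - (N : ℝ) / 16777216) / 16777216 ^ 2 * τ) * z2
  · rw [Spl.der, h2]
    simp only [Mid.Par.val, rn, cast_U, z3, z4]
    linear_combination (norm := ring_nf) (1 / 16777216 ^ 2) * z1 + (τ / 16777216 ^ 2) * z2

/-- The real part of `L S` without `X`. -/
def farLin0 (c : Co) (τ S R : ℝ) : ℝ :=
  2 * (c.Ll τ / (1 - 2 * τ)) * S +
    (c.T1 / (1 - τ) - c.e0 * τ / (1 - τ) / (1 - 2 * τ) - c.K0 / (1 - 2 * τ) - (1 - τ) * R)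

/-- `-L S` per `X`. -/
def farLin1 (c : Co) (τ : ℝ) : ℝ :=
  (c.e0 + τ * c.T1) / (1 - τ) + (1 - τ) * (c.Ll τ / (1 - 2 * τ))

/-- What the forms beyond the last knot hold at `u = X τ`. -/
structure FarHas (c : Cell) (v : FarV) (S T τ uv R vp vm zv : ℝ) (N : ℕ) : Prop where
  hu : v.u.Has S T uv
  Sv : v.Sv.Has S T (1 - uv)
  hR : v.R.Has S T R
  hvp : v.vp.Has S T vp
  hvm : v.vm.Has S T vm
  R0 : 0 ≤ R
  kpp : v.kpp.Has S T ((c.co τ).gc / (1 - τ))
  kpm : v.kpm.Has S T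
    (((c.co τ).gc - (c.co τ).gc * ((c.co τ).b - 1) / (1 - τ) * (rn c.K * τ ^ 2)) / (1 - τ))
  kw : ∀ X, X * τ = uv → v.kw0.Has S T ((c.co τ).kw τ X 0) ∧ v.kwp.Has S T ((c.co τ).kw τ X zv) ∧
    v.kwm.Has S T ((c.co τ).kw τ X (-(rn c.K * τ ^ 2 * ((1 - uv) * (1 / (1 - τ))))))
  A0 : v.A0.Has S T (farLin0 (c.co τ) τ (1 - uv) R)
  A1 : v.A1.Has S T (farLin1 (c.co τ) τ)
  C : ∀ X, X * τ = uv →
    v.Cp.Has S T ((c.co τ).C τ X vp) ∧ v.Cm.Has S T ((c.co τ).C τ X vm)
  flat : ∀ X, rn N ≤ X → c.R.val τ X = R ∧ c.R.der τ X = 0 ∧ c.Vp.val τ X = vp ∧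
    c.Vp.der τ X = 0 ∧ c.Vm.val τ X = vm ∧ c.Vm.der τ X = 0

theorem withFarV_sound {c : Cell} {e : Env} {τ uv zv : ℝ} {N : ℕ} {u zz : AF} {k : FarV → Bool}
    (hS : |S| ≤ 1) (hT : |T| ≤ 1) (hτ : |τ| ≤ 1) (he : EnvHas c e S T τ) (hu : u.Has S T uv)
    (hz : zz.Has S T zv) (h : withFarV c e N u zz k = true) :
    ∃ (v : FarV) (R vp vm : ℝ), FarHas c v S T τ uv R vp vm zv N ∧ k v = true := by
  rw [withFarV] at h
  obtain ⟨fR, R, hR, h, eR⟩ := flatEnd_sound hS hT hτ he.t h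
  obtain ⟨fp, vp, hvp, h, ep⟩ := flatEnd_sound hS hT hτ he.t h
  obtain ⟨fm, vm, hvm, h, em⟩ := flatEnd_sound hS hT hτ he.t h
  simp only [AF.force_eq, Bool.and_eq_true] at h
  have hSv := has_one.sub hu
  have hot := has_one.sub he.t
  have hlr := (he.e0.add ((he.t.mul he.i1 hS hT).mul he.K0 hS hT)).add (hu.mul he.Ll hS hT)
  have hkw0 := (hlr.mul he.i2 hS hT).add (he.gc.mul (hSv.mul he.i1 hS hT) hS hT)
  have hcx := (hu.mul he.X0c hS hT).mul he.i2 hS hT
  refine ⟨_, R, vp, vm, ?_, h.2⟩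
  exact
    { hu := hu
      Sv := hSv
      hR := hR
      hvp := hvp
      hvm := hvm
      R0 := nn_le hS hT h.1 hR
      kpp := has_cast (he.gc.mul he.i1 hS hT) (by ring)
      kpm := has_cast ((he.gc.sub (he.gcb.mul he.Kt2 hS hT)).mul he.i1 hS hT) (by ring)
      kw := fun X hX => ⟨has_cast hkw0 (by rw [← hX]; simp only [Co.kw, Co.lr]; ring),
        has_cast (hkw0.add (he.cth.mul hz hS hT)) (by rw [← hX]; simp only [Co.kw, Co.lr]; ring),
        has_cast (hkw0.sub (he.cth.mul (he.Kt2.mul (hSv.mul he.i1 hS hT) hS hT) hS hT))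
          (by rw [← hX]; simp only [Co.kw, Co.lr]; ring)⟩
      A0 := has_cast (((has_ratio hS hT (he.Ll.mul he.i2 hS hT) 2 1 one_pos).mul hSv hS hT).add
        ((((he.T1.mul he.i1 hS hT).sub ((he.e0.mul (he.t.mul he.i1 hS hT) hS hT).mul he.i2 hS hT)).sub
          (he.K0.mul he.i2 hS hT)).sub (hot.mul hR hS hT)))
        (by simp only [farLin0]; push_cast; ring)
      A1 := has_cast (((he.e0.add (he.t.mul he.T1 hS hT)).mul he.i1 hS hT).add
        (hot.mul (he.Ll.mul he.i2 hS hT) hS hT)) (by simp only [farLin1]; ring)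
      C := fun X hX => ⟨has_cast ((has_ratio hS hT hvp 2 1 one_pos).sub hcx)
          (by rw [← hX]; simp only [Co.C]; push_cast; ring),
        has_cast ((has_ratio hS hT hvm 2 1 one_pos).sub hcx)
          (by rw [← hX]; simp only [Co.C]; push_cast; ring)⟩
      flat := fun X hX => ⟨(eR X hX).1, (eR X hX).2, (ep X hX).1, (ep X hX).2, (em X hX).1,
        (em X hX).2⟩ }

theorem farL_eq (c : Co) {τ X R : ℝ} (hS : 1 - X * τ ≠ 0) :
    c.L τ X R 0 * (1 - X * τ) = farLin0 c τ (1 - X * τ) R - X * farLin1 c τ := by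
  simp only [Co.L, farLin0, farLin1]
  rw [mul_zero, add_zero, add_mul, div_mul_cancel₀ _ hS]
  ring

theorem farQ_eq (c : Co) {τ X v : ℝ} (hS : 1 - X * τ ≠ 0) :
    c.Q τ X v 0 0 * (1 - X * τ) =
      X * ((c.G + c.b ^ 2 * c.D) * (1 + 2 * τ) / (1 - τ) * (1 - X * τ) - (1 - τ) * v) - v * (1 - X * τ) := by
  simp only [Co.Q, mul_zero, zero_mul, zero_add, sub_zero]
  rw [sub_mul, add_mul v, div_mul_cancel₀ _ hS]
  ring

/-- `k` against `zk`. -/
theorem zk_le {c : Cell} {lo zk p : ℕ} {k : ℝ} (hlo : 0 < lo) (htl : rn lo ≤ tau p)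
    (hkl : exp (-(5 / 4 * √((p : ℝ) + 1))) / 5 ≤ k) (hzc : 0 < c.zk → exp (-rn c.zk) / 5 ≤ k)
    (h : zkOK c lo zk = true) : exp (-rn zk) ≤ 5 * k := by
  rw [zkOK, Bool.or_eq_true, Bool.and_eq_true] at h
  rcases h with h | ⟨h1, h2⟩
  · refine le_trans (exp_le_exp.2 ?_) (show exp (-(5 / 4 * √((p : ℝ) + 1))) ≤ 5 * k by linarith)
    have h0 := Nat.cast_le (α := ℝ).2 (Nat.le_of_ble_eq_true h)
    simp only [Nat.mul_eq, Nat.cast_mul, Nat.cast_ofNat, Nat.sub_eq] at h0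
    have h1 := Mid.cast_sub_ge 16777216 lo
    push_cast at h1
    have htl0 : 0 < (lo : ℝ) := Nat.cast_pos.2 hlo
    have h3 : ((p : ℝ) + 1) * lo ≤ 16777216 - (lo : ℝ) := by
      rw [tau, rn, div_le_div_iff₀ (by norm_num) (by positivity)] at htl
      linarith
    rw [neg_le_neg_iff]
    refine (pow_le_pow_iff_left₀ (by positivity) (Mid.rn_nonneg _) two_ne_zero).1 ?_
    rw [mul_pow, Real.sq_sqrt (by positivity)]
    simp only [rn, div_pow]
    rw [le_div_iff₀ (by norm_num)]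
    refine le_of_mul_le_mul_right ?_ htl0
    have h5 := mul_le_mul_of_nonneg_left h3 (show (0 : ℝ) ≤ 25 * (16777216 * 16777216) by norm_num)
    have h6 := mul_le_mul_of_nonneg_left h1 (show (0 : ℝ) ≤ 25 * (16777216 * 16777216) by norm_num)
    linarith
  · have := hzc (Nat.le_of_ble_eq_true h1)
    have h3 := exp_le_exp.2 (neg_le_neg (Mid.rn_le (Nat.le_of_ble_eq_true h2)))
    linarith

/-- A weight from four terms of the logarithm. -/
theorem semi_pow_le' {n : ℕ} {y : ℝ} (hy : y ∈ Ioo (0 : ℝ) 1) :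
    semi y ^ n ≤ exp (-((n : ℝ) / 2 *
      (y ^ 2 + (y ^ 2) ^ 2 / 2 + (y ^ 2) ^ 3 / 3 + (y ^ 2) ^ 4 / 4))) := by
  cases n with
  | zero => simp
  | succ m =>
    refine (semi_pow_le7 m hy).trans (exp_le_exp.2 (neg_le_neg ?_))
    push_cast
    refine mul_le_mul_of_nonneg_left ?_ (by positivity)
    have h5 : 0 ≤ (y ^ 2) ^ 5 / 5 + (y ^ 2) ^ 6 / 6 + (y ^ 2) ^ 7 / 7 := by positivity
    linarith

/-- What `t ≤ y` gives beyond the band. -/
theorem behind_facts {p : ℕ} {k K y t r lam : ℝ} (hpt : Pt p k y t r lam) (hp : 29 ≤ p) (hk : 0 < k)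
    (hkK : k ≤ K) (hK : K ≤ 1) (hty : t ≤ y) :
    y * (y - t) ≤ k * tau p ^ 2 * ((1 - y ^ 2) * (1 / (1 - tau p))) ∧
      (r ^ p)⁻¹ ≤ 1 + K * (tau p / (1 - tau p)) := by
  have hy := hpt.hy
  have ht := hpt.ht
  have hτ := tau_pos p
  have hp1 : 1 ≤ p := by omega
  obtain ⟨e1, -, -, eX⟩ := tau_facts p (y := y)
  constructor
  · set ψ := (t - y) / (k * tau p * y) with hψd
    have hkτy : 0 < k * tau p * y := mul_pos (mul_pos hk hτ) hy.1
    have hθ : t - y = k * tau p * y * ψ := by rw [hψd, mul_div_cancel₀ _ hkτy.ne']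
    have hX0 : 0 < XP p y := by have := hy.1; unfold XP; positivity
    have hA := psi_behind hpt hp hk (hkK.trans hK) hθ (x0 := 0) (den := XP p y) le_rfl
      (by rw [zero_pow two_ne_zero]; exact hX0.le) hX0 (by simp) le_rfl
    have h2 := mul_le_mul_of_nonneg_left hA (show 0 ≤ k * tau p * y ^ 2 by positivity)
    rw [eX] at h2
    have h1 : 1 - tau p ≠ 0 := by rw [e1]; positivity
    have e3 : k * tau p * y ^ 2 * ((1 - y ^ 2) / (1 - tau p) / XP p y) =
        k * tau p ^ 2 * ((1 - y ^ 2) * (1 / (1 - tau p))) := by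
      rw [← eX]; field_simp
    have e4 : y * (y - t) = -(k * tau p * y ^ 2 * ψ) := by
      rw [show y - t = -(t - y) by ring, hθ]; ring
    linarith
  · have hsy := semi_pos (t := y) ⟨by linarith [hy.1], hy.2⟩
    have h1 : semi y ≤ semi t := by
      rw [semi, semi]
      exact Real.sqrt_le_sqrt (by linarith [pow_le_pow_left₀ ht.1.le hty 2])
    have h2 : 1 ≤ lam * r := by
      refine le_of_mul_le_mul_right ?_ hsy
      have := hpt.ridge
      linarith
    have hr := hpt.hr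
    have h3 : (r ^ p)⁻¹ ≤ lam ^ p := by
      rw [inv_le_iff_one_le_mul₀ (pow_pos hr p), ← mul_pow]; exact one_le_pow₀ h2
    have := lam_pow_le hpt hp1 hk.le (hkK.trans hK)
    have := mul_le_mul_of_nonneg_right hkK (eps_nonneg p)
    rw [eps_eq (rfl : tau p = tau p)]
    linarith

/-- `w semi y` against `x ≥ 5`. -/
theorem wide_w {p : ℕ} {k y t r lam x : ℝ} (hpt : Pt p k y t r lam) (hp : 2 ≤ p)
    (hx : x ^ 2 = XP p y) (hx5 : 5 ≤ x) : (r ^ p)⁻¹ ≤ 19 / 20 * x / semi y ∧ 1 ≤ 19 / 20 * x / semi y := by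
  have hy := hpt.hy
  have hs := semi_pos (t := y) ⟨by linarith [hy.1], hy.2⟩
  have hsx := point_sqrt p hy.1.le hx (by linarith)
  have h := (High.reach_wide (θ := 17 / 20) hp hy hpt.hr hpt.reach (by norm_num) (Or.inl le_rfl)).trans
    (Mid.wide_five (show 5 ≤ √((p : ℝ) + 2) * y by rw [hsx]; exact hx5))
  rw [hsx] at h
  refine ⟨(le_div_iff₀ hs).2 h, ?_⟩
  rw [one_le_div hs]
  exact (Real.sqrt_le_one.2 (by nlinarith [hy.1] : 1 - y ^ 2 ≤ 1)).trans (by linarith)

theorem uAF_has {a h : ℕ} {uv : ℝ} (h0 : rn a ≤ uv) (h1 : uv ≤ rn (a + 2 * h)) :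
    ∃ S : ℝ, |S| ≤ 1 ∧ ∀ T, (uAF a h).Has S T uv := by
  have z : (⟨0, 0⟩ : Sg).v = 0 := by simp [Sg.v]
  simp only [rn, Nat.cast_add, Nat.cast_mul, Nat.cast_ofNat] at h0 h1
  rw [div_le_iff₀ (by norm_num)] at h0
  rw [le_div_iff₀ (by norm_num)] at h1
  rcases Nat.eq_zero_or_pos h with hh | hh
  · refine ⟨0, by norm_num, fun T => ?_⟩
    subst hh
    simp only [AF.Has, uAF, Sg.ofN_v, z, cast_U, Nat.cast_zero, mul_zero, zero_mul, add_zero, Nat.add_eq,
      abs_nonpos_iff] at *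
    push_cast
    linarith
  · have hh' : (0 : ℝ) < h := Nat.cast_pos.2 hh
    refine ⟨(uv * 16777216 - a) / h - 1, ?_, fun T => ?_⟩
    · rw [abs_le]
      have a0 : 0 ≤ (uv * 16777216 - a) / h := div_nonneg (by linarith) hh'.le
      have a1 : (uv * 16777216 - a) / h ≤ 2 := (div_le_iff₀ hh').2 (by linarith)
      constructor <;> linarith
    · simp only [AF.Has, uAF, Sg.ofN_v, z, cast_U, Nat.add_eq, Nat.cast_zero, zero_mul,
        add_zero, abs_nonpos_iff]
      push_cast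
      field_simp
      ring

/-- Four terms of the logarithm against the weight beyond `u1`. -/
theorem far_weight {y k : ℝ} {p lo hi u1 zk : ℕ} (hy : y ∈ Ioo (0 : ℝ) 1) (hp : 2 ≤ p)
    (hτr : rn lo ≤ tau p ∧ tau p ≤ rn hi) (h3 : Nat.mul 3 hi ≤ 16777216)
    (hu0 : rn u1 ≤ y ^ 2) (hz2 : exp (-rn zk) ≤ 5 * k) {z : ℕ}
    (hzk : zk ≤ z) (hz : z = Nat.div (Nat.mul (Nat.add (Nat.add u1 (Nat.div (Nat.div (Nat.mul u1 u1) 16777216) 2))
      (Nat.add (Nat.div (Nat.div (Nat.mul (Nat.div (Nat.mul u1 u1) 16777216) u1) 16777216) 3)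
        (Nat.div (Nat.div (Nat.mul (Nat.div (Nat.mul u1 u1) 16777216)
          (Nat.div (Nat.mul u1 u1) 16777216)) 16777216) 4)))
      (Nat.sub 16777216 (Nat.mul 3 hi))) (Nat.mul 2 hi)) :
    semi y ^ (p - 1) ≤ exp (-rn (z - zk)) * (5 * k) := by
  subst hz
  set w2 := Nat.div (Nat.mul u1 u1) 16777216 with hw2
  set w3 := Nat.div (Nat.mul w2 u1) 16777216 with hw3
  set w4 := Nat.div (Nat.mul w2 w2) 16777216 with hw4
  set ser := Nat.add (Nat.add u1 (Nat.div w2 2)) (Nat.add (Nat.div w3 3) (Nat.div w4 4)) with hser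
  set z := Nat.div (Nat.mul ser (Nat.sub 16777216 (Nat.mul 3 hi))) (Nat.mul 2 hi) with hzd
  have hτ0 := tau_pos p
  have hzy : rn z ≤ ((p - 1 : ℕ) : ℝ) / 2 *
      (y ^ 2 + (y ^ 2) ^ 2 / 2 + (y ^ 2) ^ 3 / 3 + (y ^ 2) ^ 4 / 4) := by
    have hdiv : ∀ a d : ℕ, rn (Nat.div a d) ≤ rn a / d := fun a d => by
      refine le_trans (div_le_div_of_nonneg_right (Mid.cast_div_le _ _) (by norm_num)) (le_of_eq ?_)
      simp only [rn]; ring
    have hU : ∀ a b : ℕ, rn (Nat.div (Nat.mul a b) 16777216) ≤ rn a * rn b := fun a b => by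
      refine le_trans (hdiv _ _) (le_of_eq ?_)
      simp only [rn, Nat.mul_eq]; push_cast; ring
    have b1 := Mid.rn_nonneg u1
    have b2 : rn w2 ≤ (y ^ 2) ^ 2 :=
      (hU u1 u1).trans (by rw [pow_two (y ^ 2)]; exact mul_le_mul hu0 hu0 b1 (by positivity))
    have b3 : rn w3 ≤ (y ^ 2) ^ 3 :=
      (hU w2 u1).trans (by rw [pow_succ (y ^ 2) 2]; exact mul_le_mul b2 hu0 b1 (by positivity))
    have b4 : rn w4 ≤ (y ^ 2) ^ 4 :=
      (hU w2 w2).trans (by
        rw [show (y ^ 2) ^ 4 = (y ^ 2) ^ 2 * (y ^ 2) ^ 2 by ring]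
        exact mul_le_mul b2 b2 (Mid.rn_nonneg _) (by positivity))
    have bs : rn ser ≤ y ^ 2 + (y ^ 2) ^ 2 / 2 + (y ^ 2) ^ 3 / 3 + (y ^ 2) ^ 4 / 4 := by
      have c2 := hdiv w2 2
      have c3 := hdiv w3 3
      have c4 := hdiv w4 4
      push_cast at c2 c3 c4
      simp only [hser, Nat.add_eq, Mid.rn_add]
      linarith
    have hhi0 : 0 < hi := by
      have h := hτ0.trans_le hτr.2
      exact Nat.pos_of_ne_zero fun e => by simp [e, rn] at h
    have h3 : 3 * hi ≤ 16777216 := h3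
    have hcast : (((p - 1 : ℕ) : ℝ)) = (1 - 3 * tau p) / tau p := by
      rw [Nat.cast_sub (show 1 ≤ p by omega), tau]; field_simp; ring
    have hmono : (1 - 3 * rn hi) / rn hi ≤ (1 - 3 * tau p) / tau p := by
      have a1 : (0 : ℝ) < rn hi := div_pos (Nat.cast_pos.2 hhi0) (by norm_num)
      rw [sub_div, sub_div, mul_div_assoc, mul_div_assoc, div_self a1.ne', div_self hτ0.ne']
      exact sub_le_sub (one_div_le_one_div_of_le hτ0 hτr.2) le_rfl
    refine le_trans (hdiv _ _) ?_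
    rw [hcast]
    have a2 : 0 ≤ 1 - 3 * rn hi := by
      rw [sub_nonneg, rn, ← mul_div_assoc, div_le_one (by norm_num)]; exact_mod_cast h3
    have a3 := mul_le_mul hmono bs (Mid.rn_nonneg _) (le_trans (div_nonneg a2 (Mid.rn_nonneg _)) hmono)
    refine le_trans (le_of_eq ?_) (le_trans (le_of_eq (mul_div_right_comm _ _ _).symm) (by
      exact (div_le_div_of_nonneg_right a3 (by norm_num : (0 : ℝ) ≤ 2)).trans (le_of_eq (by ring))))
    simp only [rn, Nat.mul_eq, Nat.sub_eq, Nat.cast_mul, Nat.cast_ofNat, Nat.cast_sub h3]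
    push_cast
    ring
  refine (semi_pow_le' hy).trans (le_trans ?_ (mul_le_mul_of_nonneg_left hz2 (exp_pos _).le))
  rw [← Real.exp_add]
  refine exp_le_exp.2 ?_
  have := Mid.rn_add (z - zk) zk
  rw [Nat.sub_add_cancel hzk] at this
  linarith

/-- What the test of the bracket gives. -/
theorem far_fin {x y k f F S' : ℝ} {p lo hi zk z dl Lc : ℕ} (hp : 1 ≤ p) (hk : 0 < k)
    (eX : x ^ 2 * tau p = y ^ 2) (hy2 : y ^ 2 ≤ 1) (hτr : rn lo ≤ tau p ∧ tau p ≤ rn hi)
    (hw : semi y ^ (p - 1) ≤ exp (-rn (z - zk)) * (5 * k)) (hs2 : semi y ^ 2 = S') (hs : 0 < semi y)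
    (hL : Nat.ble (Nat.mul Lc (16777216 * 16777216 * 16777216 * 16777216 * 16777216))
        (Nat.mul (Nat.mul (Mid.expLo (Nat.sub z zk)) dl)
          (Nat.mul (Nat.mul lo lo) (Nat.mul lo lo))) = true)
    (hF0 : 0 ≤ F) (hF : 5 * (F * (1 + rn hi)) ≤ rn Lc) (hf : f * (tau p * S') ≤ F) :
    semi y ^ (p + 1) * (tau p * f) ≤ k * tau p ^ 3 * (rn dl / (1 + x ^ 2)) := by
  have hτ0 := tau_pos p
  rw [show semi y ^ (p + 1) * (tau p * f) = semi y ^ (p - 1) * (f * (tau p * S')) by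
    rw [show p + 1 = (p - 1) + 2 by omega, pow_add, hs2]; ring]
  rw [← mul_div_assoc, le_div_iff₀ (by positivity)]
  have hX1 : 1 + x ^ 2 ≤ (1 + rn hi) / tau p := by
    rw [le_div_iff₀ hτ0, add_mul, eX]; linarith [hτr.2]
  have h0 := Nat.cast_le (α := ℝ).2 (Nat.le_of_ble_eq_true hL)
  simp only [Nat.mul_eq, Nat.cast_mul, Nat.cast_ofNat, Nat.sub_eq] at h0
  have hex := Mid.expLo_sound (z - zk)
  have h1 : 5 * (F * (1 + rn hi)) * exp (-rn (z - zk)) ≤ tau p ^ 4 * rn dl := by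
    rw [Real.exp_neg, mul_inv_le_iff₀ (exp_pos _)]
    refine hF.trans (le_trans ?_ (mul_le_mul_of_nonneg_left hex (mul_nonneg (pow_nonneg hτ0.le 4) (Mid.rn_nonneg _))))
    refine le_trans ?_ (mul_le_mul_of_nonneg_right (mul_le_mul_of_nonneg_right
      (pow_le_pow_left₀ (Mid.rn_nonneg lo) hτr.1 4) (Mid.rn_nonneg _)) (Mid.rn_nonneg _))
    simp only [rn]
    refine le_of_mul_le_mul_right ?_ (show (0 : ℝ) < 16777216 ^ 6 by norm_num)
    refine le_trans (le_of_eq (by field_simp)) (h0.trans (le_of_eq (by field_simp)))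
  calc semi y ^ (p - 1) * (f * (tau p * S')) * (1 + x ^ 2)
      ≤ exp (-rn (z - zk)) * (5 * k) * F * ((1 + rn hi) / tau p) :=
        mul_le_mul ((mul_le_mul_of_nonneg_left hf (pow_nonneg hs.le _)).trans
          (mul_le_mul_of_nonneg_right hw hF0)) hX1 (by positivity) (by positivity)
    _ = k / tau p * (5 * (F * (1 + rn hi)) * exp (-rn (z - zk))) := by ring
    _ ≤ k / tau p * (tau p ^ 4 * rn dl) := mul_le_mul_of_nonneg_left h1 (by positivity)
    _ = k * tau p ^ 3 * rn dl := by field_simp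

/-- The bracket ahead against `Fp`, times `τ S`. -/
theorem far_alg_ahead {A M B Bw Gd Gt L2 Lt Qd Qt P W sr τS F : ℝ} (hM : M + A ≤ Bw + Gd + B)
    (hBw : (Bw + B) * τS = P * (W * τS)) (hW : W * τS ≤ sr) (hP : 0 ≤ P) (hG : Gd * τS = Gt)
    (hL : L2 * τS ≤ Lt) (hQ : Qd * τS = Qt) (hτS : 0 ≤ τS) (hF : P * sr + Gt + Lt + Qt ≤ F) :
    (A + M + L2 + Qd) * τS ≤ F := by
  have h1 := mul_le_mul_of_nonneg_right hM hτS
  have h2 := mul_le_mul_of_nonneg_left hW hP
  nlinarith only [h1, h2, hBw, hG, hL, hQ, hF]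

set_option maxHeartbeats 1600000 in
theorem farOK_sound {c : Cell} {tc hh x1 zk p : ℕ} {τ x k y t r lam : ℝ} (hT : |T| ≤ 1)
    (hτ : τ = tau p) (hτT : τ = tauOf tc hh T) (hhh : hh ≤ tc) (hp : 29 ≤ p) (hok : (c.co τ).Ok p)
    (hb : 1 ≤ (c.co τ).b) (hk : 0 < k) (hkK : k ≤ rn c.K) (hK : rn c.K ≤ 1)
    (hkl : exp (-(5 / 4 * √((p : ℝ) + 1))) / 5 ≤ k) (hzc : 0 < c.zk → exp (-rn c.zk) / 5 ≤ k)
    (hpt : Pt p k y t r lam) (hx : x ^ 2 = XP p y) (hx1 : rn x1 ≤ x) (h : farOK c tc hh x1 zk = true)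
    (c2 : ℝ) :
    (t ≤ y → total p (c.co τ) (c.R.val τ) (c.R.der τ) (c.Vm.val τ) (c.Vm.der τ) c2 lam y t r ≤
      semi y ^ (p + 1) * majZero p ((c.co τ).G / ((p : ℝ) + 1)) ((c.co τ).D / ((p : ℝ) + 1)) c2 y +
        k * tau p ^ 3 * (rn c.dl / (1 + x ^ 2))) ∧
    (y ≤ t → total p (c.co τ) (c.R.val τ) (c.R.der τ) (c.Vp.val τ) (c.Vp.der τ) c2 lam y t r ≤
      semi y ^ (p + 1) * majZero p ((c.co τ).G / ((p : ℝ) + 1)) ((c.co τ).D / ((p : ℝ) + 1)) c2 y +
        k * tau p ^ 3 * (rn c.dl / (1 + x ^ 2))) := by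
  subst hτ
  simp only [farOK, Mid.forceN_eq, Bool.and_eq_true] at h
  obtain ⟨⟨⟨⟨⟨hlo, hu1U⟩, hN5⟩, h3hi⟩, hzk⟩, h⟩ := h
  set lo := Nat.sub tc hh with hlod
  set hi := Nat.add tc hh with hhid
  set N := Nat.div (Nat.mul x1 x1) 16777216 with hNd
  set u1 := Nat.mul 2 (Nat.div (Nat.div (Nat.mul N lo) 16777216) 2) with hu1d
  replace hlo : 0 < lo := Nat.le_of_ble_eq_true hlo
  replace hu1U : u1 < 16777216 := Nat.le_of_ble_eq_true hu1U
  have hy := hpt.hy
  have ht := hpt.ht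
  have hτ0 := tau_pos p
  obtain ⟨e1, e2, -, eX⟩ := tau_facts p (y := y)
  rw [← hx] at eX
  -- the place of the slice
  have hτr : rn lo ≤ tau p ∧ tau p ≤ rn hi := by
    rw [hτT, tauOf, hlod, hhid, Nat.sub_eq, Nat.add_eq, rn, rn, Nat.cast_sub hhh, Nat.cast_add]
    obtain ⟨h1, h2⟩ := abs_le.1 hT
    have h3 := mul_le_mul_of_nonneg_left h1 (Nat.cast_nonneg (α := ℝ) hh)
    have h4 := mul_le_mul_of_nonneg_left h2 (Nat.cast_nonneg (α := ℝ) hh)
    constructor <;> refine div_le_div_of_nonneg_right ?_ (by norm_num) <;> linarith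
  have hp' : (29 : ℝ) ≤ p := by exact_mod_cast hp
  have hτ1 : |tau p| ≤ 1 := by
    rw [abs_of_pos hτ0, tau, div_le_one (by positivity)]; linarith
  have hN : rn N ≤ x ^ 2 := by
    refine le_trans (div_le_div_of_nonneg_right (Mid.cast_div_le _ _) (by norm_num)) ?_
    refine le_trans (le_of_eq ?_) (pow_le_pow_left₀ (Mid.rn_nonneg x1) hx1 2)
    simp only [rn, Nat.mul_eq]; push_cast; ring
  have hx0 : 0 ≤ x := (Mid.rn_nonneg x1).trans hx1
  have hx5 : 5 ≤ x := by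
    refine (pow_le_pow_iff_left₀ (by norm_num) hx0 two_ne_zero).1 (le_trans ?_ hN)
    refine le_trans (le_of_eq ?_) (Mid.rn_le (Nat.le_of_ble_eq_true hN5))
    norm_num [rn]
  have hu0 : rn u1 ≤ y ^ 2 := by
    rw [← eX]
    refine le_trans ?_ (mul_le_mul hN hτr.1 (Mid.rn_nonneg _) (sq_nonneg x))
    have a1 : u1 ≤ Nat.div (Nat.mul N lo) 16777216 := by
      rw [hu1d, Nat.mul_eq, mul_comm]; exact Nat.div_mul_le_self _ _
    refine (Mid.rn_le a1).trans (le_trans (div_le_div_of_nonneg_right (Mid.cast_div_le _ _) (by norm_num))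
      (le_of_eq ?_))
    simp only [rn, Nat.mul_eq]; push_cast; ring
  have hy2 : y ^ 2 < 1 := by nlinarith [hy.1, hy.2]
  have hcover : y ^ 2 ≤ rn (u1 + 2 * Nat.div (Nat.sub 16777216 u1) 2) := by
    have : 16777216 ≤ u1 + 2 * Nat.div (Nat.sub 16777216 u1) 2 := by
      have : 2 ∣ u1 := ⟨_, hu1d⟩
      simp only [Nat.sub_eq, Mid.nat_div_def]; omega
    exact hy2.le.trans (Mid.rn_U.ge.trans (Mid.rn_le this))
  obtain ⟨S, hS, huf⟩ := uAF_has hu0 hcover
  obtain ⟨e, he, h⟩ := withEnv_sound (S := S) hS hT h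
  rw [← hτT] at he
  simp only [AF.force_eq] at h
  obtain ⟨v, R, vp, vm, hv, h⟩ := withFarV_sound hS hT hτ1 he (huf T)
    (has_ratio hS hT (has_one.sub (huf T)) 1 2 two_pos) h
  obtain ⟨hRX, hRd, hpX, hpd, hmX, hmd⟩ := hv.flat (x ^ 2) hN
  obtain ⟨hkw0, hkwp, hkwm⟩ := hv.kw (x ^ 2) eX
  obtain ⟨hCp, hCm⟩ := hv.C (x ^ 2) eX
  simp only [withFarF, AF.force_eq] at h
  have hy1f := has_cst (S := S) (T := T) u1
  obtain ⟨hiy0, iy, hiy, h⟩ := withInv_sound hS hT h (hy1f.mul (has_one.add hy1f) hS hT)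
  obtain ⟨hu10, iu, hiu, h⟩ := withInv_sound hS hT h hy1f
  obtain ⟨hkpp0, ikp, hikp, h⟩ := withInv_sound hS hT h (has_ratio hS hT hv.kpp 2 1 one_pos)
  obtain ⟨hkpm0, ikm, hikm, h⟩ := withInv_sound hS hT h (has_ratio hS hT hv.kpm 2 1 one_pos)
  simp only [kmAF, Bool.and_eq_true] at h
  obtain ⟨heb, hzl, hL⟩ := h
  push_cast at hkpp0 hkpm0
  set S' := 1 - y ^ 2 with hS'
  have hS'0 : 0 < S' := by linarith
  have hs := semi_pos (t := y) ⟨by linarith [hy.1], hy.2⟩
  have hs2 : semi y ^ 2 = S' := semi_sq ⟨by linarith [hy.1], hy.2.le⟩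
  have hs1 : semi y ≤ 1 := Real.sqrt_le_one.2 (by nlinarith [hy.1] : 1 - y ^ 2 ≤ 1)
  have hxS : 1 - x ^ 2 * tau p = S' := by rw [eX]
  have hS1 : S' ≤ 1 := by nlinarith [hy.1]
  -- the two coefficients
  have hLt := ((he.t.mul hv.A0 hS hT).sub (hv.hu.mul hv.A1 hS hT))
  have hLv : (c.co (tau p)).L (tau p) (x ^ 2) R 0 * (tau p * S') =
      tau p * farLin0 (c.co (tau p)) (tau p) (1 - y ^ 2) R - y ^ 2 * farLin1 (c.co (tau p)) (tau p) := by
    have := farL_eq (c.co (tau p)) (τ := tau p) (X := x ^ 2) (R := R) (by rw [hxS]; exact hS'0.ne')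
    rw [hxS] at this
    rw [mul_left_comm, this, ← hS', ← eX]; ring
  set Lv := (c.co (tau p)).L (tau p) (x ^ 2) R 0
  have hgb := hv.hu.mul (he.GB.mul hv.Sv hS hT) hS hT
  have hQp := (hgb.sub ((he.t.mul hv.Sv hS hT).mul hv.hvp hS hT)).sub
    (((has_one.sub he.t).mul hv.hu hS hT).mul hv.hvp hS hT)
  have hQm := (hgb.sub ((he.t.mul hv.Sv hS hT).mul hv.hvm hS hT)).sub
    (((has_one.sub he.t).mul hv.hu hS hT).mul hv.hvm hS hT)
  have hQe : ∀ w : ℝ, (c.co (tau p)).Q (tau p) (x ^ 2) w 0 0 * (tau p * S') =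
      y ^ 2 * (((c.co (tau p)).G + (c.co (tau p)).b ^ 2 * (c.co (tau p)).D) * (1 + 2 * tau p) /
        (1 - tau p) * S') - tau p * S' * w - (1 - tau p) * y ^ 2 * w := fun w => by
    have := farQ_eq (c.co (tau p)) (τ := tau p) (X := x ^ 2) (v := w) (by rw [hxS]; exact hS'0.ne')
    rw [hxS] at this
    rw [mul_left_comm, this, ← eX]; ring
  have hkp := has_cst (S := S) (T := T) (Mid.nmax (posHi v.kw0) (posHi v.kwp))
  have hkm := has_cst (S := S) (T := T) (Mid.nmax (posHi v.kw0) (posHi v.kwm))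
  set kp := rn (Mid.nmax (posHi v.kw0) (posHi v.kwp)) with hkpd
  set km := rn (Mid.nmax (posHi v.kw0) (posHi v.kwm)) with hkmd
  have hkp0 : 0 ≤ kp := Mid.rn_nonneg _
  have hkm0 : 0 ≤ km := Mid.rn_nonneg _
  have hsr := has_cst (S := S) (T := T) (Nat.add (Nat.mul 4 hi) 1048576)
  set sr := rn (Nat.add (Nat.mul 4 hi) 1048576)
  have hxτ : x * tau p ≤ sr := by
    have hh0 := Mid.rn_nonneg hi
    have e : sr = 4 * rn hi + 1 / 16 := by
      simp only [sr, Nat.add_eq, Nat.mul_eq, rn]; push_cast; ring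
    refine (pow_le_pow_iff_left₀ (by positivity) (Mid.rn_nonneg _) two_ne_zero).1 ?_
    have a1 : (x * tau p) ^ 2 ≤ rn hi := by
      rw [mul_pow, pow_two (tau p), ← mul_assoc, eX]
      exact (mul_le_of_le_one_left hτ0.le hy2.le).trans hτr.2
    rw [show sr ^ 2 = (4 * rn hi + 1 / 16) ^ 2 by rw [← e]]
    linarith [sq_nonneg (4 * rn hi - 1 / 16)]
  have hthp := hv.Sv.mul hiy hS hT
  have hthm := (he.Kt2.mul (hv.Sv.mul he.i1 hS hT) hS hT).mul hiu hS hT
  set thp := S' * (rn u1 * (1 + rn u1))⁻¹ with hthpd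
  set thm := rn c.K * tau p ^ 2 * (S' * (1 / (1 - tau p))) * (rn u1)⁻¹ with hthmd
  have hthp0 : 0 ≤ thp := by positivity
  have hot : 0 < 1 - tau p := he.h1
  have hK0 := Mid.rn_nonneg c.K
  have hthm0 : 0 ≤ thm := by positivity
  set eb := rn c.K * (tau p / (1 - tau p)) with hebd
  have heb0 : 0 ≤ eb := by rw [hebd]; positivity
  have heb1 : eb ≤ 1 := by
    have := nn_le hS hT heb (has_one.sub he.eb)
    linarith
  have hFp := ((((has_ratio hS hT hsr 19 20 (by norm_num)).mul (((he.t.mul hv.hR hS hT).add hkp).add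
    ((has_cst (absHi v.Cp)).mul hthp hS hT)) hS hT).add
      (he.t.mul ((hkp.mul hkp hS hT).mul hikp hS hT) hS hT)).add
    ((has_cst (posHi ((e.t.mul v.A0).sub (v.u.mul v.A1)))).mul hthp hS hT)).add
      ((has_cst (posHi (((v.u.mul (e.GB.mul v.Sv)).sub ((e.t.mul v.Sv).mul v.vp)).sub
        (((one.sub e.t).mul v.u).mul v.vp)))).mul (hthp.mul hthp hS hT) hS hT)
  have hFm := (((he.t.mul (((((he.t.mul hv.hR hS hT).mul he.eb hS hT).add (hkm.mul he.eb hS hT)).add
    ((hkm.mul hkm hS hT).mul hikm hS hT)).add ((has_cst (absHi v.Cm)).mul hthm hS hT)) hS hT)).add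
    ((has_cst (posHi ((e.t.mul v.A0).sub (v.u.mul v.A1)).neg')).mul hthm hS hT)).add
      ((has_cst (posHi (((v.u.mul (e.GB.mul v.Sv)).sub ((e.t.mul v.Sv).mul v.vm)).sub
        (((one.sub e.t).mul v.u).mul v.vm)))).mul (hthm.mul hthm hS hT) hS hT)
  have hLb := le_posHi hS hT (has_ratio hS hT ((hFp.add hFm).mul (has_one.add (has_cst hi)) hS hT) 5 1
    one_pos)
  have hnum := Mid.rn_nonneg (absHi v.Cp)
  have hnum2 := Mid.rn_nonneg (absHi v.Cm)
  have hzk' : zk ≤ _ := Nat.le_of_ble_eq_true hzl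
  have hw := far_weight hy (by omega : 2 ≤ p) hτr (Nat.le_of_ble_eq_true h3hi) hu0
    (zk_le hlo hτr.1 hkl hzc hzk) hzk' rfl
  push_cast at hLb
  set Cap := rn (absHi v.Cp)
  set Cam := rn (absHi v.Cm)
  set Lp := rn (posHi ((e.t.mul v.A0).sub (v.u.mul v.A1))) with hLpd
  set Lm := rn (posHi ((e.t.mul v.A0).sub (v.u.mul v.A1)).neg') with hLmd
  set Qbp := rn (posHi (((v.u.mul (e.GB.mul v.Sv)).sub ((e.t.mul v.Sv).mul v.vp)).sub
    (((one.sub e.t).mul v.u).mul v.vp))) with hQbp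
  set Qbm := rn (posHi (((v.u.mul (e.GB.mul v.Sv)).sub ((e.t.mul v.Sv).mul v.vm)).sub
    (((one.sub e.t).mul v.u).mul v.vm))) with hQbm
  have hLp0 : 0 ≤ Lp := Mid.rn_nonneg _
  have hLm0 : 0 ≤ Lm := Mid.rn_nonneg _
  have hQp0 : 0 ≤ Qbp := Mid.rn_nonneg _
  have hQm0 : 0 ≤ Qbm := Mid.rn_nonneg _
  have hR0 := hv.R0
  have hkppv : 0 < (c.co (tau p)).gc / (1 - tau p) := by linarith
  have hτS : 0 < tau p * S' := mul_pos hτ0 hS'0
  set Fp := 19 / 20 * sr * (tau p * R + kp + Cap * thp) +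
    tau p * (kp * kp * (2 * ((c.co (tau p)).gc / (1 - tau p)))⁻¹) + Lp * thp + Qbp * (thp * thp) with hFpd
  set Fm := tau p * (tau p * R * eb + km * eb + km * km * (2 * (((c.co (tau p)).gc - (c.co (tau p)).gc *
    ((c.co (tau p)).b - 1) / (1 - tau p) * (rn c.K * tau p ^ 2)) / (1 - tau p)))⁻¹ + Cam * thm) + Lm * thm +
    Qbm * (thm * thm) with hFmd
  have hFp0 : 0 ≤ Fp := by have := Mid.rn_nonneg (Nat.add (Nat.mul 4 hi) 1048576); positivity
  have hkpmv : 0 < ((c.co (tau p)).gc - (c.co (tau p)).gc *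
    ((c.co (tau p)).b - 1) / (1 - tau p) * (rn c.K * tau p ^ 2)) / (1 - tau p) := by linarith
  have hFm0 : 0 ≤ Fm := by positivity
  have hh1 : 0 ≤ 1 + rn hi := by linarith [Mid.rn_nonneg hi]
  have hLs : 5 * ((Fp + Fm) * (1 + rn hi)) ≤ _ := le_of_eq_of_le (by rw [hFpd, hFmd]; ring) hLb
  obtain ⟨Lc, hLc, fin⟩ : ∃ Lc : ℕ, 5 * ((Fp + Fm) * (1 + rn hi)) ≤ rn Lc ∧
      ∀ {f F : ℝ}, 0 ≤ F → 5 * (F * (1 + rn hi)) ≤ rn Lc → f * (tau p * S') ≤ F →
        semi y ^ (p + 1) * (tau p * f) ≤ k * tau p ^ 3 * (rn c.dl / (1 + x ^ 2)) :=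
    ⟨_, hLs, fun hF0 hF hf => far_fin (by omega) hk eX hy2.le hτr hw hs2 hs hL hF0 hF hf⟩
  refine ⟨fun hty => ?_, fun hyt => ?_⟩
  · -- `t ≤ y`
    obtain ⟨hyz, hwW⟩ := behind_facts hpt hp hk hkK hK hty
    have hzl0 : y * (y - t) ≤ rn c.K * tau p ^ 2 * (S' * (1 / (1 - tau p))) :=
      hyz.trans (mul_le_mul_of_nonneg_right (mul_le_mul_of_nonneg_right hkK (sq_nonneg _)) (by positivity))
    have hkp' := kp_mono (p := p) (X := x ^ 2) (c := c.co (tau p))
      (z0 := -(rn c.K * tau p ^ 2 * (S' * (1 / (1 - tau p))))) (z := y * (t - y)) hb hok.hD.1 hot.le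
      (by linarith)
    set kpv := ((c.co (tau p)).gc - (c.co (tau p)).gc *
      ((c.co (tau p)).b - 1) / (1 - tau p) * (rn c.K * tau p ^ 2)) / (1 - tau p) with hkpvd
    have hth : |t - y| ≤ thm * y := by
      rw [abs_of_nonpos (by linarith)]
      refine le_of_mul_le_mul_left ?_ hy.1
      refine le_trans (le_of_eq_of_le (by ring) hzl0) ?_
      rw [hthmd, show y * (rn c.K * tau p ^ 2 * (S' * (1 / (1 - tau p))) * (rn u1)⁻¹ * y) =
        rn c.K * tau p ^ 2 * (S' * (1 / (1 - tau p))) * (y ^ 2 / rn u1) by ring]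
      exact le_mul_of_one_le_right (by positivity) ((one_le_div hu10).2 hu0)
    have hc := crude_point (R := c.R.val (tau p)) (R' := c.R.der (tau p)) (v := c.Vm.val (tau p))
      (v' := c.Vm.der (tau p)) (c2 := c2) (km := km) (W := 1 + eb) (th := thm) (Ls := Lm / (tau p * S'))
      (Ca := Cam) (Qb := Qbm / (tau p * S')) (kp := S' * kpv) hok hpt hk hwW (le_add_of_nonneg_right heb0)
      (by rw [← hx, hRX]; exact hR0)
      (by
        rw [← hx]
        refine le_of_eq_of_le ?_ hkp'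
        rw [hkpvd]; simp only [Co.kp]; rw [hxS]; ring)
      (mul_pos hS'0 hkpmv)
      (by
        rw [← hx]
        exact kw_ends ⟨by linarith, mul_nonpos_of_nonneg_of_nonpos hy.1.le (by linarith)⟩
          ((le_posHi hS hT hkwm).trans (Mid.rn_le (Mid.le_nmax_right _ _)))
          ((le_posHi hS hT hkw0).trans (Mid.rn_le (Mid.le_nmax_left _ _))))
      hkm0 hth
      (by
        rw [← hx, hRX, hRd, abs_of_nonpos (by linarith : t - y ≤ 0)]
        have h1 : -Lv ≤ Lm / (tau p * S') := by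
          rw [le_div_iff₀ hτS, neg_mul, hLv]
          exact le_posHi hS hT hLt.neg
        have := mul_le_mul_of_nonneg_right h1 (show 0 ≤ -(t - y) by linarith)
        linarith)
      (by positivity) (by rw [← hx, hmX]; exact abs_le_absHi hS hT hCm)
      (by
        rw [← hx, hmX, hmd, le_div_iff₀ hτS, hQe]
        exact le_posHi hS hT hQm)
      (by positivity)
    refine hc.trans ?_
    rw [mul_add]
    refine add_le_add le_rfl (fin (F := Fm) hFm0 ?_ ?_)
    · have := mul_nonneg hFp0 hh1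
      linarith only [this, hLc]
    · rw [← hx, hRX, eX, show 1 + eb - 1 = eb by ring, max_eq_left heb1, mul_one, hFmd]
      have m1 : max (km * eb) (km ^ 2 / (2 * (S' * kpv))) ≤ km * eb + km ^ 2 / (2 * (S' * kpv)) :=
        max_le_add_of_nonneg (by positivity) (by positivity)
      have g1 : km ^ 2 / (2 * (S' * kpv)) * (tau p * S') = tau p * (km * km * (2 * kpv)⁻¹) := by
        field_simp
      have g2 : Lm / (tau p * S') * (y ^ 2 * thm) * (tau p * S') = Lm * thm * y ^ 2 := by field_simp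
      have g3 : Qbm / (tau p * S') * thm ^ 2 * (tau p * S') = Qbm * (thm * thm) := by field_simp
      have q1 : (tau p * R * eb + km * eb + Cam * thm) * (tau p * S') ≤
          (tau p * R * eb + km * eb + Cam * thm) * tau p :=
        mul_le_mul_of_nonneg_left (mul_le_of_le_one_right hτ0.le hS1) (by positivity)
      have q2 : Lm * thm * y ^ 2 ≤ Lm * thm := mul_le_of_le_one_right (by positivity) hy2.le
      have q3 := mul_le_mul_of_nonneg_right m1 hτS.le
      linear_combination q3 + q1 + g1 + g2 + q2 + g3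
  · -- `y ≤ t`
    obtain ⟨hwW, hW1⟩ := wide_w hpt (by omega) hx hx5
    have hz' : y * (t - y) ≤ (1 : ℕ) / (2 : ℕ) * S' := by
      have a1 := mul_le_mul_of_nonneg_left (show t - y ≤ 1 - y by linarith only [ht.2]) hy.1.le
      push_cast
      linarith only [a1, sq_nonneg (1 - y), hS']
    have hkp' := kp_mono (p := p) (X := x ^ 2) (c := c.co (tau p)) (z0 := 0) (z := y * (t - y)) hb
      hok.hD.1 hot.le (mul_nonneg hy.1.le (by linarith))
    have hth : |t - y| ≤ thp * y := by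
      rw [abs_of_nonneg (by linarith), hthpd, ← div_eq_mul_inv, div_mul_eq_mul_div, le_div_iff₀ hiy0]
      have a1 : rn u1 * (1 + rn u1) ≤ y * (1 + y) := by
        have : y ^ 2 ≤ y := by
          rw [pow_two]; exact mul_le_of_le_one_right hy.1.le hy.2.le
        exact mul_le_mul (hu0.trans this) (add_le_add le_rfl (hu0.trans this))
          (add_nonneg zero_le_one (Mid.rn_nonneg _)) hy.1.le
      have := mul_le_mul (show t - y ≤ 1 - y by linarith only [ht.2]) a1 hiy0.le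
        (show 0 ≤ 1 - y by linarith only [hy.2])
      rw [hS']
      linarith only [this]
    set W := 19 / 20 * x / semi y with hWd
    set kpv := (c.co (tau p)).gc / (1 - tau p) with hkpvd
    have hc := crude_point (R := c.R.val (tau p)) (R' := c.R.der (tau p)) (v := c.Vp.val (tau p))
      (v' := c.Vp.der (tau p)) (c2 := c2) (km := kp) (W := W) (th := thp) (Ls := Lp / (tau p * S'))
      (Ca := Cap) (Qb := Qbp / (tau p * S')) (kp := S' * kpv) hok hpt hk hwW hW1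
      (by rw [← hx, hRX]; exact hR0)
      (by
        rw [← hx]
        refine le_of_eq_of_le ?_ hkp'
        rw [hkpvd]; simp only [Co.kp]; rw [hxS]; ring)
      (mul_pos hS'0 hkppv)
      (by
        rw [← hx]
        exact kw_ends ⟨mul_nonneg hy.1.le (by linarith), hz'⟩
          ((le_posHi hS hT hkw0).trans (Mid.rn_le (Mid.le_nmax_left _ _)))
          ((le_posHi hS hT hkwp).trans (Mid.rn_le (Mid.le_nmax_right _ _))))
      hkp0 hth
      (by
        rw [← hx, hRX, hRd, abs_of_nonneg (by linarith : 0 ≤ t - y)]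
        refine mul_le_mul_of_nonneg_right ?_ (by linarith)
        rw [le_div_iff₀ hτS, hLv]
        exact le_posHi hS hT hLt)
      (by positivity) (by rw [← hx, hpX]; exact abs_le_absHi hS hT hCp)
      (by
        rw [← hx, hpX, hpd, le_div_iff₀ hτS, hQe]
        exact le_posHi hS hT hQp)
      (by positivity)
    refine hc.trans ?_
    rw [mul_add]
    refine add_le_add le_rfl (fin (F := Fp) hFp0 ?_ ?_)
    · have := mul_nonneg hFm0 hh1
      linarith only [this, hLc]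
    · rw [← hx, hRX, eX, hFpd]
      have hWS : W * (tau p * S') ≤ 19 / 20 * sr := by
        have e : W * (tau p * S') = 19 / 20 * (x * tau p) * semi y := by
          rw [hWd, ← hs2]; field_simp
        rw [e]
        exact (mul_le_of_le_one_right (by positivity) hs1).trans
          (mul_le_mul_of_nonneg_left hxτ (by norm_num))
      have m1 : max (kp * (W - 1)) (kp ^ 2 / (2 * (S' * kpv))) ≤ kp * W + kp ^ 2 / (2 * (S' * kpv)) :=
        max_le ((mul_le_mul_of_nonneg_left (sub_le_self W zero_le_one) hkp0).trans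
          (le_add_of_nonneg_right (by positivity))) (le_add_of_nonneg_left (by positivity))
      have m2 : tau p * R * (W - 1) + Cap * thp * max 1 (W - 1) ≤ (tau p * R + Cap * thp) * W := by
        have a1 := mul_le_mul_of_nonneg_left (sub_le_self W zero_le_one) (mul_nonneg hτ0.le hR0)
        have a2 := mul_le_mul_of_nonneg_left (max_le hW1 (sub_le_self W zero_le_one))
          (mul_nonneg hnum hthp0)
        linarith
      have g1 : kp ^ 2 / (2 * (S' * kpv)) * (tau p * S') = tau p * (kp * kp * (2 * kpv)⁻¹) := by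
        field_simp
      have g2 : Lp / (tau p * S') * (y ^ 2 * thp) * (tau p * S') = Lp * thp * y ^ 2 := by field_simp
      have g3 : Qbp / (tau p * S') * thp ^ 2 * (tau p * S') = Qbp * (thp * thp) := by field_simp
      have q2 : Lp * thp * y ^ 2 ≤ Lp * thp := mul_le_of_le_one_right (mul_nonneg hLp0 hthp0) hy2.le
      have eA : tau p * R * (W - 1) + max (kp * (W - 1)) (kp ^ 2 / (2 * (S' * kpv))) +
          Cap * thp * max 1 (W - 1) + Lp / (tau p * S') * (y ^ 2 * thp) + Qbp / (tau p * S') * thp ^ 2 =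
          (tau p * R * (W - 1) + Cap * thp * max 1 (W - 1)) + max (kp * (W - 1))
            (kp ^ 2 / (2 * (S' * kpv))) + Lp / (tau p * S') * (y ^ 2 * thp) +
            Qbp / (tau p * S') * thp ^ 2 := by ring
      rw [eA]
      exact far_alg_ahead (A := tau p * R * (W - 1) + Cap * thp * max 1 (W - 1)) (τS := tau p * S')
        (M := max (kp * (W - 1)) (kp ^ 2 / (2 * (S' * kpv))))
        (L2 := Lp / (tau p * S') * (y ^ 2 * thp)) (Qd := Qbp / (tau p * S') * thp ^ 2)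
        (B := (tau p * R + Cap * thp) * W) (Bw := kp * W) (Gd := kp ^ 2 / (2 * (S' * kpv)))
        (P := tau p * R + kp + Cap * thp) (W := W) (sr := 19 / 20 * sr)
        (Gt := tau p * (kp * kp * (2 * kpv)⁻¹)) (Lt := Lp * thp) (Qt := Qbp * (thp * thp))
        (add_le_add m1 m2) (by ring) hWS
        (add_nonneg (add_nonneg (mul_nonneg hτ0.le hR0) hkp0) (mul_nonneg hnum hthp0)) g1
        (g2.trans_le q2) g3 hτS.le (le_of_eq (by ring))

end Vale.Agent.P237.All.Transport.Small.Large
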